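import Vale.Agent.P232.LenGlue

/-!
# P232: the band-free case from the slicing inequality and its one-variable bound
-/

open MeasureTheory Set Filter
open scoped ENNReal Real Topology

noncomputable section

namespace Vale.Agent.P232

/-- The slicing inequality for reduced sets, in every order of the axes. -/
def SlicingSpec : Prop :=
  ∀ (D : Set R3) (M : ℝ), IsReduced D M → ∀ i j : Fin 3, i ≠ j →
    ∀ c s : ℝ → ℝ, Continuous c → Continuous s → (∀ t, 0 ≤ c t) → (∀ t, 0 ≤ s t) →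
      (∀ t, c t ^ 2 + s t ^ 2 ≤ 1) → ∀ z₀ ∈ Ioo (0 : ℝ) 1, ∀ z₁ ∈ Ioo (0 : ℝ) 1, z₀ ≤ z₁ →
        IntervalIntegrable (fun z => c (sliceArea D i j z) * Slicing.len (heightExt D i j z))
            volume 0 1 ∧
          (∫ z in (0 : ℝ)..1, c (sliceArea D i j z) * Slicing.len (heightExt D i j z)) +
            ∫ t in (sliceArea D i j z₁)..(sliceArea D i j z₀), s t ≤ M

/-- The one-variable inequality of the band-free case. -/
def BandFreeRealSpec : Prop :=
  ∀ (A : ℝ → ℝ) (p : ℝ), AntitoneOn A (Ioo 0 1) → (∀ z ∈ Ioo (0 : ℝ) 1, A z ∈ Icc (0 : ℝ) 1) →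
    (∀ c s : ℝ → ℝ, Continuous c → Continuous s → (∀ t, 0 ≤ c t) → (∀ t, 0 ≤ s t) →
      (∀ t, c t ^ 2 + s t ^ 2 ≤ 1) → ∀ z₀ ∈ Ioo (0 : ℝ) 1, ∀ z₁ ∈ Ioo (0 : ℝ) 1, z₀ ≤ z₁ →
        (∫ z in (0 : ℝ)..1, c (A z) * Real.sqrt (π * min (A z) (1 - A z))) +
          ∫ t in (A z₁)..(A z₀), s t ≤ p) →
      candidate (∫ z in (0 : ℝ)..1, A z) ≤ 2 * p

/-- The band-free case. -/
theorem bandFree_of (hS : SlicingSpec) (hR : BandFreeRealSpec) : BandFreeSpec := by
  intro D M h i j hij
  have hdown := h.down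
  have hA := antitone_sliceArea (i := i) (j := j) hdown
  rw [boxVolume_eq hdown h.subset h.measurable hij.1]
  refine hR _ M (hA.antitoneOn _) (fun z _ => sliceArea_mem hdown z) ?_
  intro c s hc hs hc0 hs0 hcs z₀ hz₀ z₁ hz₁ hz
  obtain ⟨hint, hle⟩ := hS D M h i j hij.1 c s hc hs hc0 hs0 hcs z₀ hz₀ z₁ hz₁ hz
  refine le_trans (add_le_add_left ?_ _) hle
  refine intervalIntegral.integral_mono_on_of_le_Ioo zero_le_one ?_ hint fun z hz' =>
    mul_le_mul_of_nonneg_left (sqrt_le_len hdown hij hz') (hc0 _)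
  rw [intervalIntegrable_iff_integrableOn_Ioc_of_le zero_le_one]
  refine IntegrableOn.of_bound measure_Ioc_lt_top
    (((hc.measurable.comp hA.measurable).mul ((Real.continuous_sqrt.comp
      (continuous_const.mul (continuous_id.min (continuous_const.sub continuous_id)))).measurable.comp
        hA.measurable)).aestronglyMeasurable) (Real.sqrt π) (Eventually.of_forall fun z => ?_)
  have hm := sliceArea_mem (i := i) (j := j) hdown z
  simp only [Real.norm_eq_abs, abs_mul, abs_of_nonneg (hc0 _), Function.comp_def, id,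
    abs_of_nonneg (Real.sqrt_nonneg _)]
  refine le_trans (mul_le_of_le_one_left (Real.sqrt_nonneg _) ?_) (Real.sqrt_le_sqrt ?_)
  · nlinarith [hcs (sliceArea D i j z), sq_nonneg (s (sliceArea D i j z))]
  · exact mul_le_of_le_one_right Real.pi_pos.le ((min_le_left _ _).trans hm.2)

end Vale.Agent.P232
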