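import Vale.Agent.P232.LenGlue

/-!
# P232: budgets

The wrap data of the slices in one direction integrate to limits of slice areas in the other
directions: `∫ u = lim A_i (1-)`, `∫ Y = lim A_i (0+)`, `∫ w = lim A_j (1-)`, `∫ X = lim A_j (0+)`.
-/

open MeasureTheory Set Filter
open scoped ENNReal Real Topology

noncomputable section

namespace Vale.Agent.P232

variable {D : Set R3} {i j k : Fin 3}

theorem mkPoint_perm (hij : i ≠ j) (hki : k ≠ i) (hkj : k ≠ j)
    (hall : ∀ l, l = i ∨ l = j ∨ l = k) (a b c : ℝ) :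
    mkPoint k j c b a = mkPoint i j a b c := by
  funext l
  rcases hall l with rfl | rfl | rfl
  · simp [mkPoint, hki.symm, hij]
  · simp [mkPoint, hkj.symm, hij.symm]
  · simp [mkPoint, hki, hkj]

theorem mkPoint_swap (hij : i ≠ j) (a b c : ℝ) : mkPoint j i b a c = mkPoint i j a b c := by
  funext l
  unfold mkPoint
  split_ifs <;> simp_all

theorem heightExt_perm (hij : i ≠ j) (hki : k ≠ i) (hkj : k ≠ j)
    (hall : ∀ l, l = i ∨ l = j ∨ l = k) (a c : ℝ) :
    heightExt D k j a c = heightExt D i j c a := by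
  simp only [heightExt, height, mkPoint_perm hij hki hkj hall]

variable (hdown : ∀ x ∈ D, ∀ y ∈ box, y ≤ x → y ∈ D)
include hdown

theorem tendsto_heightExt (c : ℝ) :
    Tendsto (heightExt D i j c) (𝓝[>] 0) (𝓝 (leftHeight (heightExt D i j c))) ∧
      Tendsto (heightExt D i j c) (𝓝[<] 1) (𝓝 (rightHeight (heightExt D i j c))) :=
  ⟨((antitone_heightExt hdown c).antitoneOn _).tendsto_nhdsWithin_Ioo_right
      (nonempty_Ioo.2 zero_lt_one)
      (isHeight_of_antitone (antitone_heightExt hdown c) (heightExt_mem D i j c)).bdd_image.1,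
    ((antitone_heightExt hdown c).antitoneOn _).tendsto_nhdsWithin_Ioo_left
      (nonempty_Ioo.2 zero_lt_one)
      (isHeight_of_antitone (antitone_heightExt hdown c) (heightExt_mem D i j c)).bdd_image.2⟩

/-- `∫ u` and `∫ Y` are limits of the slice areas orthogonal to `e i`. -/
theorem tendsto_sliceArea (hij : i ≠ j) (hki : k ≠ i) (hkj : k ≠ j)
    (hall : ∀ l, l = i ∨ l = j ∨ l = k) :
    Tendsto (sliceArea D k j) (𝓝[>] 0)
        (𝓝 (∫ c in (0 : ℝ)..1, leftHeight (heightExt D i j c))) ∧
      Tendsto (sliceArea D k j) (𝓝[<] 1)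
        (𝓝 (∫ c in (0 : ℝ)..1, rightHeight (heightExt D i j c))) := by
  have e : sliceArea D k j = fun a => ∫ c in (0 : ℝ)..1, heightExt D i j c a := by
    funext a
    refine intervalIntegral.integral_congr fun c _ => ?_
    exact heightExt_perm hij hki hkj hall a c
  rw [e]
  have main : ∀ (L : Filter ℝ) [L.IsCountablyGenerated] (g : ℝ → ℝ),
      (∀ c, Tendsto (heightExt D i j c) L (𝓝 (g c))) →
      Tendsto (fun a => ∫ c in (0 : ℝ)..1, heightExt D i j c a) L
        (𝓝 (∫ c in (0 : ℝ)..1, g c)) := by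
    intro L _ g hg
    refine intervalIntegral.tendsto_integral_filter_of_dominated_convergence (fun _ => (1 : ℝ))
      (Eventually.of_forall fun a => ?_) (Eventually.of_forall fun a => ?_)
      intervalIntegrable_const (Eventually.of_forall fun c _ => hg c)
    · exact (antitone_heightExt_fst hdown a).measurable.aestronglyMeasurable
    · refine Eventually.of_forall fun c _ => ?_
      rw [Real.norm_eq_abs, abs_of_nonneg (heightExt_mem D i j c a).1]
      exact (heightExt_mem D i j c a).2
  exact ⟨main _ _ fun c => (tendsto_heightExt hdown c).1,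
    main _ _ fun c => (tendsto_heightExt hdown c).2⟩

/-- Transposing a slice exchanges `(w, X)` with `(u, Y)`. -/
theorem topWidth_eq_rightHeight (hij : i ≠ j) (c : ℝ) :
    topWidth (heightExt D i j c) = rightHeight (heightExt D j i c) ∧
      botWidth (heightExt D i j c) = leftHeight (heightExt D j i c) := by
  have hf : IsHeight (heightExt D i j c) :=
    isHeight_of_antitone (antitone_heightExt hdown c) (heightExt_mem D i j c)
  have hg : IsHeight (heightExt D j i c) :=
    isHeight_of_antitone (antitone_heightExt hdown c) (heightExt_mem D j i c)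
  set c' := clamp c with hc'
  have hcm : c' ∈ Icc (0 : ℝ) 1 := clamp_mem c
  have e1 : ∀ {a}, a ∈ Icc (0 : ℝ) 1 → heightExt D i j c a = height D i j c' a :=
    fun {a} ha => by rw [heightExt, clamp_of_mem ha]
  have e2 : ∀ {a}, a ∈ Icc (0 : ℝ) 1 → heightExt D j i c a = height D j i c' a :=
    fun {a} ha => by rw [heightExt, clamp_of_mem ha]
  have up : ∀ {a b}, a ∈ Ioo (0 : ℝ) 1 → b ∈ Ioo (0 : ℝ) 1 →
      b < heightExt D i j c a → a ≤ heightExt D j i c b := fun {a b} ha hb h => by
    rw [e2 (Ioo_subset_Icc_self hb)]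
    rw [e1 (Ioo_subset_Icc_self ha)] at h
    refine le_height (Ioo_subset_Icc_self ha) ?_
    rw [mkPoint_swap hij]
    exact mem_of_lt_height hdown (Ioo_subset_Icc_self ha) hb.1.le hcm h
  have down : ∀ {a b}, a ∈ Ioo (0 : ℝ) 1 → b ∈ Ioo (0 : ℝ) 1 →
      a < heightExt D j i c b → b ≤ heightExt D i j c a := fun {a b} ha hb h => by
    rw [e1 (Ioo_subset_Icc_self ha)]
    rw [e2 (Ioo_subset_Icc_self hb)] at h
    refine le_height (Ioo_subset_Icc_self hb) ?_
    have := mem_of_lt_height hdown (Ioo_subset_Icc_self hb) ha.1.le hcm h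
    rwa [mkPoint_swap hij] at this
  have hne : (heightExt D j i c '' Ioo 0 1).Nonempty := (nonempty_Ioo.2 zero_lt_one).image _
  have hu0 : 0 ≤ rightHeight (heightExt D j i c) :=
    le_csInf hne (by rintro _ ⟨x, hx, rfl⟩; exact (hg.mem x hx).1)
  constructor
  · refine le_antisymm (csSup_le (insert_nonempty _ _) ?_) (le_of_forall_lt_imp_le_of_dense ?_)
    · rintro a (rfl | ⟨ha, h1⟩)
      · exact hu0
      refine le_csInf hne ?_
      rintro _ ⟨b, hb, rfl⟩
      exact up ha hb (hb.2.trans_le h1)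
    · intro a ha
      rcases le_or_gt a 0 with h0 | h0
      · exact h0.trans IsHeight.topWidth_nonneg
      have ha1 : a < 1 :=
        ha.trans_le ((hg.rightHeight_le (x := 1 / 2) ⟨by norm_num, by norm_num⟩).trans
          (hg.mem _ ⟨by norm_num, by norm_num⟩).2)
      refine le_csSup (IsHeight.bdd _) (mem_insert_of_mem _ ⟨⟨h0, ha1⟩, ?_⟩)
      refine le_of_forall_lt_imp_le_of_dense fun b hb => ?_
      have hb' : max b (1 / 2) ∈ Ioo (0 : ℝ) 1 :=
        ⟨lt_max_of_lt_right (by norm_num), max_lt hb (by norm_num)⟩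
      exact (le_max_left _ _).trans (down ⟨h0, ha1⟩ hb' (ha.trans_le (hg.rightHeight_le hb')))
  · refine le_antisymm (csSup_le (insert_nonempty _ _) ?_) (csSup_le hne ?_)
    · rintro a (rfl | ⟨ha, h1⟩)
      · exact hu0.trans ((hg.rightHeight_le (x := 1 / 2) ⟨by norm_num, by norm_num⟩).trans
          (hg.le_leftHeight ⟨by norm_num, by norm_num⟩))
      set b := heightExt D i j c a / 2 with hb
      have hbI : b ∈ Ioo (0 : ℝ) 1 := ⟨by linarith, by linarith [(hf.mem a ha).2]⟩
      exact (up ha hbI (by linarith)).trans (hg.le_leftHeight hbI)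
    · rintro _ ⟨b, hb, rfl⟩
      refine le_of_forall_lt_imp_le_of_dense fun a ha => ?_
      rcases le_or_gt a 0 with h0 | h0
      · exact h0.trans IsHeight.botWidth_mem.1
      have ha1 : a < 1 := ha.trans_le (hg.mem b hb).2
      exact le_csSup (IsHeight.bdd _) (mem_insert_of_mem _
        ⟨⟨h0, ha1⟩, hb.1.trans_le (down ⟨h0, ha1⟩ hb ha)⟩)

/-- `∫ w` and `∫ X` are limits of the slice areas orthogonal to `e j`. -/
theorem tendsto_sliceArea_transpose (hij : i ≠ j) (hki : k ≠ i) (hkj : k ≠ j)
    (hall : ∀ l, l = i ∨ l = j ∨ l = k) :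
    Tendsto (sliceArea D k i) (𝓝[>] 0)
        (𝓝 (∫ c in (0 : ℝ)..1, botWidth (heightExt D i j c))) ∧
      Tendsto (sliceArea D k i) (𝓝[<] 1)
        (𝓝 (∫ c in (0 : ℝ)..1, topWidth (heightExt D i j c))) := by
  have h := tendsto_sliceArea hdown hij.symm hkj hki
    (fun l => by rcases hall l with h | h | h <;> simp [h])
  simp only [(topWidth_eq_rightHeight hdown hij _).1, (topWidth_eq_rightHeight hdown hij _).2]
  exact h

end Vale.Agent.P232
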