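import Mathlib

/-!
# P232: calibration by slices (route section 4)

One direction of slicing gives, for a height `z`, the slice data `(A, u, w, Y, X)` and a length `l`,
with `∫ c(A) l + ∫_a^{A0} s ≤ p` for all continuous `c, s ≥ 0` with `c² + s² ≤ 1`.  A multiplier
vector that is dominated by `c(A) l` on admissible slices then bounds `p` by the linear budgets.
-/

open MeasureTheory Set Filter
open scoped Interval

noncomputable section

namespace Vale.Agent.P232.Calib

/-- The data of a down-set slice of the unit square. -/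
structure Data where
  /-- area -/
  A : ℝ
  /-- height at the far end of the first axis -/
  u : ℝ
  /-- width at the far end of the second axis -/
  w : ℝ
  /-- extent on the second axis -/
  Y : ℝ
  /-- extent on the first axis -/
  X : ℝ

/-- A multiplier vector of the calibration. -/
structure Mult where
  /-- multiplier of the area -/
  lam : ℝ
  /-- constant term -/
  E : ℝ
  /-- multiplier of `u` -/
  au : ℝ
  /-- multiplier of `w` -/
  aw : ℝ
  /-- multiplier of `Y` -/
  bY : ℝ
  /-- multiplier of `X` -/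
  bX : ℝ

/-- The linear form of a multiplier vector. -/
def Mult.val (m : Mult) (σ : Data) : ℝ :=
  m.lam * σ.A + m.E + m.au * σ.u + m.aw * σ.w + m.bY * σ.Y + m.bX * σ.X

/-- The slices of one direction, as functions of the height, with their length bound. -/
structure Family where
  /-- slice at a height -/
  slice : ℝ → Data
  /-- length bound at a height -/
  len : ℝ → ℝ
  intA : IntervalIntegrable (fun z => (slice z).A) volume 0 1
  intu : IntervalIntegrable (fun z => (slice z).u) volume 0 1
  intw : IntervalIntegrable (fun z => (slice z).w) volume 0 1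
  intY : IntervalIntegrable (fun z => (slice z).Y) volume 0 1
  intX : IntervalIntegrable (fun z => (slice z).X) volume 0 1
  intlen : IntervalIntegrable len volume 0 1

/-- The linear form applied to the integrated data. -/
def Family.budget (F : Family) : Data :=
  ⟨∫ z in (0:ℝ)..1, (F.slice z).A, ∫ z in (0:ℝ)..1, (F.slice z).u,
    ∫ z in (0:ℝ)..1, (F.slice z).w, ∫ z in (0:ℝ)..1, (F.slice z).Y,
    ∫ z in (0:ℝ)..1, (F.slice z).X⟩

/-- The slicing inequality with end areas `a` (top) and `A0` (bottom). -/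
def SliceBound (F : Family) (a A0 p : ℝ) : Prop :=
  ∀ c s : ℝ → ℝ, Continuous c → Continuous s → (∀ t, 0 ≤ c t) → (∀ t, 0 ≤ s t) →
    (∀ t, c t ^ 2 + s t ^ 2 ≤ 1) →
      (∫ z in (0:ℝ)..1, c (F.slice z).A * F.len z) + ∫ t in a..A0, s t ≤ p

/-- A multiplier vector dominated by `c(A) l` on the admissible slices. -/
def Dominated (Adm : Data → ℝ → Prop) (m : Mult) (c : ℝ → ℝ) : Prop :=
  ∀ σ l, Adm σ l → m.val σ ≤ c σ.A * l

theorem Family.intVal (F : Family) (m : Mult) :
    IntervalIntegrable (fun z => m.val (F.slice z)) volume 0 1 :=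
  ((((F.intA.const_mul m.lam).add intervalIntegrable_const).add (F.intu.const_mul m.au)).add
    (F.intw.const_mul m.aw)).add (F.intY.const_mul m.bY) |>.add (F.intX.const_mul m.bX)

theorem Family.integral_val (F : Family) (m : Mult) :
    ∫ z in (0:ℝ)..1, m.val (F.slice z) = m.val F.budget := by
  unfold Mult.val Family.budget
  have h1 := F.intA.const_mul m.lam
  have h2 : IntervalIntegrable (fun _ : ℝ => m.E) volume 0 1 := intervalIntegrable_const
  have h3 := F.intu.const_mul m.au
  have h4 := F.intw.const_mul m.aw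
  have h5 := F.intY.const_mul m.bY
  have h6 := F.intX.const_mul m.bX
  rw [intervalIntegral.integral_add (((((h1.add h2).add h3).add h4).add h5)) h6,
    intervalIntegral.integral_add ((((h1.add h2).add h3).add h4)) h5,
    intervalIntegral.integral_add (((h1.add h2).add h3)) h4,
    intervalIntegral.integral_add ((h1.add h2)) h3,
    intervalIntegral.integral_add h1 h2]
  simp

theorem Family.intCLen (F : Family) {c : ℝ → ℝ} (hc : Continuous c) (B : ℝ)
    (hB : ∀ t, |c t| ≤ B) :
    IntervalIntegrable (fun z => c (F.slice z).A * F.len z) volume 0 1 := by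
  have hA := F.intA.1.1
  have hl := F.intlen
  rw [intervalIntegrable_iff] at hl ⊢
  have hA' : AEStronglyMeasurable (fun z => (F.slice z).A) (volume.restrict (Ι (0:ℝ) 1)) :=
    (intervalIntegrable_iff.1 F.intA).1
  exact Integrable.bdd_mul hl (hc.comp_aestronglyMeasurable hA')
    (Eventually.of_forall fun z => by simpa [Real.norm_eq_abs] using hB (F.slice z).A)

/-- **Calibration inequality.** -/
theorem calibration (F : Family) {a A0 p : ℝ} (hF : SliceBound F a A0 p)
    {Adm : Data → ℝ → Prop}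
    (hAdm : ∀ᵐ z ∂volume.restrict (Icc (0:ℝ) 1), Adm (F.slice z) (F.len z))
    {m : Mult} {c s : ℝ → ℝ} (hc : Continuous c) (hs : Continuous s) (hc0 : ∀ t, 0 ≤ c t)
    (hs0 : ∀ t, 0 ≤ s t) (hcs : ∀ t, c t ^ 2 + s t ^ 2 ≤ 1) (hm : Dominated Adm m c) :
    m.val F.budget + ∫ t in a..A0, s t ≤ p := by
  have hB : ∀ t, |c t| ≤ 1 := fun t => by
    rw [abs_of_nonneg (hc0 t)]; nlinarith [hcs t, sq_nonneg (s t), hc0 t]
  have h1 : ∫ z in (0:ℝ)..1, m.val (F.slice z) ≤
      ∫ z in (0:ℝ)..1, c (F.slice z).A * F.len z :=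
    intervalIntegral.integral_mono_ae_restrict zero_le_one (F.intVal m) (F.intCLen hc 1 hB)
      (hAdm.mono fun z hz => hm _ _ hz)
  rw [F.integral_val] at h1
  linarith [hF c s hc hs hc0 hs0 hcs]

/-- The same, with the budgets given by name. -/
theorem calibration' (F : Family) {a A0 p : ℝ} (hF : SliceBound F a A0 p)
    {Adm : Data → ℝ → Prop}
    (hAdm : ∀ᵐ z ∂volume.restrict (Icc (0:ℝ) 1), Adm (F.slice z) (F.len z))
    {m : Mult} {c s : ℝ → ℝ} (hc : Continuous c) (hs : Continuous s) (hc0 : ∀ t, 0 ≤ c t)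
    (hs0 : ∀ t, 0 ≤ s t) (hcs : ∀ t, c t ^ 2 + s t ^ 2 ≤ 1) (hm : Dominated Adm m c)
    {V au aw bY bX : ℝ} (hV : ∫ z in (0:ℝ)..1, (F.slice z).A = V)
    (hu : ∫ z in (0:ℝ)..1, (F.slice z).u = au) (hw : ∫ z in (0:ℝ)..1, (F.slice z).w = aw)
    (hY : ∫ z in (0:ℝ)..1, (F.slice z).Y = bY) (hX : ∫ z in (0:ℝ)..1, (F.slice z).X = bX) :
    m.lam * V + m.E + m.au * au + m.aw * aw + m.bY * bY + m.bX * bX + ∫ t in a..A0, s t ≤ p := by
  have h := calibration F hF hAdm hc hs hc0 hs0 hcs hm
  simp only [Mult.val, Family.budget, hV, hu, hw, hY, hX] at h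
  exact h

/-- The sharp form: `s = √(1 - c²)`. -/
theorem calibration_sqrt (F : Family) {a A0 p : ℝ} (hF : SliceBound F a A0 p)
    {Adm : Data → ℝ → Prop}
    (hAdm : ∀ᵐ z ∂volume.restrict (Icc (0:ℝ) 1), Adm (F.slice z) (F.len z))
    {m : Mult} {c : ℝ → ℝ} (hc : Continuous c) (hc0 : ∀ t, 0 ≤ c t) (hc1 : ∀ t, c t ≤ 1)
    (hm : Dominated Adm m c) :
    m.val F.budget + ∫ t in a..A0, Real.sqrt (1 - c t ^ 2) ≤ p := by
  refine calibration F hF hAdm hc (by fun_prop) hc0 (fun t => Real.sqrt_nonneg _) (fun t => ?_) hm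
  rw [Real.sq_sqrt (by nlinarith [hc0 t, hc1 t])]
  linarith

end Vale.Agent.P232.Calib
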