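import Vale.Agent.P232.Defs

/-!
# P232: the topological cases of a reduced down set

`InAxis D i`: lines parallel to `e i` near the origin lie in `D`; `OutAxis D i`: lines parallel
to `e i` near `(1,1,1)` lie outside `D`.
-/

open MeasureTheory Set Filter
open scoped ENNReal Real Topology

noncomputable section

namespace Vale.Agent.P232

/-- The open cube. -/
def openBox : Set R3 := univ.pi fun _ => Ioo (0 : ℝ) 1

/-- `D` contains a thin bar around the axis `i`. -/
def InAxis (D : Set R3) (i : Fin 3) : Prop :=
  ∃ ε > (0 : ℝ), ∀ x ∈ openBox, (∀ l, l ≠ i → x l < ε) → x ∈ D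

/-- The complement of `D` contains a thin bar around the opposite axis `i`. -/
def OutAxis (D : Set R3) (i : Fin 3) : Prop :=
  ∃ ε > (0 : ℝ), ∀ x ∈ openBox, (∀ l, l ≠ i → 1 - ε < x l) → x ∉ D

/-- The reflected complement of `D`. -/
def mirror (D : Set R3) : Set R3 := {x | x ∈ box ∧ 1 - x ∉ D}

theorem mem_openBox {x : R3} : x ∈ openBox ↔ ∀ l, x l ∈ Ioo (0 : ℝ) 1 := by
  simp only [openBox, mem_univ_pi]

theorem openBox_subset_box : openBox ⊆ box := fun _ hx =>
  ⟨fun l => (mem_openBox.1 hx l).1.le, fun l => (mem_openBox.1 hx l).2.le⟩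

theorem one_sub_mem_openBox {x : R3} (hx : x ∈ openBox) : 1 - x ∈ openBox := by
  refine mem_openBox.2 fun l => ?_
  have := mem_openBox.1 hx l
  simp only [Pi.sub_apply, Pi.one_apply, mem_Ioo] at this ⊢
  exact ⟨by linarith [this.2], by linarith [this.1]⟩

theorem inAxis_mirror (D : Set R3) (i : Fin 3) : InAxis (mirror D) i ↔ OutAxis D i := by
  constructor <;> rintro ⟨ε, hε, h⟩ <;> refine ⟨ε, hε, fun x hx hl => ?_⟩
  · have := h (1 - x) (one_sub_mem_openBox hx) fun l hli => by
      have := hl l hli; simp only [Pi.sub_apply, Pi.one_apply]; linarith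
    simpa [mirror] using this.2
  · exact ⟨openBox_subset_box hx, h (1 - x) (one_sub_mem_openBox hx) fun l hli => by
      have := hl l hli; simp only [Pi.sub_apply, Pi.one_apply]; linarith⟩

theorem outAxis_mirror (D : Set R3) (i : Fin 3) : OutAxis (mirror D) i ↔ InAxis D i := by
  constructor <;> rintro ⟨ε, hε, h⟩ <;> refine ⟨ε, hε, fun x hx hl => ?_⟩
  · by_contra hD
    exact h (1 - x) (one_sub_mem_openBox hx) (fun l hli => by
      have := hl l hli; simp only [Pi.sub_apply, Pi.one_apply]; linarith)
      ⟨openBox_subset_box (one_sub_mem_openBox hx), by simpa using hD⟩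
  · rintro ⟨-, hD⟩
    exact hD (h (1 - x) (one_sub_mem_openBox hx) fun l hli => by
      have := hl l hli; simp only [Pi.sub_apply, Pi.one_apply]; linarith)

variable {D : Set R3} {M : ℝ}

/-- A point of `D` with positive transverse coordinates and far end `x i = 1` gives `InAxis`. -/
theorem inAxis_of_mem (hdown : ∀ x ∈ D, ∀ y ∈ box, y ≤ x → y ∈ D) {i : Fin 3} {p : R3}
    (hp : p ∈ D) (hpi : p i = 1) (hpos : ∀ l, l ≠ i → 0 < p l) : InAxis D i := by
  classical
  set ε := Finset.univ.inf' Finset.univ_nonempty (fun l => if l = i then (1 : ℝ) else p l) with hε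
  refine ⟨ε, (Finset.lt_inf'_iff _).2 fun l _ => ?_, fun x hx hl => ?_⟩
  · split_ifs with h
    exacts [one_pos, hpos l h]
  refine hdown p hp x (openBox_subset_box hx) fun l => ?_
  by_cases h : l = i
  · subst h; rw [hpi]; exact (mem_openBox.1 hx _).2.le
  · have h1 : ε ≤ if l = i then (1 : ℝ) else p l :=
      Finset.inf'_le (fun l => if l = i then (1 : ℝ) else p l) (Finset.mem_univ l)
    rw [if_neg h] at h1
    linarith [hl l h]

/-- Without `InAxis i`, the lines parallel to `e i` leave `D` before the far face. -/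
theorem exists_notMem_of_not_inAxis (hdown : ∀ x ∈ D, ∀ y ∈ box, y ≤ x → y ∈ D) {i : Fin 3}
    (h : ¬ InAxis D i) {p : R3} (hp : p ∈ openBox) :
    ∃ s ∈ Ioo (0 : ℝ) 1, Function.update p i s ∉ D := by
  classical
  by_contra hcon
  simp only [not_exists, not_and, not_not] at hcon
  set ε := Finset.univ.inf' Finset.univ_nonempty p with hε
  refine h ⟨ε, (Finset.lt_inf'_iff _).2 fun l _ => (mem_openBox.1 hp l).1, fun x hx hl => ?_⟩
  refine hdown _ (hcon (x i) (mem_openBox.1 hx i)) x (openBox_subset_box hx) fun l => ?_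
  by_cases hli : l = i
  · subst hli; simp
  · rw [Function.update_of_ne hli]
    exact (hl l hli).le.trans (Finset.inf'_le _ (Finset.mem_univ l))

/-- Without `OutAxis i`, the lines parallel to `e i` meet `D` beyond the near face. -/
theorem exists_mem_of_not_outAxis (hdown : ∀ x ∈ D, ∀ y ∈ box, y ≤ x → y ∈ D) {i : Fin 3}
    (h : ¬ OutAxis D i) {p : R3} (hp : p ∈ openBox) :
    ∃ s ∈ Ioo (0 : ℝ) 1, Function.update p i s ∈ D := by
  classical
  by_contra hcon
  simp only [not_exists, not_and] at hcon
  set ε := Finset.univ.inf' Finset.univ_nonempty (fun l => 1 - p l) with hε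
  refine h ⟨ε, (Finset.lt_inf'_iff _).2 fun l _ => sub_pos.2 (mem_openBox.1 hp l).2,
    fun x hx hl hxD => ?_⟩
  have hub : Function.update p i (x i) ∈ openBox := mem_openBox.2 fun l => by
    by_cases hli : l = i
    · subst hli; simpa using mem_openBox.1 hx _
    · simpa [Function.update_of_ne hli] using mem_openBox.1 hp l
  refine hcon (x i) (mem_openBox.1 hx i)
    (hdown x hxD _ (openBox_subset_box hub) fun l => ?_)
  by_cases hli : l = i
  · subst hli; simp
  · rw [Function.update_of_ne hli]
    have := hl l hli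
    have h2 : ε ≤ 1 - p l := Finset.inf'_le (fun l => 1 - p l) (Finset.mem_univ l)
    linarith

/-! ## An axis missing on both sides -/

theorem volume_square_diff : volume (square \ univ.pi fun _ : Fin 2 => Ioo (0 : ℝ) 1) = 0 := by
  have h : (univ.pi fun _ : Fin 2 => Ioo (0 : ℝ) 1) =ᵐ[volume] square :=
    Measure.univ_pi_Ioo_ae_eq_Icc
  exact (ae_eq_set.1 h).2

theorem volume_openSquare : volume (univ.pi fun _ : Fin 2 => Ioo (0 : ℝ) 1) = 1 := by
  rw [volume_pi_pi]; simp

theorem facePoint_apply_self (k : Fin 3) (c : ℝ) (y : R2) : facePoint k c y k = c :=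
  Fin.insertNth_apply_same (α := fun _ => ℝ) k c y

theorem facePoint_apply_succAbove (k : Fin 3) (c : ℝ) (y : R2) (l : Fin 2) :
    facePoint k c y (k.succAbove l) = y l :=
  Fin.insertNth_apply_succAbove (α := fun _ => ℝ) k c y l

/-- If neither `D` nor its complement contains the axis `k`, then `1 ≤ M`. -/
theorem one_le_of_not_in_not_out (h : IsReduced D M) {k : Fin 3} (hI : ¬ InAxis D k)
    (hO : ¬ OutAxis D k) : 1 ≤ M := by
  classical
  set S₁ := square ∩ facePoint k 1 ⁻¹' D
  set S₀ := square ∩ facePoint k 0 ⁻¹' D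
  have hb := h.bound (fun l _ => if l = k then 1 else 0) (fun l => contDiff_const)
    (fun x _ => by simp [ite_pow])
  have hdiv : ∀ x, divergence (fun l _ => if l = k then (1 : ℝ) else 0) x = 0 := fun x => by
    simp [divergence, pd]
  have hflux : flux D (fun l _ => if l = k then (1 : ℝ) else 0) =
      volume.real S₁ - volume.real S₀ := by
    unfold flux
    rw [Finset.sum_eq_single k]
    · simp [S₁, S₀, setIntegral_const]
    · intro l _ hl; simp [hl]
    · simp
  simp only [hdiv, integral_zero, hflux] at hb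
  have h1 : volume.real S₁ = 0 := by
    rw [measureReal_def, measure_mono_null (fun y hy => ?_) volume_square_diff, ENNReal.toReal_zero]
    refine ⟨hy.1, fun hi => hI (inAxis_of_mem h.down hy.2 (facePoint_apply_self k 1 y) ?_)⟩
    intro l hl
    obtain ⟨l', rfl⟩ := Fin.exists_succAbove_eq hl
    rw [facePoint_apply_succAbove]
    exact (mem_univ_pi.1 hi l').1
  have h0 : 1 ≤ volume.real S₀ := by
    have hsub : (univ.pi fun _ : Fin 2 => Ioo (0 : ℝ) 1) ⊆ S₀ := by
      intro y hy
      have hy' := mem_univ_pi.1 hy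
      refine ⟨⟨fun l => (hy' l).1.le, fun l => (hy' l).2.le⟩, ?_⟩
      have hq : facePoint k (1 / 2) y ∈ openBox := mem_openBox.2 fun l => by
        by_cases hl : l = k
        · subst hl; rw [facePoint_apply_self]; norm_num
        · obtain ⟨l', rfl⟩ := Fin.exists_succAbove_eq hl
          rw [facePoint_apply_succAbove]; exact hy' l'
      obtain ⟨s, hs, hsD⟩ := exists_mem_of_not_outAxis h.down hO hq
      refine h.down _ hsD _ ⟨fun l => ?_, fun l => ?_⟩ fun l => ?_
      all_goals
        by_cases hl : l = k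
        · subst hl
          simp only [facePoint_apply_self, Function.update_self, Pi.zero_apply, Pi.one_apply]
          linarith [hs.1, hs.2]
        · obtain ⟨l', rfl⟩ := Fin.exists_succAbove_eq hl
          simp only [facePoint_apply_succAbove, Function.update_of_ne hl, Pi.zero_apply,
            Pi.one_apply]
          linarith [(hy' l').1, (hy' l').2]
    calc (1 : ℝ) = volume.real (univ.pi fun _ : Fin 2 => Ioo (0 : ℝ) 1) := by
          rw [measureReal_def, volume_openSquare, ENNReal.toReal_one]
      _ ≤ volume.real S₀ := measureReal_mono hsub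
          ((measure_mono inter_subset_left).trans_lt isCompact_Icc.measure_lt_top).ne
  linarith

theorem candidate_le_two (V : ℝ) : candidate V ≤ 2 := min_le_right _ _

theorem candidate_one_sub (V : ℝ) : candidate (1 - V) = candidate V := by
  unfold candidate; rw [sub_sub_cancel, min_comm (1 - V) V]

/-! ## Direction without band slices -/

/-- The slices orthogonal to the third axis are islands or co-islands, for axis reasons. -/
def BandFreeAxes (D : Set R3) (i j : Fin 3) : Prop :=
  i ≠ j ∧ ((¬ InAxis D i ∧ (¬ InAxis D j ∨ ¬ OutAxis D j)) ∨ (¬ OutAxis D i ∧ ¬ OutAxis D j))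

/-- The bound in the band-free case. -/
def BandFreeSpec : Prop :=
  ∀ (D : Set R3) (M : ℝ), IsReduced D M → ∀ i j : Fin 3, BandFreeAxes D i j →
    candidate (boxVolume D) ≤ 2 * M

/-- The bound when the complement contains all axes and `D` all but possibly one. -/
def HardSpec : Prop :=
  ∀ (D : Set R3) (M : ℝ), IsReduced D M → (∀ i, OutAxis D i) →
    (∀ i j, i ≠ j → InAxis D i ∨ InAxis D j) → candidate (boxVolume D) ≤ 2 * M

/-- Complement symmetry of the reduced problem. -/
def MirrorSpec : Prop :=
  ∀ (D : Set R3) (M : ℝ), IsReduced D M →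
    IsReduced (mirror D) M ∧ boxVolume (mirror D) = 1 - boxVolume D

/-- The case split. -/
theorem reducedBound_of (hB : BandFreeSpec) (hH : HardSpec) (hm : MirrorSpec) :
    ∀ V : ℝ, ReducedBoundAt V := by
  intro V D M h hV
  subst hV
  by_cases h0 : ∃ k, ¬ InAxis D k ∧ ¬ OutAxis D k
  · obtain ⟨k, hI, hO⟩ := h0
    linarith [candidate_le_two (boxVolume D), one_le_of_not_in_not_out h hI hO]
  simp only [not_exists, not_and, not_not] at h0
  by_cases hb : ∃ i j, BandFreeAxes D i j
  · obtain ⟨i, j, hij⟩ := hb
    exact hB D M h i j hij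
  by_cases hall : ∀ i, InAxis D i
  · -- `D` has all axes; the complement all but possibly one
    obtain ⟨hr, hv⟩ := hm D M h
    have hbound := hH (mirror D) M hr (fun i => (outAxis_mirror D i).2 (hall i)) fun i j hij => by
      by_contra hc
      simp only [not_or, inAxis_mirror] at hc
      exact hb ⟨i, j, hij, Or.inr hc⟩
    rwa [hv, candidate_one_sub] at hbound
  obtain ⟨k, hk⟩ := not_forall.1 hall
  refine hH D M h (fun i => ?_) fun i j hij => ?_
  · by_cases hik : i = k
    · subst hik; exact h0 _ hk
    · by_contra hc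
      exact hb ⟨k, i, fun e => hik e.symm, Or.inl ⟨hk, Or.inr hc⟩⟩
  · by_contra hc
    simp only [not_or] at hc
    exact hb ⟨i, j, hij, Or.inl ⟨hc.1, Or.inl hc.2⟩⟩

end Vale.Agent.P232
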