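import Vale.Agent.P232.Mollify

/-!
# P232: polarisation and the symmetric decreasing competitor

A Lipschitz periodic function with values in `[0,1]` can be replaced by one which is symmetric and
decreasing in the circle distance to `0` in every coordinate, with the same `∫ v`, `∫ v (1 - v)` and
no larger `∫ |∇v|`: maximise `∫ v w`, `w = Σ cos (2π xᵢ)`, on the closure of the class.
-/

open MeasureTheory Set Filter Topology
open scoped ENNReal NNReal Real

noncomputable section

namespace Vale.Agent.P232

/-- Positive on the half of the torus containing `0`, the halves being exchanged by `refl i a`. -/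
def side (i : Fin 3) (a : ℝ) (x : R3) : ℝ := Real.sin (2 * π * (a - x i))

theorem continuous_side (i : Fin 3) (a : ℝ) : Continuous (side i a) := by
  unfold side; fun_prop

theorem side_refl (i : Fin 3) (a : ℝ) (x : R3) : side i a (refl i a x) = -side i a x := by
  simp only [side, refl_apply, if_true]
  rw [← Real.sin_neg]
  ring_nf

theorem apply_refl_of_side_eq_zero {v : R3 → ℝ} (hp : IsPeriodicFun v) {i : Fin 3} {a : ℝ}
    {x : R3} (h : side i a x = 0) : v (refl i a x) = v x := by
  obtain ⟨k, hk⟩ := Real.sin_eq_zero_iff.1 h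
  have hk' : 2 * a - 2 * x i = (k : ℝ) := mul_right_cancel₀ Real.pi_ne_zero (by linarith)
  rw [refl, hk', Int.cast_smul_eq_zsmul]
  exact (hp.periodic_unit i).zsmul k x

/-- Polarisation in the planes `x i = a` and `x i = a + 1/2`. -/
def polarise (i : Fin 3) (a : ℝ) (v : R3 → ℝ) (x : R3) : ℝ :=
  if 0 ≤ side i a x then max (v x) (v (refl i a x)) else min (v x) (v (refl i a x))

theorem polarise_pair {v : R3 → ℝ} (hp : IsPeriodicFun v) (i : Fin 3) (a : ℝ) (x : R3) :
    (polarise i a v x = v x ∧ polarise i a v (refl i a x) = v (refl i a x)) ∨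
      (polarise i a v x = v (refl i a x) ∧ polarise i a v (refl i a x) = v x) := by
  rcases lt_trichotomy (side i a x) 0 with h | h | h
  · have h' : 0 ≤ side i a (refl i a x) := by rw [side_refl]; linarith
    simp only [polarise, if_neg (not_le.2 h), if_pos h', refl_refl]
    rcases le_total (v x) (v (refl i a x)) with hle | hle
    · left; exact ⟨min_eq_left hle, max_eq_left hle⟩
    · right; exact ⟨min_eq_right hle, max_eq_right hle⟩
  · have h' : side i a (refl i a x) = 0 := by rw [side_refl, h, neg_zero]
    left
    simp [polarise, h, h', apply_refl_of_side_eq_zero hp h]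
  · have h' : ¬ 0 ≤ side i a (refl i a x) := by rw [side_refl]; linarith
    simp only [polarise, if_pos h.le, if_neg h', refl_refl]
    rcases le_total (v (refl i a x)) (v x) with hle | hle
    · left; exact ⟨max_eq_left hle, min_eq_left hle⟩
    · right; exact ⟨max_eq_right hle, min_eq_right hle⟩

/-- The class in which polarisation acts. -/
def lipClass (L : ℝ≥0) : Set (R3 → ℝ) :=
  {v | LipschitzWith L v ∧ IsPeriodicFun v ∧ ∀ x, v x ∈ Icc (0 : ℝ) 1}

theorem side_periodic (i : Fin 3) (a : ℝ) : IsPeriodicFun (side i a) := fun x j => by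
  by_cases h : j = i
  · subst h
    simp only [side, Pi.add_apply, unit_apply, if_true]
    rw [show 2 * π * (a - (x j + 1)) = 2 * π * (a - x j) - 2 * π by ring, Real.sin_sub_two_pi]
  · simp [side, unit_apply, Ne.symm h]

theorem polarise_periodic {v : R3 → ℝ} (hp : IsPeriodicFun v) (i : Fin 3) (a : ℝ) :
    IsPeriodicFun (polarise i a v) := fun x j => by
  simp only [polarise, side_periodic i a x j, hp x j, (hp.refl i a) x j]

theorem polarise_mem {L : ℝ≥0} {v : R3 → ℝ} (hv : v ∈ lipClass L) (i : Fin 3) (a : ℝ) :
    polarise i a v ∈ lipClass L := by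
  obtain ⟨hl, hp, hr⟩ := hv
  refine ⟨?_, polarise_periodic hp i a, fun x => ?_⟩
  · have hl' : LipschitzWith L (fun x => v (refl i a x)) := by
      have h := hl.comp (lipschitzWith_refl i a)
      rwa [mul_one] at h
    have hc : LipschitzWith L (fun x => max (v x) (v (refl i a x))) := by
      simpa using hl.max hl'
    have hd : LipschitzWith L (fun x => min (v x) (v (refl i a x))) := by
      simpa using hl.min hl'
    have key : ∀ x y, 0 ≤ side i a x → side i a y < 0 →
        dist (max (v x) (v (refl i a x))) (min (v y) (v (refl i a y))) ≤ L * dist x y := by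
      intro x y hx hy
      obtain ⟨t, ht, htz⟩ := intermediate_value_Icc' (zero_le_one (α := ℝ))
        ((continuous_side i a).comp (AffineMap.lineMap_continuous (p := x) (q := y))).continuousOn
        (show (0 : ℝ) ∈ Icc (side i a (AffineMap.lineMap x y (1 : ℝ)))
            (side i a (AffineMap.lineMap x y (0 : ℝ))) by
          simp only [AffineMap.lineMap_apply_one, AffineMap.lineMap_apply_zero, mem_Icc]
          exact ⟨hy.le, hx⟩)
      set z := AffineMap.lineMap x y t with hz
      have hzz : max (v z) (v (refl i a z)) = min (v z) (v (refl i a z)) := by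
        rw [apply_refl_of_side_eq_zero hp (by simpa using htz), max_self, min_self]
      calc dist (max (v x) (v (refl i a x))) (min (v y) (v (refl i a y)))
          ≤ dist (max (v x) (v (refl i a x))) (max (v z) (v (refl i a z))) +
            dist (min (v z) (v (refl i a z))) (min (v y) (v (refl i a y))) := by
            rw [← hzz]; exact dist_triangle _ _ _
        _ ≤ L * dist x z + L * dist z y := add_le_add (hc.dist_le_mul x z) (hd.dist_le_mul z y)
        _ = L * dist x y := by
            rw [hz, dist_left_lineMap, dist_lineMap_right, Real.norm_of_nonneg ht.1,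
              Real.norm_of_nonneg (by linarith [ht.2])]
            ring
    refine LipschitzWith.of_dist_le_mul fun x y => ?_
    simp only [polarise]
    split_ifs with hx hy hy
    · exact hc.dist_le_mul x y
    · exact key x y hx (not_le.1 hy)
    · rw [dist_comm, dist_comm x y]; exact key y x hy (not_le.1 hx)
    · exact hd.dist_le_mul x y
  · rcases polarise_pair hp i a x with h | h <;> rw [h.1] <;> exact hr _

/-! ## Preserved quantities -/

theorem pd_periodic_gradNorm {v : R3 → ℝ} (hp : IsPeriodicFun v) : IsPeriodicFun (gradNorm v) :=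
  fun x j => by
    simp only [gradNorm]
    rw [Finset.sum_congr rfl fun k _ => by rw [hp.pd k x j]]

theorem setIntegral_add_refl {f : R3 → ℝ} (hf : IsPeriodicFun f) (hi : IntegrableOn f cell)
    (i : Fin 3) (a : ℝ) (hi' : IntegrableOn (fun x => f (refl i a x)) cell) :
    ∫ x in cell, (f x + f (refl i a x)) = 2 * ∫ x in cell, f x := by
  rw [integral_add hi hi', setIntegral_cell_refl hf]
  ring

theorem integral_comp_polarise {L : ℝ≥0} {v : R3 → ℝ} (hv : v ∈ lipClass L) (i : Fin 3) (a : ℝ)
    {φ : ℝ → ℝ} (hφ : Continuous φ) :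
    ∫ x in cell, φ (polarise i a v x) = ∫ x in cell, φ (v x) := by
  have hP := polarise_mem hv i a
  have h1 := setIntegral_add_refl (hP.2.1.comp φ)
    (integrableOn_cell_of_continuous (hφ.comp hP.1.continuous)) i a
    (integrableOn_cell_of_continuous (hφ.comp (hP.1.continuous.comp (continuous_refl i a))))
  have h2 := setIntegral_add_refl (hv.2.1.comp φ)
    (integrableOn_cell_of_continuous (hφ.comp hv.1.continuous)) i a
    (integrableOn_cell_of_continuous (hφ.comp (hv.1.continuous.comp (continuous_refl i a))))
  have h3 : ∫ x in cell, (φ (polarise i a v x) + φ (polarise i a v (refl i a x)))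
      = ∫ x in cell, (φ (v x) + φ (v (refl i a x))) := by
    refine integral_congr_ae (ae_of_all _ fun x => ?_)
    rcases polarise_pair hv.2.1 i a x with h | h <;> (simp only [h.1, h.2]; try ring)
  linarith

theorem hasFDerivAt_refl (i : Fin 3) (a : ℝ) (x : R3) :
    HasFDerivAt (refl i a) (ContinuousLinearMap.id ℝ R3 +
      (-((2 : ℝ) • ContinuousLinearMap.proj (R := ℝ) (φ := fun _ : Fin 3 => ℝ) i)).smulRight
        (unit i)) x :=
  (hasFDerivAt_id x).add ((((hasFDerivAt_apply i x).const_mul (2 : ℝ)).const_sub (2 * a)).smul_const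
    (unit i))

theorem gradNorm_comp_refl {v : R3 → ℝ} {i : Fin 3} {a : ℝ} {x : R3}
    (hd : DifferentiableAt ℝ v (refl i a x)) :
    gradNorm (fun z => v (refl i a z)) x = gradNorm v (refl i a x) := by
  simp only [gradNorm]
  congr 1
  refine Finset.sum_congr rfl fun j _ => ?_
  rw [pd, pd, (show HasFDerivAt (fun z => v (refl i a z)) _ x from
    hd.hasFDerivAt.comp x (hasFDerivAt_refl i a x)).fderiv]
  simp only [ContinuousLinearMap.comp_apply, add_apply,
    ContinuousLinearMap.id_apply, ContinuousLinearMap.smulRight_apply, neg_apply,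
    FunLike.coe_smul, Pi.smul_apply, ContinuousLinearMap.proj_apply, smul_eq_mul]
  by_cases h : i = j
  · subst h
    rw [unit_apply, if_pos rfl, show unit i + -(2 * (1 : ℝ)) • unit i = -unit i by module, map_neg,
      neg_sq]
  · simp [unit_apply, h]

theorem fderiv_eq_of_le {f g : R3 → ℝ} {x : R3} (hle : ∀ᶠ z in 𝓝 x, f z ≤ g z) (heq : f x = g x)
    (hf : DifferentiableAt ℝ f x) (hg : DifferentiableAt ℝ g x) :
    fderiv ℝ g x = fderiv ℝ f x := by
  have hmin : IsLocalMin (fun z => g z - f z) x := hle.mono fun z hz => by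
    simp only [heq, sub_self, sub_nonneg]; exact hz
  have h0 := hmin.fderiv_eq_zero
  rwa [fderiv_fun_sub hg hf, sub_eq_zero] at h0

theorem gradNorm_max_min {f g p q : R3 → ℝ} {x : R3} (hf : DifferentiableAt ℝ f x)
    (hg : DifferentiableAt ℝ g x) (hp : DifferentiableAt ℝ p x) (hq : DifferentiableAt ℝ q x)
    (hmax : p =ᶠ[𝓝 x] fun z => max (f z) (g z)) (hmin : q =ᶠ[𝓝 x] fun z => min (f z) (g z)) :
    gradNorm p x + gradNorm q x = gradNorm f x + gradNorm g x := by
  have hcongr : ∀ {r s : R3 → ℝ}, fderiv ℝ r x = fderiv ℝ s x → gradNorm r x = gradNorm s x :=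
    fun h => by simp only [gradNorm, pd, h]
  rcases lt_trichotomy (f x) (g x) with h | h | h
  · have hev := hf.continuousAt.eventually_lt hg.continuousAt h
    rw [hcongr (EventuallyEq.fderiv_eq (f := g) (f₁ := p) ((hmax.and hev).mono fun z hz =>
        hz.1.trans (max_eq_right hz.2.le))),
      hcongr (EventuallyEq.fderiv_eq (f := f) (f₁ := q) ((hmin.and hev).mono fun z hz =>
        hz.1.trans (min_eq_left hz.2.le)))]
    ring
  · rw [hcongr (fderiv_eq_of_le (hmax.mono fun z hz => (le_max_left _ _).trans_eq hz.symm)
        (by rw [hmax.eq_of_nhds, h, max_self]) hf hp),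
      ← hcongr (fderiv_eq_of_le (f := q) (g := g)
        (hmin.mono fun z hz => hz.trans_le (min_le_right _ _))
        (by rw [hmin.eq_of_nhds, h, min_self]) hq hg)]
  · have hev := hg.continuousAt.eventually_lt hf.continuousAt h
    rw [hcongr (EventuallyEq.fderiv_eq (f := f) (f₁ := p) ((hmax.and hev).mono fun z hz =>
        hz.1.trans (max_eq_left hz.2.le))),
      hcongr (EventuallyEq.fderiv_eq (f := g) (f₁ := q) ((hmin.and hev).mono fun z hz =>
        hz.1.trans (min_eq_right hz.2.le)))]

theorem ae_side_ne_zero (i : Fin 3) (a : ℝ) : ∀ᵐ x : R3, side i a x ≠ 0 := by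
  have hc : (range fun k : ℤ => a - (k : ℝ) / 2).Countable := countable_range _
  filter_upwards [(Measure.quasiMeasurePreserving_eval (fun _ : Fin 3 => (volume : Measure ℝ))
    i).ae (hc.ae_notMem volume)] with x hx h
  obtain ⟨k, hk⟩ := Real.sin_eq_zero_iff.1 h
  refine hx ⟨k, ?_⟩
  have hk' : 2 * a - 2 * x i = (k : ℝ) := mul_right_cancel₀ Real.pi_ne_zero (by linarith)
  simp only [Function.eval]
  linarith

theorem integral_gradNorm_polarise {L : ℝ≥0} {v : R3 → ℝ} (hv : v ∈ lipClass L) (i : Fin 3)
    (a : ℝ) :
    ∫ x in cell, gradNorm (polarise i a v) x = ∫ x in cell, gradNorm v x := by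
  set P := polarise i a v with hPdef
  have hP := polarise_mem hv i a
  have hint : ∀ {f : R3 → ℝ}, LipschitzWith L f →
      IntegrableOn (fun x => gradNorm f (refl i a x)) cell := fun {f} hf =>
    integrableOn_cell ((measurable_gradNorm f).comp (continuous_refl i a).measurable) (3 * L)
      fun x _ => by rw [abs_of_nonneg (gradNorm_nonneg _ _)]; exact gradNorm_le hf _
  have h1 := setIntegral_add_refl (pd_periodic_gradNorm hP.2.1) (integrableOn_gradNorm hP.1) i a
    (hint hP.1)
  have h2 := setIntegral_add_refl (pd_periodic_gradNorm hv.2.1) (integrableOn_gradNorm hv.1) i a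
    (hint hv.1)
  have h3 : ∫ x in cell, (gradNorm P x + gradNorm P (refl i a x))
      = ∫ x in cell, (gradNorm v x + gradNorm v (refl i a x)) := by
    refine integral_congr_ae (ae_restrict_of_ae ?_)
    filter_upwards [hv.1.ae_differentiableAt (μ := volume), hP.1.ae_differentiableAt (μ := volume),
      (measurePreserving_refl i a).quasiMeasurePreserving.ae
        (hv.1.ae_differentiableAt (μ := volume)),
      (measurePreserving_refl i a).quasiMeasurePreserving.ae
        (hP.1.ae_differentiableAt (μ := volume)),
      ae_side_ne_zero i a] with x hdv hdP hdv' hdP' hs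
    rw [← gradNorm_comp_refl hdP', ← gradNorm_comp_refl hdv']
    have hd : DifferentiableAt ℝ (refl i a) x := (hasFDerivAt_refl i a x).differentiableAt
    have hg : DifferentiableAt ℝ (fun z => v (refl i a z)) x := hdv'.comp x hd
    have hq : DifferentiableAt ℝ (fun z => P (refl i a z)) x := hdP'.comp x hd
    have hcont := (continuous_side i a).continuousAt (x := x)
    rcases lt_or_gt_of_ne hs with h | h
    · have hmin : P =ᶠ[𝓝 x] fun z => min (v z) (v (refl i a z)) := by
        filter_upwards [hcont.eventually_lt continuousAt_const h] with z hz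
        simp [hPdef, polarise, not_le.2 hz]
      have hmax : (fun z => P (refl i a z)) =ᶠ[𝓝 x] fun z => max (v z) (v (refl i a z)) := by
        filter_upwards [hcont.eventually_lt continuousAt_const h] with z hz
        simp [hPdef, polarise, side_refl, hz.le, max_comm]
      rw [add_comm, gradNorm_max_min hdv hg hq hdP hmax hmin]
    · have hmax : P =ᶠ[𝓝 x] fun z => max (v z) (v (refl i a z)) := by
        filter_upwards [continuousAt_const.eventually_lt hcont h] with z hz
        simp [hPdef, polarise, hz.le]
      have hmin : (fun z => P (refl i a z)) =ᶠ[𝓝 x] fun z => min (v z) (v (refl i a z)) := by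
        filter_upwards [continuousAt_const.eventually_lt hcont h] with z hz
        simp [hPdef, polarise, side_refl, not_le.2 hz, min_comm]
      rw [gradNorm_max_min hdv hg hdP hq hmax hmin]
  linarith

/-! ## The functional that increases -/

/-- The weight `Σ cos (2π xᵢ)`. -/
def weight (x : R3) : ℝ := ∑ i, Real.cos (2 * π * x i)

theorem continuous_weight : Continuous weight := by
  unfold weight; fun_prop

theorem weight_periodic : IsPeriodicFun weight := fun x j => by
  simp only [weight]
  refine Finset.sum_congr rfl fun k _ => ?_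
  by_cases h : k = j
  · subst h
    simp [unit_apply, mul_add]
  · simp [unit_apply, h]

theorem weight_sub_refl (i : Fin 3) (a : ℝ) (x : R3) :
    weight x - weight (refl i a x) = 2 * Real.sin (2 * π * a) * side i a x := by
  simp only [weight, ← Finset.sum_sub_distrib]
  rw [Finset.sum_eq_single i (fun j _ hj => by simp [refl_apply, hj]) (by simp)]
  rw [Real.cos_sub_cos, refl_apply, if_pos rfl, side]
  rw [show (2 * π * x i + 2 * π * (2 * a - x i)) / 2 = 2 * π * a by ring,
    show (2 * π * x i - 2 * π * (2 * a - x i)) / 2 = -(2 * π * (a - x i)) by ring, Real.sin_neg]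
  ring

theorem two_mul_gain {L : ℝ≥0} {v : R3 → ℝ} (hv : v ∈ lipClass L) (i : Fin 3) (a : ℝ) :
    2 * ((∫ x in cell, weight x * polarise i a v x) - ∫ x in cell, weight x * v x) =
      ∫ x in cell, (polarise i a v x - v x) * (2 * Real.sin (2 * π * a) * side i a x) := by
  have hP := polarise_mem hv i a
  have hw := continuous_weight
  have hpc := hP.1.continuous
  have hvc := hv.1.continuous
  have hrc := continuous_refl i a
  have hper : IsPeriodicFun fun x => weight x * (polarise i a v x - v x) := fun x j => by
    show weight (x + unit j) * (polarise i a v (x + unit j) - v (x + unit j)) = _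
    rw [weight_periodic, hP.2.1, hv.2.1]
  rw [← integral_sub (f := fun x => weight x * polarise i a v x) (g := fun x => weight x * v x)
    (integrableOn_cell_of_continuous (hw.mul hpc)) (integrableOn_cell_of_continuous (hw.mul hvc))]
  simp only [← mul_sub]
  rw [← setIntegral_add_refl hper (integrableOn_cell_of_continuous (by fun_prop)) i a
    (integrableOn_cell_of_continuous (by fun_prop))]
  refine integral_congr_ae (ae_of_all _ fun x => ?_)
  simp only [← weight_sub_refl]
  rcases polarise_pair hv.2.1 i a x with h | h <;> simp only [h.1, h.2] <;> ring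

theorem gain_integrand_nonneg {L : ℝ≥0} {v : R3 → ℝ} (_hv : v ∈ lipClass L) (i : Fin 3) {a : ℝ}
    (ha : 0 ≤ Real.sin (2 * π * a)) (x : R3) :
    0 ≤ (polarise i a v x - v x) * (2 * Real.sin (2 * π * a) * side i a x) := by
  by_cases h : 0 ≤ side i a x
  · rw [polarise, if_pos h]
    exact mul_nonneg (sub_nonneg.2 (le_max_left _ _)) (by positivity)
  · rw [polarise, if_neg h]
    exact mul_nonneg_of_nonpos_of_nonpos (sub_nonpos.2 (min_le_left _ _))
      (mul_nonpos_of_nonneg_of_nonpos (by positivity) (not_le.1 h).le)

/-! ## Compactness and the maximiser -/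

theorem isClosed_lipClass (L : ℝ≥0) : IsClosed (lipClass L) := by
  have : lipClass L = (⋂ (x : R3) (y : R3), {v | dist (v x) (v y) ≤ L * dist x y}) ∩
      ((⋂ (x : R3) (i : Fin 3), {v | v (x + unit i) = v x}) ∩ univ.pi fun _ => Icc (0 : ℝ) 1) := by
    ext v
    simp only [lipClass, lipschitzWith_iff_dist_le_mul, IsPeriodicFun, mem_inter_iff, mem_iInter,
      mem_ofPred_eq, mem_univ_pi]
  rw [this]
  have h1 : ∀ x y : R3, IsClosed {v : R3 → ℝ | dist (v x) (v y) ≤ L * dist x y} := fun x y =>
    isClosed_le ((continuous_apply (A := fun _ : R3 => ℝ) x).dist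
      (continuous_apply (A := fun _ : R3 => ℝ) y)) continuous_const
  have h2 : ∀ (x : R3) (i : Fin 3), IsClosed {v : R3 → ℝ | v (x + unit i) = v x} := fun x i =>
    isClosed_eq (continuous_apply (A := fun _ : R3 => ℝ) (x + unit i))
      (continuous_apply (A := fun _ : R3 => ℝ) x)
  have h3 : IsClosed ((univ : Set R3).pi fun _ => Icc (0 : ℝ) 1) :=
    isClosed_set_pi fun _ _ => isClosed_Icc
  exact (isClosed_iInter fun x => isClosed_iInter fun y => h1 x y).inter
    ((isClosed_iInter fun x => isClosed_iInter fun i => h2 x i).inter h3)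

theorem isCompact_lipClass (L : ℝ≥0) : IsCompact (lipClass L) := by
  have h : IsCompact {v : R3 → ℝ | ∀ x, v x ∈ Icc (0 : ℝ) 1} :=
    isCompact_pi_infinite fun _ => isCompact_Icc
  exact IsCompact.of_isClosed_subset h (isClosed_lipClass L) fun v hv => hv.2.2

theorem eventually_close {L : ℝ≥0} {v : R3 → ℝ} (hv : v ∈ lipClass L) {ε : ℝ} (hε : 0 < ε) :
    ∀ᶠ w in 𝓝[lipClass L] v, ∀ x ∈ box, |w x - v x| ≤ ε := by
  have hr : 0 < ε / (4 * ((L : ℝ) + 1)) := by positivity
  obtain ⟨t, -, htfin, hcov⟩ := finite_cover_balls_of_compact (isCompact_Icc (a := (0 : R3)) (b := 1))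
    hr
  have hev : ∀ᶠ w in 𝓝[lipClass L] v, ∀ y ∈ t, |w y - v y| < ε / 2 :=
    htfin.eventually_all.2 fun y _ => nhdsWithin_le_nhds
      (((continuous_apply y).sub continuous_const).abs.continuousAt.eventually_lt continuousAt_const
        (by simpa using half_pos hε))
  filter_upwards [hev, self_mem_nhdsWithin] with w hw hwc x hx
  obtain ⟨y, hy, hxy⟩ := mem_iUnion₂.1 (hcov hx)
  have h1 := hwc.1.dist_le_mul x y
  have h2 := hv.1.dist_le_mul x y
  have h3 := hw y hy
  have h4 : (L : ℝ) * dist x y ≤ ε / 4 := by
    calc (L : ℝ) * dist x y ≤ ((L : ℝ) + 1) * (ε / (4 * ((L : ℝ) + 1))) :=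
          mul_le_mul (by linarith) (Metric.mem_ball.1 hxy).le dist_nonneg (by positivity)
      _ = ε / 4 := by field_simp
  rw [Real.dist_eq] at h1 h2
  rw [abs_le]
  constructor <;>
    linarith [abs_le.1 (h1.trans h4), abs_le.1 (h2.trans h4), abs_le.1 h3.le]

theorem continuousOn_integral_comp {L : ℝ≥0} {h : R3 → ℝ} (hh : Continuous h) {φ : ℝ → ℝ}
    (hφ : Continuous φ) :
    ContinuousOn (fun v => ∫ x in cell, h x * φ (v x)) (lipClass L) := by
  intro v hv
  rw [Metric.continuousWithinAt_iff']
  intro ε hε
  obtain ⟨B, hB⟩ := (isCompact_Icc (a := (0 : R3)) (b := 1)).exists_bound_of_continuousOn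
    hh.continuousOn
  have hB0 : 0 ≤ B := (norm_nonneg _).trans (hB 0 (left_mem_Icc.2 zero_le_one))
  have he : 0 < ε / (2 * (B + 1)) := by positivity
  obtain ⟨η, hη, hη'⟩ := Metric.uniformContinuousOn_iff.1
    ((isCompact_Icc (a := (0 : ℝ)) (b := 1)).uniformContinuousOn_of_continuous hφ.continuousOn)
    _ he
  filter_upwards [eventually_close hv (half_pos hη), self_mem_nhdsWithin] with w hw hwc
  rw [dist_eq_norm, ← integral_sub (f := fun x => h x * φ (w x)) (g := fun x => h x * φ (v x))
    (integrableOn_cell_of_continuous (hh.mul (hφ.comp hwc.1.continuous)))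
    (integrableOn_cell_of_continuous (hh.mul (hφ.comp hv.1.continuous)))]
  refine (norm_setIntegral_le_of_norm_le_const (C := B * (ε / (2 * (B + 1)))) volume_cell_ne_top.lt_top
    fun x hx => ?_).trans_lt ?_
  · have hxb := cell_subset_box hx
    rw [← mul_sub, norm_mul]
    refine mul_le_mul (hB x hxb) ?_ (norm_nonneg _) hB0
    exact (hη' (w x) (hwc.2.2 x) (v x) (hv.2.2 x)
      (lt_of_le_of_lt (hw x hxb) (by linarith))).le
  · rw [measureReal_def, volume_cell, ENNReal.toReal_one, mul_one]
    calc B * (ε / (2 * (B + 1))) ≤ (B + 1) * (ε / (2 * (B + 1))) := by gcongr; linarith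
      _ = ε / 2 := by field_simp
      _ < ε := half_lt_self hε

theorem continuous_polarise (i : Fin 3) (a : ℝ) :
    Continuous (polarise i a : (R3 → ℝ) → R3 → ℝ) := by
  refine continuous_pi fun x => ?_
  simp only [polarise]
  split_ifs <;> fun_prop

/-- Symmetric and decreasing in the distance to `0`, in every coordinate. -/
def IsSymmDecreasing (v : R3 → ℝ) : Prop :=
  ∀ (i : Fin 3) (x : R3) (s t : ℝ), |s| ≤ |t| → |t| ≤ 1 / 2 →
    v (Function.update x i t) ≤ v (Function.update x i s)

theorem isSymmDecreasing_of_fixed {L : ℝ≥0} {v : R3 → ℝ} (hv : v ∈ lipClass L)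
    (h : ∀ (i : Fin 3) (a : ℝ), a ∈ Ioo (0 : ℝ) (1 / 2) → ∀ x, 0 < side i a x →
      v (refl i a x) ≤ v x) : IsSymmDecreasing v := by
  have strict : ∀ (i : Fin 3) (x : R3) (s t : ℝ), |s| < |t| → |t| ≤ 1 / 2 →
      v (Function.update x i t) ≤ v (Function.update x i s) := by
    intro i x s t hst ht
    rcases le_or_gt 0 t with h0 | h0
    · rw [abs_of_nonneg h0] at hst ht
      have hs := abs_lt.1 hst
      have := h i ((s + t) / 2) ⟨by linarith, by linarith⟩ (Function.update x i s) (by
        simp only [side, Function.update_self]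
        exact Real.sin_pos_of_pos_of_lt_pi (by nlinarith [Real.pi_pos]) (by nlinarith [Real.pi_pos]))
      refine le_of_eq_of_le ?_ this
      congr 1
      funext j
      by_cases hj : j = i
      · subst hj; simp [refl_apply]; ring
      · simp [refl_apply, hj]
    · rw [abs_of_neg h0] at hst ht
      have hs := abs_lt.1 hst
      have := h i ((s + t) / 2 + 1 / 2) ⟨by linarith, by linarith⟩ (Function.update x i s) (by
        simp only [side, Function.update_self]
        exact Real.sin_pos_of_pos_of_lt_pi (by nlinarith [Real.pi_pos]) (by nlinarith [Real.pi_pos]))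
      refine le_of_eq_of_le ?_ this
      rw [← hv.2.1 (Function.update x i t) i]
      congr 1
      funext j
      by_cases hj : j = i
      · subst hj; simp [refl_apply, unit_apply]; ring
      · simp [refl_apply, unit_apply, hj]
  intro i x s t hst ht
  rcases hst.lt_or_eq with hlt | heq
  · exact strict i x s t hlt ht
  · rcases eq_or_ne s 0 with hs0 | hs0
    · have ht0 : t = 0 := abs_eq_zero.1 (by rw [← heq, hs0, abs_zero])
      rw [hs0, ht0]
    · have hc : Continuous fun r : ℝ => v (Function.update x i (r * s)) :=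
        hv.1.continuous.comp (continuous_const.update i (continuous_id.mul continuous_const))
      have hto := (hc.tendsto' 1 (v (Function.update x i s)) (by simp)).comp
        (show Tendsto (fun n : ℕ => (1 : ℝ) - 1 / ((n : ℝ) + 1)) atTop (𝓝 1) by
          simpa using (tendsto_const_nhds (x := (1 : ℝ))).sub
            (tendsto_one_div_add_atTop_nhds_zero_nat (𝕜 := ℝ)))
      refine ge_of_tendsto' hto fun n => strict i x _ t ?_ ht
      have h1 : 0 < 1 / ((n : ℝ) + 1) := by positivity
      have h2 : 1 / ((n : ℝ) + 1) ≤ 1 := by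
        rw [div_le_one (by positivity)]; linarith [Nat.cast_nonneg (α := ℝ) n]
      rw [← heq, abs_mul, abs_of_nonneg (by linarith)]
      exact mul_lt_of_lt_one_left (abs_pos.2 hs0) (by linarith)

/-- The symmetric decreasing competitor. -/
theorem exists_symmDecreasing {L : ℝ≥0} {u : R3 → ℝ} (hu : u ∈ lipClass L) :
    ∃ v ∈ lipClass L, IsSymmDecreasing v ∧ (∫ x in cell, v x) = ∫ x in cell, u x ∧
      (∫ x in cell, v x * (1 - v x)) = ∫ x in cell, u x * (1 - u x) ∧
      ∫ x in cell, gradNorm v x ≤ ∫ x in cell, gradNorm u x := by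
  set A := ∫ x in cell, u x
  set Q := ∫ x in cell, u x * (1 - u x)
  set M := ∫ x in cell, gradNorm u x
  set S := {v ∈ lipClass L | (∫ x in cell, v x) = A ∧ (∫ x in cell, v x * (1 - v x)) = Q ∧
    ∫ x in cell, gradNorm v x ≤ M}
  have hsub : closure S ⊆ lipClass L :=
    closure_minimal (fun v hv => hv.1) (isClosed_lipClass L)
  have hne : (closure S).Nonempty := ⟨u, subset_closure ⟨hu, rfl, rfl, le_rfl⟩⟩
  have hG := ((continuousOn_integral_comp (L := L) continuous_weight
    (φ := fun t => t) continuous_id).mono hsub)
  obtain ⟨v, hv, hmax⟩ :=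
    ((isCompact_lipClass L).of_isClosed_subset isClosed_closure hsub).exists_isMaxOn hne hG
  have hkeep : ∀ {h : R3 → ℝ} {φ : ℝ → ℝ}, Continuous h → Continuous φ → ∀ {T : Set ℝ},
      IsClosed T → (∀ w ∈ S, (∫ x in cell, h x * φ (w x)) ∈ T) →
      (∫ x in cell, h x * φ (v x)) ∈ T := by
    intro h φ hh hφ T hT hS
    exact (closure_minimal (t := lipClass L ∩ (fun v => ∫ x in cell, h x * φ (v x)) ⁻¹' T)
      (fun w hw => ⟨hw.1, hS w hw⟩)
      ((continuousOn_integral_comp hh hφ).preimage_isClosed_of_isClosed (isClosed_lipClass L) hT)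
      hv).2
  refine ⟨v, hsub hv, isSymmDecreasing_of_fixed (hsub hv) fun i a ha x hx => ?_, ?_, ?_, ?_⟩
  · have hsin : 0 < Real.sin (2 * π * a) := Real.sin_pos_of_pos_of_lt_pi
      (by nlinarith [Real.pi_pos, ha.1]) (by nlinarith [Real.pi_pos, ha.2])
    have hPv : polarise i a v ∈ closure S := by
      refine map_mem_closure (continuous_polarise i a) hv fun w hw => ⟨polarise_mem hw.1 i a, ?_⟩
      exact ⟨(integral_comp_polarise hw.1 i a (φ := fun t => t) continuous_id).trans hw.2.1,
        (integral_comp_polarise hw.1 i a (φ := fun t => t * (1 - t)) (by fun_prop)).trans hw.2.2.1,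
        (integral_gradNorm_polarise hw.1 i a).trans_le hw.2.2.2⟩
    have hle : (∫ x in cell, weight x * polarise i a v x) ≤ ∫ x in cell, weight x * v x :=
      hmax hPv
    have hvc := (hsub hv).1.continuous
    have hcont : Continuous fun z =>
        (polarise i a v z - v z) * (2 * Real.sin (2 * π * a) * side i a z) := by
      have := (hsub hPv).1.continuous
      have := continuous_side i a
      fun_prop
    have hzero : ∫ z in cell, (polarise i a v z - v z) *
        (2 * Real.sin (2 * π * a) * side i a z) = 0 :=
      le_antisymm (by rw [← two_mul_gain (hsub hv)]; linarith)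
        (setIntegral_nonneg measurableSet_cell fun z _ =>
          gain_integrand_nonneg (hsub hv) i hsin.le z)
    have hae := (integral_eq_zero_iff_of_nonneg
      (fun z => gain_integrand_nonneg (hsub hv) i hsin.le z)
      (integrableOn_cell_of_continuous hcont)).1 hzero
    have hper : IsPeriodicFun fun z =>
        (polarise i a v z - v z) * (2 * Real.sin (2 * π * a) * side i a z) := by
      exact fun z j => by
        show (polarise i a v (z + unit j) - v (z + unit j)) *
          (2 * Real.sin (2 * π * a) * side i a (z + unit j)) = _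
        rw [(hsub hPv).2.1 z j, (hsub hv).2.1 z j, side_periodic i a z j]
    have hint : interior cell = univ.pi fun _ => Ioo (0 : ℝ) 1 := by
      rw [cell, interior_pi_set finite_univ]; simp
    obtain ⟨y, hy, hxy⟩ := hper.exists_cell x
    have hclos : cell ⊆ closure (interior cell) := by
      rw [hint, closure_pi_set]
      exact pi_mono fun j _ => by
        rw [closure_Ioo (zero_ne_one' ℝ)]; exact Ico_subset_Icc_self
    have hzero' := Measure.eqOn_of_ae_eq (μ := volume) hae hcont.continuousOn continuousOn_const
      hclos hy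
    simp only [Pi.zero_apply] at hzero'
    rw [← hxy] at hzero'
    rcases mul_eq_zero.1 hzero' with h | h
    · rw [polarise, if_pos hx.le] at h
      exact (le_max_right _ _).trans_eq (sub_eq_zero.1 h)
    · exact absurd h (mul_pos (by positivity) hx).ne'
  · have := hkeep (h := fun _ => (1 : ℝ)) (φ := fun t => t) continuous_const continuous_id
      (isClosed_singleton (x := A)) fun w hw => by simpa using hw.2.1
    simpa using this
  · have := hkeep (h := fun _ => (1 : ℝ)) (φ := fun t => t * (1 - t)) continuous_const (by fun_prop)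
      (isClosed_singleton (x := Q)) fun w hw => by simpa using hw.2.2.1
    simpa using this
  · refine gradient_le_of_lipschitz (hsub hv).1 (hsub hv).2.1 (B := 1) (fun x => ?_) fun X hX => ?_
    · rw [abs_of_nonneg ((hsub hv).2.2 x).1]; exact ((hsub hv).2.2 x).2
    · have := hkeep (φ := fun t => t) (continuous_divergence hX.smooth) continuous_id
        (isClosed_Iic (a := M)) fun w hw => by
          refine le_trans (le_of_eq ?_)
            ((integral_mul_divergence_le hw.1.1 hw.1.2.1 hX).trans hw.2.2.2)
          simp only [mul_comm]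
      simpa [mul_comm] using this

end Vale.Agent.P232
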