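import Vale.Agent.P232.Mollify

/-!
# P232: balls, tubes, slabs and their complements: `profile V ≤ candidate V`

The three regions are the sublevel sets of the distance to a point, a line, a plane of the torus.
The perimeter of such a set is at most the derivative of its volume in the radius.
-/

open MeasureTheory Set Filter Topology
open scoped ENNReal NNReal Real

noncomputable section

namespace Vale.Agent.P232

/-- Distance to the integers. -/
def intDist (t : ℝ) : ℝ := |t - round t|

theorem abs_intDist_sub (s t : ℝ) : |intDist s - intDist t| ≤ |s - t| := by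
  have key : ∀ a b : ℝ, intDist a ≤ |a - b| + intDist b := fun a b =>
    (round_le a (round b)).trans (abs_sub_le a b _)
  rw [abs_le]
  constructor
  · have := key t s; rw [abs_sub_comm] at this; linarith
  · have := key s t; linarith

theorem intDist_add_one (t : ℝ) : intDist (t + 1) = intDist t := by
  simp only [intDist, round_add_one, Int.cast_add, Int.cast_one]
  ring_nf

theorem intDist_eq_abs {t : ℝ} (h : |t| ≤ 1 / 2) : intDist t = |t| := by
  refine le_antisymm ((round_le t 0).trans_eq (by simp)) ?_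
  rcases eq_or_ne (round t) 0 with hr | hr
  · simp [intDist, hr]
  · have h1 : (1 : ℝ) ≤ |((round t : ℤ) : ℝ)| := by exact_mod_cast Int.one_le_abs hr
    have h2 := abs_sub_abs_le_abs_sub ((round t : ℤ) : ℝ) t
    rw [abs_sub_comm] at h2
    simp only [intDist]
    linarith

/-- The transversal coordinates. -/
def transversal (S : Finset (Fin 3)) (x : R3) : EuclideanSpace ℝ (Fin 3) :=
  WithLp.toLp 2 fun i => if i ∈ S then intDist (x i) else 0

/-- The distance to the coordinate subtorus orthogonal to `S`. -/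
def subtorusDist (S : Finset (Fin 3)) (x : R3) : ℝ := ‖transversal S x‖

theorem subtorusDist_eq (S : Finset (Fin 3)) (x : R3) :
    subtorusDist S x = Real.sqrt (∑ i ∈ S, intDist (x i) ^ 2) := by
  rw [subtorusDist, transversal, EuclideanSpace.norm_eq]
  congr 1
  simp only [Real.norm_eq_abs, sq_abs]
  rw [← Finset.sum_subset (Finset.subset_univ S) (fun i _ hi => by simp [hi])]
  exact Finset.sum_congr rfl fun i hi => by simp [hi]

theorem abs_subtorusDist_sub (S : Finset (Fin 3)) (x y : R3) :
    |subtorusDist S x - subtorusDist S y| ≤ Real.sqrt (∑ i, (x i - y i) ^ 2) := by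
  refine (abs_norm_sub_norm_le _ _).trans ?_
  rw [EuclideanSpace.norm_eq]
  refine Real.sqrt_le_sqrt (Finset.sum_le_sum fun i _ => ?_)
  simp only [transversal, Real.norm_eq_abs, PiLp.sub_apply, sq_abs]
  by_cases h : i ∈ S
  · simp only [h, if_true]
    exact sq_le_sq.2 (abs_intDist_sub _ _)
  · simp only [h, if_false, sub_self]
    nlinarith [sq_nonneg (x i - y i)]

theorem sqrt_sum_sq_le (z : R3) : Real.sqrt (∑ i, z i ^ 2) ≤ 3 * ‖z‖ := by
  refine Real.sqrt_le_iff.2 ⟨by positivity, ?_⟩
  calc ∑ i, z i ^ 2 ≤ ∑ _i : Fin 3, ‖z‖ ^ 2 := Finset.sum_le_sum fun i _ => by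
        have h := norm_le_pi_norm z i
        rw [Real.norm_eq_abs] at h
        nlinarith [sq_abs (z i), abs_nonneg (z i)]
    _ ≤ (3 * ‖z‖) ^ 2 := by simp; nlinarith [sq_nonneg ‖z‖]

theorem subtorusDist_periodic (S : Finset (Fin 3)) : IsPeriodicFun (subtorusDist S) := fun x j => by
  simp only [subtorusDist_eq]
  congr 1
  refine Finset.sum_congr rfl fun i _ => ?_
  by_cases h : i = j
  · subst h; simp [unit_apply, intDist_add_one]
  · simp [unit_apply, h]

theorem continuous_subtorusDist (S : Finset (Fin 3)) : Continuous (subtorusDist S) :=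
  (LipschitzWith.of_dist_le_mul (K := 3) fun x y => by
    rw [Real.dist_eq, dist_eq_norm]
    exact (abs_subtorusDist_sub S x y).trans (by simpa using sqrt_sum_sq_le (x - y))).continuous

/-- A function which is `c`-Lipschitz for the Euclidean norm has gradient at most `c`. -/
theorem gradNorm_le_of_euclidean {f : R3 → ℝ} {c : ℝ} (hc : 0 ≤ c)
    (hf : ∀ x y, |f x - f y| ≤ c * Real.sqrt (∑ i, (x i - y i) ^ 2)) (x : R3) :
    gradNorm f x ≤ c := by
  by_cases hd : DifferentiableAt ℝ f x
  swap
  · simp [gradNorm, pd, fderiv_zero_of_not_differentiableAt hd, hc]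
  set g : R3 := fun i => pd i f x with hg
  have hDg : fderiv ℝ f x g = ∑ i, pd i f x ^ 2 := by
    have : g = ∑ i, g i • unit i := by
      funext j; simp [unit_apply]
    conv_lhs => rw [this, map_sum]
    refine Finset.sum_congr rfl fun i _ => ?_
    rw [map_smul, smul_eq_mul, sq]
    rfl
  have hline : HasDerivAt (fun s : ℝ => f (x + s • g)) (fderiv ℝ f x g) 0 :=
    hd.hasFDerivAt.hasLineDerivAt g
  have hle : |fderiv ℝ f x g| ≤ c * Real.sqrt (∑ i, g i ^ 2) := by
    rw [← Real.norm_eq_abs]
    refine hline.le_of_lip' (mul_nonneg hc (Real.sqrt_nonneg _)) (Eventually.of_forall fun s => ?_)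
    simp only [Real.norm_eq_abs, zero_smul, add_zero, sub_zero]
    refine (hf _ _).trans (le_of_eq ?_)
    rw [mul_assoc, mul_comm (Real.sqrt _) |s|, ← Real.sqrt_sq_eq_abs, ← Real.sqrt_mul (sq_nonneg _),
      Finset.mul_sum]
    congr 2
    exact Finset.sum_congr rfl fun i _ => by simp [mul_pow]
  rw [hDg, abs_of_nonneg (Finset.sum_nonneg fun i _ => sq_nonneg _)] at hle
  simp only [gradNorm]
  set G := Real.sqrt (∑ i, pd i f x ^ 2) with hG
  have hG2 : G ^ 2 = ∑ i, pd i f x ^ 2 := Real.sq_sqrt (Finset.sum_nonneg fun i _ => sq_nonneg _)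
  have hG0 : 0 ≤ G := Real.sqrt_nonneg _
  rw [← hG2] at hle
  rcases hG0.lt_or_eq with h | h
  · exact le_of_mul_le_mul_right (by nlinarith) h
  · rw [← h]; exact hc

/-- The sublevel set of the distance to a coordinate subtorus. -/
def tubeSet (S : Finset (Fin 3)) (R : ℝ) : Set R3 := {x | subtorusDist S x < R}

theorem isTorusSet_tubeSet (S : Finset (Fin 3)) (R : ℝ) : IsTorusSet (tubeSet S R) :=
  ⟨measurableSet_lt (continuous_subtorusDist S).measurable measurable_const, fun x i => by
    simp only [tubeSet, mem_ofPred_eq, subtorusDist_periodic S x i]⟩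

/-- The perimeter of a sublevel set of the distance is at most the derivative of the volume. -/
theorem perimeter_tubeSet_le (S : Finset (Fin 3)) {R D : ℝ} {F : ℝ → ℝ}
    (hF : ∀ᶠ ρ in 𝓝 R, torusVolume (tubeSet S ρ) = F ρ) (hD : HasDerivAt F D R) :
    perimeter (tubeSet S R) ≤ ENNReal.ofReal D := by
  refine iSup₂_le fun X hX => ENNReal.ofReal_le_ofReal ?_
  set h : ℕ → ℝ := fun n => 1 / ((n : ℝ) + 1) with hh
  have hpos : ∀ n, 0 < h n := fun n => by positivity
  have hh0 : Tendsto h atTop (𝓝 0) := tendsto_one_div_add_atTop_nhds_zero_nat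
  set φ : ℕ → R3 → ℝ := fun n x => max 0 (min 1 ((R - subtorusDist S x) / h n)) with hφ
  have hd := continuous_subtorusDist S
  have hφe : ∀ n x y, |φ n x - φ n y| ≤ (1 / h n) * Real.sqrt (∑ i, (x i - y i) ^ 2) := by
    intro n x y
    have h1 := abs_max_sub_max_le_max 0 (min 1 ((R - subtorusDist S x) / h n)) 0
      (min 1 ((R - subtorusDist S y) / h n))
    have h2 := abs_min_sub_min_le_max 1 ((R - subtorusDist S x) / h n) 1
      ((R - subtorusDist S y) / h n)
    simp only [sub_self, abs_zero] at h1 h2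
    have h3 : ∀ z : ℝ, max 0 |z| = |z| := fun z => max_eq_right (abs_nonneg z)
    rw [h3] at h1 h2
    refine h1.trans (h2.trans ?_)
    rw [← sub_div, abs_div, abs_of_pos (hpos n), one_div, inv_mul_eq_div, sub_sub_sub_cancel_left,
      abs_sub_comm]
    exact div_le_div_of_nonneg_right (abs_subtorusDist_sub S x y) (hpos n).le
  have hφlip : ∀ n, LipschitzWith (3 / h n).toNNReal (φ n) := fun n => by
    refine LipschitzWith.of_dist_le_mul fun x y => ?_
    rw [Real.dist_eq, Real.coe_toNNReal _ (by positivity)]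
    refine (hφe n x y).trans ?_
    rw [dist_eq_norm, div_eq_mul_inv 3 (h n), one_div, mul_comm 3, mul_assoc]
    exact mul_le_mul_of_nonneg_left (by simpa using sqrt_sum_sq_le (x - y))
      (inv_nonneg.2 (hpos n).le)
  have hφper : ∀ n, IsPeriodicFun (φ n) := fun n x i => by
    simp only [hφ, subtorusDist_periodic S x i]
  -- the bound at level n
  have hbound : ∀ᶠ n in atTop, ∫ x in cell, φ n x * divergence X x ≤
      (F (R + h n ^ 2) - F (R - h n)) / h n := by
    have e1 : Tendsto (fun n => R + h n ^ 2) atTop (𝓝 R) := by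
      simpa using (hh0.pow 2).const_add R
    have e2 : Tendsto (fun n => R - h n) atTop (𝓝 R) := by
      simpa using hh0.const_sub R
    filter_upwards [e1.eventually hF, e2.eventually hF] with n hn1 hn2
    refine (integral_mul_divergence_le (hφlip n) (hφper n) hX).trans ?_
    set A := tubeSet S (R + h n ^ 2) with hA
    set B := tubeSet S (R - h n) with hB
    have hBA : B ⊆ A := fun x hx => by
      simp only [hA, hB, tubeSet, mem_ofPred_eq] at hx ⊢
      nlinarith [hpos n]
    have hmA := (isTorusSet_tubeSet S (R + h n ^ 2)).measurable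
    have hmB := (isTorusSet_tubeSet S (R - h n)).measurable
    have hle : ∀ x, gradNorm (φ n) x ≤ (A \ B).indicator (fun _ => 1 / h n) x := by
      intro x
      by_cases hx : x ∈ A \ B
      · rw [indicator_of_mem hx]
        exact gradNorm_le_of_euclidean (one_div_nonneg.2 (hpos n).le) (hφe n) x
      · rw [indicator_of_notMem hx]
        have hloc : ∃ c : ℝ, φ n =ᶠ[𝓝 x] fun _ => c := by
          simp only [hA, hB, tubeSet, Set.mem_sdiff, mem_ofPred_eq, not_and, not_not] at hx
          by_cases hxA : subtorusDist S x < R + h n ^ 2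
          · refine ⟨1, (hd.continuousAt.eventually_lt continuousAt_const (hx hxA)).mono
              fun y hy => ?_⟩
            have : 1 ≤ (R - subtorusDist S y) / h n := by
              rw [le_div_iff₀ (hpos n)]; linarith
            simp [hφ, min_eq_left this]
          · refine ⟨0, ((continuousAt_const (y := R)).eventually_lt hd.continuousAt
              (by nlinarith [hpos n])).mono fun y hy => ?_⟩
            have : (R - subtorusDist S y) / h n ≤ 0 :=
              div_nonpos_of_nonpos_of_nonneg (by linarith) (hpos n).le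
            simp only [hφ]
            rw [min_eq_right (this.trans zero_le_one), max_eq_left this]
        obtain ⟨c, hc⟩ := hloc
        simp [gradNorm, pd, hc.fderiv_eq]
    refine (integral_mono (integrableOn_gradNorm (hφlip n)) ?_ hle).trans (le_of_eq ?_)
    · exact (integrableOn_const volume_cell_ne_top).indicator (hmA.diff hmB)
    · rw [setIntegral_indicator (hmA.diff hmB), setIntegral_const, smul_eq_mul, inter_sdiff_distrib_left,
        measureReal_sdiff (inter_subset_inter_right cell hBA) (measurableSet_cell.inter hmB)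
          (measure_ne_top_of_subset inter_subset_left volume_cell_ne_top)]
      rw [show volume.real (cell ∩ A) = F (R + h n ^ 2) from hn1,
        show volume.real (cell ∩ B) = F (R - h n) from hn2]
      ring
  have hlim1 : Tendsto (fun n => ∫ x in cell, φ n x * divergence X x) atTop
      (𝓝 (∫ x in cell ∩ tubeSet S R, divergence X x)) := by
    have hE := (isTorusSet_tubeSet S R).measurable
    rw [← setIntegral_indicator hE]
    obtain ⟨C, hC⟩ := (isCompact_Icc (a := (0 : R3)) (b := 1)).exists_bound_of_continuousOn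
      (continuous_divergence hX.smooth).continuousOn
    refine tendsto_integral_of_dominated_convergence (fun _ => C) (fun n => ?_)
      (integrableOn_const volume_cell_ne_top) (fun n => ?_) (ae_of_all _ fun x => ?_)
    · exact ((hφlip n).continuous.mul (continuous_divergence hX.smooth)).aestronglyMeasurable
    · refine ae_restrict_of_forall_mem measurableSet_cell fun x hx => ?_
      rw [norm_mul, Real.norm_of_nonneg (le_max_left _ _)]
      exact (mul_le_of_le_one_left (norm_nonneg _)
        (max_le zero_le_one (min_le_left _ _))).trans (hC x (cell_subset_box hx))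
    · refine tendsto_const_nhds.congr' ?_
      by_cases hx : x ∈ tubeSet S R
      · rw [indicator_of_mem hx]
        filter_upwards [hh0.eventually (eventually_lt_nhds (sub_pos.2 hx))] with n hn
        have : 1 ≤ (R - subtorusDist S x) / h n := by rw [le_div_iff₀ (hpos n)]; linarith
        simp [hφ, min_eq_left this]
      · rw [indicator_of_notMem hx]
        refine Eventually.of_forall fun n => ?_
        have : (R - subtorusDist S x) / h n ≤ 0 :=
          div_nonpos_of_nonpos_of_nonneg (sub_nonpos.2 (not_lt.1 hx)) (hpos n).le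
        simp only [hφ]
        rw [min_eq_right (this.trans zero_le_one), max_eq_left this, zero_mul]
  have hlim2 : Tendsto (fun n => (F (R + h n ^ 2) - F (R - h n)) / h n) atTop (𝓝 D) := by
    have hs1 := hD.tendsto_slope_zero.comp (tendsto_nhdsWithin_iff.2
      ⟨by simpa using hh0.pow 2, Eventually.of_forall fun n => (pow_pos (hpos n) 2).ne'⟩)
    have hs2 := hD.tendsto_slope_zero.comp (tendsto_nhdsWithin_iff.2
      ⟨by simpa using hh0.neg, Eventually.of_forall fun n => neg_ne_zero.2 (hpos n).ne'⟩)
    have hs := (hs1.mul hh0).add hs2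
    rw [mul_zero, zero_add] at hs
    refine hs.congr fun n => ?_
    have := (hpos n).ne'
    simp only [Function.comp_apply, smul_eq_mul, ← sub_eq_add_neg]
    field_simp
    ring
  exact le_of_tendsto_of_tendsto hlim1 hlim2 hbound

/-! ## Volumes -/

/-- The centred cell. -/
def centredCell : Set R3 := univ.pi fun _ => Ico (-(1 / 2) : ℝ) (1 / 2)

theorem torusVolume_eq_centred {E : Set R3} (hE : IsTorusSet E) :
    torusVolume E = volume.real (centredCell ∩ E) := by
  have h1 : ∀ s : Set R3, ∫ x in s, E.indicator (fun _ => (1 : ℝ)) x = volume.real (s ∩ E) :=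
    fun s => by rw [setIntegral_indicator hE.measurable, setIntegral_const, smul_eq_mul, mul_one]
  rw [torusVolume, ← h1, ← h1]
  set c : R3 := fun _ => -(1 / 2) with hc
  rw [← setIntegral_cell_add hE.periodic_indicator c,
    ← (measurePreserving_add_right volume c).setIntegral_image_emb
      (MeasurableEquiv.addRight c).measurableEmbedding _ cell]
  have : (fun x : R3 => x + c) '' cell = centredCell := by
    rw [image_add_right]
    ext x
    simp only [cell, centredCell, mem_preimage, mem_univ_pi]
    refine forall_congr' fun j => ?_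
    simp only [hc, Pi.add_apply, Pi.neg_apply, mem_Ico]
    constructor <;> rintro ⟨h₁, h₂⟩ <;> constructor <;> linarith
  rw [this]

theorem mem_centredCell_tubeSet {S : Finset (Fin 3)} {ρ : ℝ} (hρ : 0 < ρ) (hρ2 : ρ < 1 / 2)
    (x : R3) : x ∈ centredCell ∩ tubeSet S ρ ↔
      (∀ i, i ∉ S → x i ∈ Ico (-(1 / 2) : ℝ) (1 / 2)) ∧ ∑ i ∈ S, x i ^ 2 < ρ ^ 2 := by
  have key : (∀ i ∈ S, |x i| ≤ 1 / 2) →
      (subtorusDist S x < ρ ↔ ∑ i ∈ S, x i ^ 2 < ρ ^ 2) := fun h => by
    rw [subtorusDist_eq, Real.sqrt_lt' hρ,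
      Finset.sum_congr rfl fun i hi => by rw [intDist_eq_abs (h i hi), sq_abs]]
  constructor
  · rintro ⟨hc, ht⟩
    have hc' := mem_univ_pi.1 hc
    exact ⟨fun i _ => hc' i, (key fun i _ => abs_le.2 ⟨(hc' i).1, (hc' i).2.le⟩).1 ht⟩
  · rintro ⟨ho, hs⟩
    have hin : ∀ i ∈ S, |x i| < 1 / 2 := fun i hi => by
      have := Finset.single_le_sum (f := fun j => x j ^ 2) (fun j _ => sq_nonneg _) hi
      exact (abs_lt_of_sq_lt_sq (lt_of_le_of_lt this hs) hρ.le).trans hρ2
    refine ⟨mem_univ_pi.2 fun i => ?_, (key fun i hi => (hin i hi).le).2 hs⟩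
    by_cases hi : i ∈ S
    · exact ⟨(abs_lt.1 (hin i hi)).1.le, (abs_lt.1 (hin i hi)).2⟩
    · exact ho i hi

theorem volume_ball3 {ρ : ℝ} (hρ : 0 < ρ) (hρ2 : ρ < 1 / 2) :
    torusVolume (tubeSet Finset.univ ρ) = 4 * π / 3 * ρ ^ 3 := by
  rw [torusVolume_eq_centred (isTorusSet_tubeSet _ _)]
  have hset : centredCell ∩ tubeSet Finset.univ ρ =
      WithLp.toLp 2 ⁻¹' Metric.ball (0 : EuclideanSpace ℝ (Fin 3)) ρ := by
    ext x
    rw [mem_centredCell_tubeSet hρ hρ2]
    simp [EuclideanSpace.norm_eq, Real.sqrt_lt' hρ]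
  rw [hset, measureReal_def, (PiLp.volume_preserving_toLp (Fin 3)).measure_preimage
    measurableSet_ball.nullMeasurableSet, EuclideanSpace.volume_ball_fin_three, ENNReal.toReal_mul,
    ENNReal.toReal_pow, ENNReal.toReal_ofReal hρ.le, ENNReal.toReal_ofReal (by positivity)]
  ring

theorem volume_tube2 {ρ : ℝ} (hρ : 0 < ρ) (hρ2 : ρ < 1 / 2) :
    torusVolume (tubeSet {1, 2} ρ) = π * ρ ^ 2 := by
  rw [torusVolume_eq_centred (isTorusSet_tubeSet _ _)]
  set e := (MeasurableEquiv.piFinSuccAbove (fun _ : Fin 3 => ℝ) 0)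
  have hset : centredCell ∩ tubeSet {1, 2} ρ = e ⁻¹'
      (Ico (-(1 / 2) : ℝ) (1 / 2) ×ˢ (WithLp.toLp 2 ⁻¹' Metric.ball (0 : EuclideanSpace ℝ (Fin 2)) ρ)) := by
    ext x
    rw [mem_centredCell_tubeSet hρ hρ2]
    simp [e, Fin.forall_fin_succ, EuclideanSpace.norm_eq, Real.sqrt_lt' hρ, Fin.tail]
  have hm : MeasurableSet (WithLp.toLp 2 ⁻¹' Metric.ball (0 : EuclideanSpace ℝ (Fin 2)) ρ) :=
    measurableSet_ball.preimage (PiLp.volume_preserving_toLp (Fin 2)).measurable
  rw [hset, measureReal_def, (volume_preserving_piFinSuccAbove (fun _ : Fin 3 => ℝ) 0).measure_preimage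
      (measurableSet_Ico.prod hm).nullMeasurableSet, Measure.volume_eq_prod, Measure.prod_prod,
    Real.volume_Ico, (PiLp.volume_preserving_toLp (Fin 2)).measure_preimage
      measurableSet_ball.nullMeasurableSet, EuclideanSpace.volume_ball_fin_two, ENNReal.toReal_mul,
    ENNReal.toReal_mul, ENNReal.toReal_pow, ENNReal.toReal_ofReal hρ.le,
    ENNReal.toReal_ofReal (by norm_num)]
  simp [Real.pi_pos.le]
  ring

theorem volume_slab1 {ρ : ℝ} (hρ : 0 < ρ) (hρ2 : ρ < 1 / 2) :
    torusVolume (tubeSet {0} ρ) = 2 * ρ := by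
  rw [torusVolume_eq_centred (isTorusSet_tubeSet _ _)]
  have hset : centredCell ∩ tubeSet {0} ρ = univ.pi fun i : Fin 3 =>
      if i = 0 then Ioo (-ρ) ρ else Ico (-(1 / 2) : ℝ) (1 / 2) := by
    ext x
    rw [mem_centredCell_tubeSet hρ hρ2, mem_univ_pi, Finset.sum_singleton, sq_lt_sq, abs_of_pos hρ,
      abs_lt]
    constructor
    · rintro ⟨h₁, h₂⟩ i
      split_ifs with h
      · subst h; exact h₂
      · exact h₁ i (by simpa using h)
    · intro h
      refine ⟨fun i hi => ?_, by simpa using h 0⟩
      have := h i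
      rwa [if_neg (by simpa using hi)] at this
  rw [hset, measureReal_def, volume_pi_pi, Fin.prod_univ_three]
  simp [Real.volume_Ioo, Real.volume_Ico, ENNReal.toReal_ofReal hρ.le, ← two_mul,
    ENNReal.toReal_mul]

theorem eventually_radius {R : ℝ} (hR : 0 < R) (hR2 : R < 1 / 2) :
    ∀ᶠ ρ in 𝓝 R, 0 < ρ ∧ ρ < 1 / 2 :=
  (eventually_gt_nhds hR).and (eventually_lt_nhds hR2)

/-! ## Complements and the bound -/

theorem IsTorusSet.compl {E : Set R3} (hE : IsTorusSet E) : IsTorusSet Eᶜ :=
  ⟨hE.measurable.compl, fun x i => not_congr (hE.periodic x i)⟩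

theorem IsTorusSet.torusVolume_compl {E : Set R3} (hE : IsTorusSet E) :
    torusVolume Eᶜ = 1 - torusVolume E := by
  have h := measureReal_inter_add_sdiff (μ := volume) (s := cell) hE.measurable volume_cell_ne_top
  rw [torusVolume, torusVolume, ← sdiff_eq_compl_inter.trans (inter_comm _ _)]
  rw [show volume.real cell = 1 by simp [measureReal_def, volume_cell]] at h
  linarith

theorem IsTorusSet.perimeter_compl_le {E : Set R3} (hE : IsTorusSet E) :
    perimeter Eᶜ ≤ perimeter E := by
  refine iSup₂_le fun X hX => ?_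
  have hY : IsTestField fun i x => -X i x :=
    ⟨fun i => (hX.smooth i).neg, fun i => (hX.periodic i).comp Neg.neg, fun x => by
      simpa using hX.bound x⟩
  refine le_iSup₂_of_le (fun i x => -X i x) hY (ENNReal.ofReal_le_ofReal (le_of_eq ?_))
  have hneg : ∀ x, divergence (fun i z => -X i z) x = -divergence X x := fun x => by
    simp [divergence, pd, Finset.sum_neg_distrib]
  simp only [hneg, integral_neg]
  have hint : IntegrableOn (divergence X) cell :=
    integrableOn_cell_of_continuous (continuous_divergence hX.smooth)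
  have hzero : ∫ x in cell, divergence X x = 0 := by
    simp only [divergence]
    rw [integral_finsetSum _ fun i _ => integrableOn_cell_of_continuous (continuous_pd (hX.smooth i) i)]
    exact Finset.sum_eq_zero fun i _ => integral_pd_eq_zero (hX.periodic i)
      (hX.smooth i).locallyLipschitz (ae_of_all _ fun x => (hX.smooth i).differentiable one_ne_zero x) i
  rw [← sdiff_eq, ← sdiff_self_inter, setIntegral_sdiff (measurableSet_cell.inter hE.measurable) hint
    inter_subset_left, hzero, zero_sub]

theorem profile_le_of_set {E : Set R3} {V P : ℝ} (hE : IsTorusSet E) (hV : torusVolume E = V)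
    (hP : perimeter E ≤ ENNReal.ofReal P) :
    profile V ≤ ENNReal.ofReal P ∧ profile (1 - V) ≤ ENNReal.ofReal P :=
  ⟨iInf_le_of_le E (iInf_le_of_le hE (iInf_le_of_le hV hP)),
    iInf_le_of_le Eᶜ (iInf_le_of_le hE.compl
      (iInf_le_of_le (hE.torusVolume_compl.trans (by rw [hV])) (hE.perimeter_compl_le.trans hP)))⟩

/-- Balls, tubes and slabs: at the volume `v ≤ 1/2` and at `1 - v`. -/
theorem exists_three_regions {v : ℝ} (hv : 0 < v) (hv2 : v ≤ 1 / 2) :
    (∃ E, IsTorusSet E ∧ torusVolume E = v ∧
        perimeter E ≤ ENNReal.ofReal ((36 * π) ^ ((1 : ℝ) / 3) * v ^ ((2 : ℝ) / 3))) ∧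
      (∃ E, IsTorusSet E ∧ torusVolume E = v ∧
        perimeter E ≤ ENNReal.ofReal (2 * Real.sqrt (π * v))) ∧
      ∃ E, IsTorusSet E ∧ torusVolume E = v ∧ perimeter E ≤ ENNReal.ofReal 2 := by
  have hpi := Real.pi_gt_three
  refine ⟨?_, ?_, ?_⟩
  · set R := (3 * v / (4 * π)) ^ ((1 : ℝ) / 3) with hR
    have hR0 : 0 < R := Real.rpow_pos_of_pos (by positivity) _
    have hR3 : R ^ 3 = 3 * v / (4 * π) := by
      rw [hR, ← Real.rpow_natCast, ← Real.rpow_mul (by positivity)]
      norm_num
    have hR2 : R < 1 / 2 := by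
      refine lt_of_pow_lt_pow_left₀ 3 (by norm_num) ?_
      rw [hR3, div_lt_iff₀ (by positivity)]
      nlinarith
    refine ⟨tubeSet Finset.univ R, isTorusSet_tubeSet _ _, ?_, ?_⟩
    · rw [volume_ball3 hR0 hR2, hR3]; field_simp
    · refine (perimeter_tubeSet_le _ (F := fun ρ => 4 * π / 3 * ρ ^ 3) (D := 4 * π * R ^ 2)
        ((eventually_radius hR0 hR2).mono fun ρ h => volume_ball3 h.1 h.2) ?_).trans
        (ENNReal.ofReal_le_ofReal (le_of_eq ?_))
      · exact ((hasDerivAt_pow 3 R).const_mul (4 * π / 3)).congr_deriv (by push_cast; ring)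
      · refine (pow_left_inj₀ (n := 3) (by positivity) (by positivity) (by norm_num)).1 ?_
        rw [mul_pow ((36 * π) ^ ((1 : ℝ) / 3)), ← Real.rpow_natCast ((36 * π) ^ _),
          ← Real.rpow_natCast (v ^ _), ← Real.rpow_mul (by positivity), ← Real.rpow_mul hv.le]
        norm_num
        rw [show (4 * π * R ^ 2) ^ 3 = 64 * π ^ 3 * (R ^ 3) ^ 2 by ring, hR3]
        field_simp
        ring
  · set R := Real.sqrt (v / π) with hR
    have hR0 : 0 < R := Real.sqrt_pos.2 (by positivity)
    have hRsq : R ^ 2 = v / π := Real.sq_sqrt (by positivity)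
    have hR2 : R < 1 / 2 := by
      refine lt_of_pow_lt_pow_left₀ 2 (by norm_num) ?_
      rw [hRsq, div_lt_iff₀ (by positivity)]
      nlinarith
    refine ⟨tubeSet {1, 2} R, isTorusSet_tubeSet _ _, ?_, ?_⟩
    · rw [volume_tube2 hR0 hR2, hRsq]; field_simp
    · refine (perimeter_tubeSet_le _ (F := fun ρ => π * ρ ^ 2) (D := 2 * π * R)
        ((eventually_radius hR0 hR2).mono fun ρ h => volume_tube2 h.1 h.2) ?_).trans
        (ENNReal.ofReal_le_ofReal (le_of_eq ?_))
      · exact ((hasDerivAt_pow 2 R).const_mul π).congr_deriv (by push_cast; ring)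
      · rw [mul_assoc]
        congr 1
        rw [hR, ← Real.sqrt_sq Real.pi_pos.le, ← Real.sqrt_mul (sq_nonneg _), Real.sqrt_sq Real.pi_pos.le]
        congr 1
        field_simp
  · refine ⟨tubeSet {0} (v / 2), isTorusSet_tubeSet _ _, ?_, ?_⟩
    · rw [volume_slab1 (by linarith) (by linarith)]; ring
    · refine perimeter_tubeSet_le _ (F := fun ρ => 2 * ρ)
        ((eventually_radius (by linarith) (by linarith)).mono fun ρ h => volume_slab1 h.1 h.2) ?_
      simpa using (hasDerivAt_id (v / 2)).const_mul (2 : ℝ)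

/-- The profile is at most the best of ball, tube, slab and complements. -/
theorem profile_le_candidate {V : ℝ} (hV : V ∈ Ioo (0 : ℝ) 1) :
    profile V ≤ ENNReal.ofReal (candidate V) := by
  have hv0 : 0 < min V (1 - V) := lt_min hV.1 (by linarith [hV.2])
  have hv2 : min V (1 - V) ≤ 1 / 2 := by
    linarith [min_le_left V (1 - V), min_le_right V (1 - V)]
  obtain ⟨⟨E₁, hE₁, hV₁, hP₁⟩, ⟨E₂, hE₂, hV₂, hP₂⟩, ⟨E₃, hE₃, hV₃, hP₃⟩⟩ :=
    exists_three_regions hv0 hv2
  have pick : ∀ {P : ℝ}, profile (min V (1 - V)) ≤ ENNReal.ofReal P ∧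
      profile (1 - min V (1 - V)) ≤ ENNReal.ofReal P → profile V ≤ ENNReal.ofReal P := fun {P} h => by
    rcases min_choice V (1 - V) with h' | h'
    · rw [h'] at h; exact h.1
    · rw [h', sub_sub_cancel] at h; exact h.2
  simp only [candidate, ENNReal.ofReal_min, le_min_iff]
  exact ⟨⟨pick (profile_le_of_set hE₁ hV₁ hP₁), pick (profile_le_of_set hE₂ hV₂ hP₂)⟩,
    pick (profile_le_of_set hE₃ hV₃ hP₃)⟩

end Vale.Agent.P232
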