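import Vale.Agent.P232.Mollify
import Vale.Agent.P232.Polarise
import Vale.Agent.P232.UpperBound

/-!
# P232: midpoint concavity of the profile from translations

For a set `E` of the torus and a translate `τE`, perimeter is submodular:
`P(E ∩ τE) + P(E ∪ τE) ≤ 2 P(E)`. The overlap `|E ∩ τE|` varies continuously with the translation
from `|E|` down to at most `|E|²`. Hence a lower bound for the profile at one volume `V₀ ∈ [1/4, 1/2]`
spreads to `[V₀, 1 - V₀]`.
-/

open MeasureTheory Set Filter
open scoped ENNReal NNReal Topology Real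

noncomputable section

namespace Vale.Agent.P232

theorem IsPeriodicFun.divergence_periodic {X : Fin 3 → R3 → ℝ} (hX : ∀ i, IsPeriodicFun (X i)) :
    IsPeriodicFun (divergence X) := fun x j => by
  simp only [divergence]
  exact Finset.sum_congr rfl fun i _ => (hX i).pd i x j

theorem IsPeriodicFun.combine {f g : R3 → ℝ} (hf : IsPeriodicFun f) (hg : IsPeriodicFun g)
    (φ : ℝ → ℝ → ℝ) : IsPeriodicFun fun x => φ (f x) (g x) := fun x i => by
  simp only [hf x i, hg x i]

theorem IsTorusSet.inter {E F : Set R3} (hE : IsTorusSet E) (hF : IsTorusSet F) :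
    IsTorusSet (E ∩ F) :=
  ⟨hE.measurable.inter hF.measurable, fun x i => and_congr (hE.periodic x i) (hF.periodic x i)⟩

theorem IsTorusSet.union {E F : Set R3} (hE : IsTorusSet E) (hF : IsTorusSet F) :
    IsTorusSet (E ∪ F) :=
  ⟨hE.measurable.union hF.measurable, fun x i => or_congr (hE.periodic x i) (hF.periodic x i)⟩

theorem indicator_one_mem (E : Set R3) (x : R3) :
    E.indicator (fun _ => (1 : ℝ)) x ∈ Icc (0 : ℝ) 1 := by
  by_cases h : x ∈ E <;> simp [h]

theorem setIntegral_cell_indicator_mul {E : Set R3} (hE : MeasurableSet E) (f : R3 → ℝ) :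
    ∫ x in cell, E.indicator (fun _ => (1 : ℝ)) x * f x = ∫ x in cell ∩ E, f x := by
  rw [← setIntegral_indicator hE]
  refine integral_congr_ae (ae_of_all _ fun x => ?_)
  by_cases h : x ∈ E <;> simp [h]

theorem IsTorusSet.torusVolume_eq_integral {E : Set R3} (hE : IsTorusSet E) :
    torusVolume E = ∫ x in cell, E.indicator (fun _ => (1 : ℝ)) x := by
  rw [setIntegral_indicator hE.measurable, setIntegral_const, smul_eq_mul, mul_one]
  rfl

theorem tendsto_mul_divergence {f : ℕ → R3 → ℝ} {g : R3 → ℝ} (hf : ∀ n, Measurable (f n))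
    (hb : ∀ n x, |f n x| ≤ 1) (hlim : ∀ᵐ x, Tendsto (fun n => f n x) atTop (𝓝 (g x)))
    {X : Fin 3 → R3 → ℝ} (hX : IsTestField X) :
    Tendsto (fun n => ∫ x in cell, f n x * divergence X x) atTop
      (𝓝 (∫ x in cell, g x * divergence X x)) := by
  refine tendsto_integral_of_dominated_convergence (fun x => |divergence X x|)
    (fun n => ((hf n).mul (continuous_divergence hX.smooth).measurable).aestronglyMeasurable)
    (integrableOn_cell_of_continuous (continuous_divergence hX.smooth)).norm
    (fun n => ae_of_all _ fun x => ?_) ?_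
  · rw [Real.norm_eq_abs, abs_mul]
    exact mul_le_of_le_one_left (abs_nonneg _) (hb n x)
  · filter_upwards [ae_restrict_of_ae hlim] with x hx
    exact hx.mul_const _

/-- Submodularity against test fields. -/
theorem integral_divergence_add_le {E F : Set R3} (hE : IsTorusSet E) (hF : IsTorusSet F)
    (hEf : perimeter E ≠ ⊤) (hFf : perimeter F ≠ ⊤) {X Y : Fin 3 → R3 → ℝ} (hX : IsTestField X)
    (hY : IsTestField Y) :
    (∫ x in cell ∩ (E ∩ F), divergence X x) + ∫ x in cell ∩ (E ∪ F), divergence Y x ≤
      (perimeter E).toReal + (perimeter F).toReal := by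
  set χ := E.indicator fun _ => (1 : ℝ) with hχ
  set ψ := F.indicator fun _ => (1 : ℝ) with hψ
  have hmχ : Measurable χ := measurable_const.indicator hE.measurable
  have hmψ : Measurable ψ := measurable_const.indicator hF.measurable
  have h01χ : ∀ x, χ x ∈ Icc (0 : ℝ) 1 := indicator_one_mem E
  have h01ψ : ∀ x, ψ x ∈ Icc (0 : ℝ) 1 := indicator_one_mem F
  have hBχ : ∀ x, |χ x| ≤ 1 := fun x => by rw [abs_of_nonneg (h01χ x).1]; exact (h01χ x).2
  have hBψ : ∀ x, |ψ x| ≤ 1 := fun x => by rw [abs_of_nonneg (h01ψ x).1]; exact (h01ψ x).2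
  set u := fun n => mollify n χ with hu
  set v := fun n => mollify n ψ with hv
  have key : ∀ n, (∫ x in cell, min (u n x) (v n x) * divergence X x) +
      (∫ x in cell, max (u n x) (v n x) * divergence Y x) ≤
        (perimeter E).toReal + (perimeter F).toReal := by
    intro n
    have hpu : IsPeriodicFun (u n) := mollify_periodic hE.periodic_indicator n
    have hpv : IsPeriodicFun (v n) := mollify_periodic hF.periodic_indicator n
    obtain ⟨L₁, hL₁⟩ := exists_lipschitzWith (contDiff_mollify hmχ hBχ n 1) hpu
    obtain ⟨L₂, hL₂⟩ := exists_lipschitzWith (contDiff_mollify hmψ hBψ n 1) hpv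
    have hmin := hL₁.min hL₂
    have hmax := hL₁.max hL₂
    refine (add_le_add (integral_mul_divergence_le hmin (hpu.combine hpv min) hX)
      (integral_mul_divergence_le hmax (hpu.combine hpv max) hY)).trans ?_
    rw [← integral_add (integrableOn_gradNorm hmin) (integrableOn_gradNorm hmax)]
    refine le_trans (le_of_eq ?_) (add_le_add
      (gradient_le_of_contDiff (contDiff_mollify hmχ hBχ n 2) hpu
        ((hE.hasVariationLE hEf).mollify hmχ hBχ hE.periodic_indicator n))
      (gradient_le_of_contDiff (contDiff_mollify hmψ hBψ n 2) hpv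
        ((hF.hasVariationLE hFf).mollify hmψ hBψ hF.periodic_indicator n)))
    rw [← integral_add (integrableOn_gradNorm hL₁) (integrableOn_gradNorm hL₂)]
    refine integral_congr_ae (ae_restrict_of_ae ?_)
    filter_upwards [hmin.ae_differentiableAt, hmax.ae_differentiableAt,
      hL₁.ae_differentiableAt (μ := volume), hL₂.ae_differentiableAt (μ := volume)]
      with x h1 h2 h3 h4
    rw [add_comm]
    exact gradNorm_max_min h3 h4 h2 h1 EventuallyEq.rfl EventuallyEq.rfl
  have hmu : ∀ n, Measurable (u n) := fun n => (contDiff_mollify hmχ hBχ n 1).continuous.measurable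
  have hmv : ∀ n, Measurable (v n) := fun n => (contDiff_mollify hmψ hBψ n 1).continuous.measurable
  have h01u := fun n => mollify_mem_Icc hmχ h01χ n
  have h01v := fun n => mollify_mem_Icc hmψ h01ψ n
  have e1 := tendsto_mul_divergence (f := fun n x => min (u n x) (v n x))
    (g := (E ∩ F).indicator fun _ => (1 : ℝ)) (fun n => (hmu n).min (hmv n))
    (fun n x => by
      rw [abs_of_nonneg (le_min (h01u n x).1 (h01v n x).1)]
      exact (min_le_left _ _).trans (h01u n x).2) (by
      filter_upwards [tendsto_mollify hmχ hBχ, tendsto_mollify hmψ hBψ] with x hx hx'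
      have := hx.min hx'
      convert this using 2
      by_cases a : x ∈ E <;> by_cases b : x ∈ F <;> simp [χ, ψ, a, b]) hX
  have e2 := tendsto_mul_divergence (f := fun n x => max (u n x) (v n x))
    (g := (E ∪ F).indicator fun _ => (1 : ℝ)) (fun n => (hmu n).max (hmv n))
    (fun n x => by
      rw [abs_of_nonneg (le_max_of_le_left (h01u n x).1)]
      exact max_le (h01u n x).2 (h01v n x).2) (by
      filter_upwards [tendsto_mollify hmχ hBχ, tendsto_mollify hmψ hBψ] with x hx hx'
      have := hx.max hx'
      convert this using 2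
      by_cases a : x ∈ E <;> by_cases b : x ∈ F <;> simp [χ, ψ, a, b]) hY
  have := le_of_tendsto' (e1.add e2) key
  rwa [setIntegral_cell_indicator_mul (hE.measurable.inter hF.measurable),
    setIntegral_cell_indicator_mul (hE.measurable.union hF.measurable)] at this

theorem isTestField_zero : IsTestField fun _ _ => (0 : ℝ) :=
  ⟨fun _ => contDiff_const, fun _ _ _ => rfl, fun _ => by simp⟩

/-- Perimeter is submodular. -/
theorem perimeter_inter_add_union_le {E F : Set R3} (hE : IsTorusSet E) (hF : IsTorusSet F) :
    perimeter (E ∩ F) + perimeter (E ∪ F) ≤ perimeter E + perimeter F := by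
  rcases eq_or_ne (perimeter E) ⊤ with h | hEf
  · simp [h]
  rcases eq_or_ne (perimeter F) ⊤ with h | hFf
  · simp [h]
  have key := fun {X Y} => integral_divergence_add_le hE hF hEf hFf (X := X) (Y := Y)
  have hz : ∀ S : Set R3, ∫ x in cell ∩ S, divergence (fun _ _ => (0 : ℝ)) x = 0 := fun S => by
    simp [divergence, pd]
  have hne : Nonempty {X : Fin 3 → R3 → ℝ // IsTestField X} := ⟨⟨_, isTestField_zero⟩⟩
  have hR : perimeter E + perimeter F =
      ENNReal.ofReal ((perimeter E).toReal + (perimeter F).toReal) := by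
    rw [ENNReal.ofReal_add ENNReal.toReal_nonneg ENNReal.toReal_nonneg, ENNReal.ofReal_toReal hEf,
      ENNReal.ofReal_toReal hFf]
  rw [hR]
  set M := (perimeter E).toReal + (perimeter F).toReal
  clear_value M
  clear hR hEf hFf
  simp only [perimeter, iSup_subtype']
  rw [ENNReal.iSup_add]
  refine iSup_le fun X => ?_
  rw [ENNReal.add_iSup]
  refine iSup_le fun Y => ?_
  have h1 := key X.2 Y.2
  have h2 := key isTestField_zero Y.2
  have h3 := key X.2 isTestField_zero
  have h4 := key isTestField_zero isTestField_zero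
  simp only [hz] at h2 h3 h4
  rcases le_total (∫ x in cell ∩ (E ∩ F), divergence X.1 x) 0 with a | a <;>
    rcases le_total (∫ x in cell ∩ (E ∪ F), divergence Y.1 x) 0 with b | b
  · simp only [ENNReal.ofReal_of_nonpos a, ENNReal.ofReal_of_nonpos b, add_zero]; exact zero_le
  · simp only [ENNReal.ofReal_of_nonpos a, zero_add]
    exact ENNReal.ofReal_le_ofReal (by linarith)
  · simp only [ENNReal.ofReal_of_nonpos b, add_zero]
    exact ENNReal.ofReal_le_ofReal (by linarith)
  · rw [← ENNReal.ofReal_add a b]
    exact ENNReal.ofReal_le_ofReal h1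

/-! ## Translates and their overlap -/

theorem IsTorusSet.translate {E : Set R3} (hE : IsTorusSet E) (y : R3) :
    IsTorusSet ((fun x => x + y) ⁻¹' E) :=
  ⟨hE.measurable.preimage (measurable_id.add_const y), fun x i => by
    simp only [mem_preimage, add_right_comm x (unit i) y]
    exact hE.periodic (x + y) i⟩

theorem IsTorusSet.perimeter_translate_le {E : Set R3} (hE : IsTorusSet E) (y : R3) :
    perimeter ((fun x => x + y) ⁻¹' E) ≤ perimeter E := by
  refine iSup₂_le fun X hX => le_iSup₂_of_le _ (hX.shift (-y)) (ENNReal.ofReal_le_ofReal (le_of_eq ?_))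
  rw [← setIntegral_cell_indicator_mul (hE.translate y).measurable,
    ← setIntegral_cell_indicator_mul hE.measurable]
  refine Eq.trans ?_ (setIntegral_cell_add
    (hE.periodic_indicator.mul (IsPeriodicFun.divergence_periodic (hX.shift (-y)).periodic)) y)
  refine integral_congr_ae (ae_of_all _ fun x => ?_)
  show _ = E.indicator _ (x + y) * divergence (fun i z => X i (z + -y)) (x + y)
  rw [divergence_shift, add_neg_cancel_right]
  by_cases h : x + y ∈ E <;> simp [h]

/-- Volume of `E ∩ (E - y)`. -/
def overlap (E : Set R3) (y : R3) : ℝ :=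
  ∫ x in cell, E.indicator (fun _ => (1 : ℝ)) x * E.indicator (fun _ => (1 : ℝ)) (x + y)

theorem IsTorusSet.torusVolume_inter_translate {E : Set R3} (hE : IsTorusSet E) (y : R3) :
    torusVolume (E ∩ (fun x => x + y) ⁻¹' E) = overlap E y ∧
    torusVolume (E ∪ (fun x => x + y) ⁻¹' E) = 2 * torusVolume E - overlap E y := by
  set F := (fun x => x + y) ⁻¹' E
  have hF : IsTorusSet F := hE.translate y
  have h1 : torusVolume (E ∩ F) = overlap E y := by
    rw [(hE.inter hF).torusVolume_eq_integral, overlap]
    refine integral_congr_ae (ae_of_all _ fun x => ?_)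
    by_cases a : x ∈ E <;> by_cases b : x + y ∈ E <;> simp [F, a, b]
  refine ⟨h1, ?_⟩
  have hFV : torusVolume F = torusVolume E := by
    rw [hF.torusVolume_eq_integral, hE.torusVolume_eq_integral,
      ← setIntegral_cell_add hE.periodic_indicator y]
    refine integral_congr_ae (ae_of_all _ fun x => ?_)
    by_cases b : x + y ∈ E <;> simp [F, b]
  have hfin : ∀ S : Set R3, volume (cell ∩ S) ≠ ⊤ := fun S =>
    ne_top_of_le_ne_top volume_cell_ne_top (measure_mono inter_subset_left)
  have := measureReal_union_add_inter (μ := volume) (s := cell ∩ E) (t := cell ∩ F)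
    (measurableSet_cell.inter hF.measurable) (hfin E) (hfin F)
  rw [← inter_union_distrib_left, show (cell ∩ E) ∩ (cell ∩ F) = cell ∩ (E ∩ F) by
    ext; simp; tauto] at this
  simp only [torusVolume] at h1 hFV ⊢
  linarith

theorem IsTorusSet.overlap_zero {E : Set R3} (hE : IsTorusSet E) : overlap E 0 = torusVolume E := by
  rw [hE.torusVolume_eq_integral, overlap]
  refine integral_congr_ae (ae_of_all _ fun x => ?_)
  by_cases a : x ∈ E <;> simp [a]

theorem IsTorusSet.continuous_overlap {E : Set R3} (hE : IsTorusSet E) :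
    Continuous (overlap E) := by
  set χ := E.indicator fun _ => (1 : ℝ) with hχ
  have hm : Measurable χ := measurable_const.indicator hE.measurable
  have h01 : ∀ x, χ x ∈ Icc (0 : ℝ) 1 := indicator_one_mem E
  have hB : ∀ x, |χ x| ≤ 1 := fun x => by rw [abs_of_nonneg (h01 x).1]; exact (h01 x).2
  have hp := hE.periodic_indicator
  have huc := fun n => (contDiff_mollify hm hB n 1).continuous
  have hub := abs_mollify_le hm hB
  set g := fun n y => ∫ x in cell, χ x * mollify n χ (x + y) with hg
  have hcont : ∀ n, Continuous (g n) := fun n => by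
    refine continuous_of_dominated (bound := fun _ => 1) (fun y => ?_)
      (fun y => ae_of_all _ fun x => ?_) (integrableOn_const volume_cell_ne_top)
      (ae_of_all _ fun x => ?_)
    · exact (hm.mul ((huc n).measurable.comp (measurable_id.add_const y))).aestronglyMeasurable
    · rw [Real.norm_eq_abs, abs_mul]
      exact mul_le_one₀ (hB x) (abs_nonneg _) (hub n _)
    · exact continuous_const.mul ((huc n).comp (continuous_const.add continuous_id))
  set ε := fun n => ∫ x in cell, |mollify n χ x - χ x|
  have hε : Tendsto ε atTop (𝓝 0) := by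
    have := tendsto_integral_of_dominated_convergence (μ := volume.restrict cell)
      (F := fun n x => |mollify n χ x - χ x|) (f := fun _ => (0 : ℝ)) (fun _ => (2 : ℝ))
      (fun n => (((huc n).measurable.sub hm).abs).aestronglyMeasurable)
      (integrableOn_const volume_cell_ne_top) (fun n => ae_of_all _ fun x => by
        rw [Real.norm_eq_abs, abs_abs]
        linarith [abs_sub (mollify n χ x) (χ x), hB x, hub n x]) (by
        filter_upwards [ae_restrict_of_ae (tendsto_mollify hm hB)] with x hx
        simpa using (hx.sub_const (χ x)).abs)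
    simpa using this
  have hunif : TendstoUniformly g (overlap E) atTop := by
    rw [Metric.tendstoUniformly_iff]
    intro δ hδ
    filter_upwards [hε.eventually (gt_mem_nhds hδ)] with n hn y
    refine lt_of_le_of_lt ?_ hn
    rw [Real.dist_eq, abs_sub_comm]
    have i1 : IntegrableOn (fun x => χ x * mollify n χ (x + y)) cell :=
      integrableOn_cell (hm.mul ((huc n).measurable.comp (measurable_id.add_const y))) 1
        fun x _ => by rw [abs_mul]; exact mul_le_one₀ (hB x) (abs_nonneg _) (hub n _)
    have i2 : IntegrableOn (fun x => χ x * χ (x + y)) cell :=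
      integrableOn_cell (hm.mul (hm.comp (measurable_id.add_const y))) 1
        fun x _ => by rw [abs_mul]; exact mul_le_one₀ (hB x) (abs_nonneg _) (hB _)
    have hq : IsPeriodicFun fun z => |mollify n χ z - χ z| :=
      (mollify_periodic hp n).combine hp fun a b => |a - b|
    show |g n y - overlap E y| ≤ ε n
    rw [hg, overlap, ← integral_sub i1 i2]
    refine (abs_integral_le_integral_abs).trans ?_
    simp only [ε]
    rw [← setIntegral_cell_add hq y]
    refine integral_mono (i1.sub i2).abs ?_ fun x => ?_
    · exact integrableOn_cell (((huc n).measurable.sub hm).abs.comp (measurable_id.add_const y)) 2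
        fun x _ => by
          rw [abs_abs]; linarith [abs_sub (mollify n χ (x + y)) (χ (x + y)), hB (x + y), hub n (x + y)]
    · simp only [← mul_sub, abs_mul]
      exact mul_le_of_le_one_left (abs_nonneg _) (hB x)
  exact hunif.continuous (Eventually.frequently (Eventually.of_forall hcont))

theorem IsTorusSet.exists_overlap_le {E : Set R3} (hE : IsTorusSet E) :
    ∃ y, overlap E y ≤ torusVolume E ^ 2 := by
  set χ := E.indicator fun _ => (1 : ℝ) with hχ
  have hm : Measurable χ := measurable_const.indicator hE.measurable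
  have h01 : ∀ x, χ x ∈ Icc (0 : ℝ) 1 := indicator_one_mem E
  have : IsFiniteMeasure (volume.restrict cell) :=
    isFiniteMeasure_restrict.2 volume_cell_ne_top
  have hint : Integrable (Function.uncurry fun y x : R3 => χ x * χ (x + y))
      ((volume.restrict cell).prod (volume.restrict cell)) := by
    refine Integrable.of_bound ?_ 1 (ae_of_all _ fun p => ?_)
    · exact ((hm.comp measurable_snd).mul
        (hm.comp (measurable_snd.add measurable_fst))).aestronglyMeasurable
    · rw [Real.norm_eq_abs, Function.uncurry, abs_mul]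
      exact mul_le_one₀ (by rw [abs_of_nonneg (h01 _).1]; exact (h01 _).2) (abs_nonneg _)
        (by rw [abs_of_nonneg (h01 _).1]; exact (h01 _).2)
  have htot : ∫ y in cell, overlap E y = torusVolume E ^ 2 := by
    simp only [overlap, ← hχ]
    rw [integral_integral_swap hint]
    have : ∀ x : R3, ∫ y in cell, χ x * χ (x + y) = χ x * torusVolume E := fun x => by
      rw [integral_const_mul, hE.torusVolume_eq_integral,
        ← setIntegral_cell_add hE.periodic_indicator x]
      simp only [add_comm x, hχ]
    simp only [this]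
    rw [integral_mul_const, hχ, ← hE.torusVolume_eq_integral]
    ring
  obtain ⟨y, -, hy⟩ := exists_le_setAverage (μ := volume) (s := cell) (f := overlap E)
    (by simp [volume_cell]) volume_cell_ne_top
    (integrableOn_cell_of_continuous hE.continuous_overlap)
  rw [setAverage_eq, htot, show volume.real cell = 1 by
    simp [measureReal_def, volume_cell], inv_one, one_smul] at hy
  exact ⟨y, hy⟩

/-- The overlap takes every value between `V²` and `V`. -/
theorem IsTorusSet.exists_overlap_eq {E : Set R3} (hE : IsTorusSet E) {w : ℝ}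
    (h1 : torusVolume E ^ 2 ≤ w) (h2 : w ≤ torusVolume E) : ∃ y, overlap E y = w := by
  obtain ⟨y, hy⟩ := hE.exists_overlap_le
  exact intermediate_value_univ y 0 hE.continuous_overlap
    ⟨hy.trans h1, h2.trans hE.overlap_zero.ge⟩

/-- Midpoint concavity: `I(V - s) + I(V + s) ≤ 2 P(E)` for `0 ≤ s ≤ V (1 - V)`. -/
theorem IsTorusSet.profile_add_profile_le {E : Set R3} (hE : IsTorusSet E) {s : ℝ} (h0 : 0 ≤ s)
    (hs : s ≤ torusVolume E * (1 - torusVolume E)) :
    profile (torusVolume E - s) + profile (torusVolume E + s) ≤ perimeter E + perimeter E := by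
  obtain ⟨y, hy⟩ := hE.exists_overlap_eq (w := torusVolume E - s) (by nlinarith) (by linarith)
  obtain ⟨e1, e2⟩ := hE.torusVolume_inter_translate y
  have hF := hE.translate y
  refine le_trans (add_le_add ?_ ?_) ((perimeter_inter_add_union_le hE hF).trans
    (add_le_add le_rfl (hE.perimeter_translate_le y)))
  · exact iInf_le_of_le _ (iInf_le_of_le (hE.inter hF) (iInf_le_of_le (e1.trans hy) le_rfl))
  · exact iInf_le_of_le _ (iInf_le_of_le (hE.union hF)
      (iInf_le_of_le (e2.trans (by rw [hy]; ring)) le_rfl))

/-- A lower bound at one volume spreads towards one half. -/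
theorem profile_ge_of_endpoint {V₀ : ℝ} {c : ℝ≥0∞} (h4 : 1 / 4 ≤ V₀) (hc : c ≠ ⊤)
    (h : c ≤ profile V₀) {V : ℝ} (hV : V ∈ Icc V₀ (1 - V₀)) : c ≤ profile V := by
  set m := ⨅ W ∈ Icc V₀ (1 - V₀), profile W with hm
  refine le_trans (b := m) ?_ (iInf₂_le (f := fun W (_ : W ∈ Icc V₀ (1 - V₀)) => profile W) V hV)
  by_contra hlt
  have hmtop : m ≠ ⊤ := ne_top_of_le_ne_top hc (not_le.1 hlt).le
  have low : ∀ E : Set R3, IsTorusSet E → torusVolume E ∈ Icc V₀ (1 / 2) →
      c + m ≤ perimeter E + perimeter E := by
    intro E hE hEV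
    refine le_trans (add_le_add ?_ ?_) (hE.profile_add_profile_le
      (s := torusVolume E - V₀) (by linarith [hEV.1]) ?_)
    · rw [sub_sub_cancel]; exact h
    · exact iInf₂_le _ ⟨by linarith [hEV.1], by linarith [hEV.2]⟩
    · nlinarith [hEV.1, hEV.2, mul_le_mul hEV.2 hEV.2 (by linarith [hEV.1]) (by norm_num)]
  have hall : (c + m) / 2 ≤ m := by
    refine le_iInf₂ fun W hW => le_iInf fun E => le_iInf fun hE => le_iInf fun hEW => ?_
    rw [ENNReal.div_le_iff (by norm_num) (by norm_num), mul_two]
    rcases le_total W (1 / 2) with hh | hh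
    · exact low E hE ⟨hEW ▸ hW.1, hEW ▸ hh⟩
    · refine (low Eᶜ hE.compl ?_).trans (add_le_add hE.perimeter_compl_le hE.perimeter_compl_le)
      rw [hE.torusVolume_compl, hEW]
      exact ⟨by linarith [hW.2], by linarith⟩
  rw [ENNReal.div_le_iff (by norm_num) (by norm_num), mul_two] at hall
  exact hlt ((ENNReal.add_le_add_iff_right hmtop).1 hall)

/-- The tube range below `1/π` gives the whole slab range. -/
theorem profile_slab_of_tube {a : ℝ} (ha : a < 1 / π)
    (h : ∀ W ∈ Ioo a (1 / π), ENNReal.ofReal (2 * Real.sqrt (π * W)) ≤ profile W) {V : ℝ}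
    (hV : V ∈ Icc (1 / π) (1 - 1 / π)) : ENNReal.ofReal 2 ≤ profile V := by
  have hpi : (1 : ℝ) / 4 < 1 / π :=
    one_div_lt_one_div_of_lt Real.pi_pos Real.pi_lt_four
  have hlim : Tendsto (fun W => ENNReal.ofReal (2 * Real.sqrt (π * W))) (𝓝[<] (1 / π))
      (𝓝 (ENNReal.ofReal 2)) := by
    have hc : Continuous fun W : ℝ => ENNReal.ofReal (2 * Real.sqrt (π * W)) :=
      ENNReal.continuous_ofReal.comp (by fun_prop)
    have := hc.tendsto (1 / π)
    rw [mul_one_div_cancel Real.pi_ne_zero, Real.sqrt_one, mul_one] at this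
    exact this.mono_left nhdsWithin_le_nhds
  refine le_of_tendsto hlim ?_
  filter_upwards [Ioo_mem_nhdsLT (max_lt ha hpi)] with W hW
  refine profile_ge_of_endpoint ((le_max_right a _).trans hW.1.le) ENNReal.ofReal_ne_top
    (h W ⟨(le_max_left _ _).trans_lt hW.1, hW.2⟩) ⟨hW.2.le.trans hV.1, by linarith [hV.2, hW.2]⟩

end Vale.Agent.P232
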