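import Vale.Agent.P232.Level

/-!
# P232: the reflected complement of a reduced set is reduced
-/

open MeasureTheory Set Filter Topology
open scoped ENNReal NNReal Real

noncomputable section

namespace Vale.Agent.P232

theorem one_sub_mem_box {x : R3} : 1 - x ∈ box ↔ x ∈ box := by
  simp only [box, mem_Icc, Pi.le_def, Pi.sub_apply, Pi.one_apply, Pi.zero_apply, ← forall_and]
  refine forall_congr' fun j => ?_
  constructor <;> rintro ⟨h₁, h₂⟩ <;> constructor <;> linarith

theorem facePoint_one_sub (i : Fin 3) (c : ℝ) (y : R2) :
    1 - facePoint i c y = facePoint i (1 - c) (1 - y) := by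
  funext j
  revert j
  refine i.forall_iff_succAbove.2 ⟨?_, fun j => ?_⟩ <;> simp [facePoint]

/-- Reflected complement: reduced, with the complementary volume. -/
theorem IsReduced.mirror_complement {D : Set R3} {M : ℝ} (h : IsReduced D M) :
    IsReduced {x | x ∈ box ∧ 1 - x ∉ D} M ∧
      boxVolume {x | x ∈ box ∧ 1 - x ∉ D} = 1 - boxVolume D := by
  set r : R3 → R3 := fun x => 1 - x with hr
  have hmp : MeasurePreserving r volume volume := Measure.measurePreserving_sub_left volume 1
  have hemb : MeasurableEmbedding r := (MeasurableEquiv.subLeft (1 : R3)).measurableEmbedding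
  have hD' : {x | x ∈ box ∧ 1 - x ∉ D} = r ⁻¹' (box \ D) := by
    ext x
    show x ∈ box ∧ 1 - x ∉ D ↔ 1 - x ∈ box ∧ 1 - x ∉ D
    rw [one_sub_mem_box]
  have hmeasD : MeasurableSet (box \ D) := measurableSet_box.diff h.measurable
  refine ⟨⟨fun x hx => hx.1, hD' ▸ hmeasD.preimage hmp.measurable, ?_, ?_⟩, ?_⟩
  · rintro x ⟨hxb, hx⟩ y hy hyx
    exact ⟨hy, fun hyD => hx (h.down _ hyD _ (one_sub_mem_box.2 hxb) (sub_le_sub_left hyx 1))⟩
  · intro X hX hb
    set Z : Fin 3 → R3 → ℝ := fun i x => X i (1 - x) with hZ
    have hZs : ∀ i, ContDiff ℝ 1 (Z i) := fun i =>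
      (hX i).comp (contDiff_const.sub contDiff_id)
    have hZb : ∀ x ∈ box, ∑ i, Z i x ^ 2 ≤ 1 := fun x hx => hb _ (one_sub_mem_box.2 hx)
    have hdiv : ∀ x, divergence Z x = -divergence X (1 - x) := fun x => by
      simp only [divergence, ← Finset.sum_neg_distrib]
      refine Finset.sum_congr rfl fun i _ => ?_
      have hd : HasFDerivAt (Z i) ((fderiv ℝ (X i) (1 - x)).comp (-ContinuousLinearMap.id ℝ R3)) x :=
        ((hX i).differentiable one_ne_zero (1 - x)).hasFDerivAt.comp x
          ((hasFDerivAt_id x).const_sub 1)
      simp [pd, hd.fderiv]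
    have hleft : ∫ x in {x | x ∈ box ∧ 1 - x ∉ D}, divergence X x =
        -(∫ x in box \ D, divergence Z x) := by
      rw [hD', ← integral_neg, ← hmp.setIntegral_preimage_emb hemb _ (box \ D)]
      refine integral_congr_ae (ae_of_all _ fun x => ?_)
      simp [hdiv, hr]
    have hboxint : IntegrableOn (divergence Z) box :=
      (continuous_divergence hZs).continuousOn.integrableOn_compact isCompact_Icc
    have hdiff : ∫ x in box \ D, divergence Z x =
        (∫ x in box, divergence Z x) - ∫ x in D, divergence Z x :=
      setIntegral_sdiff h.measurable hboxint h.subset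
    have hbox : ∫ x in box, divergence Z x = ∑ i, ((∫ y in square, Z i (facePoint i 1 y)) -
        ∫ y in square, Z i (facePoint i 0 y)) := by
      have hp := fun i => integral_box_pd (hZs i).locallyLipschitz
        (ae_of_all _ fun x => (hZs i).differentiable one_ne_zero x) i
      simp only [divergence]
      rw [integral_finsetSum _ fun i _ => (hp i).1]
      exact Finset.sum_congr rfl fun i _ => (hp i).2
    have hface : ∀ (i : Fin 3) (c : ℝ), c ∈ Icc (0 : ℝ) 1 →
        ∫ y in square ∩ facePoint i c ⁻¹' {x | x ∈ box ∧ 1 - x ∉ D}, X i (facePoint i c y) =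
          (∫ y in square, Z i (facePoint i (1 - c) y)) -
            ∫ y in square ∩ facePoint i (1 - c) ⁻¹' D, Z i (facePoint i (1 - c) y) := by
      intro i c hc
      have hint : IntegrableOn (fun y => Z i (facePoint i (1 - c) y)) square :=
        ((hZs i).continuous.comp (continuous_facePoint' i _)).continuousOn.integrableOn_compact
          isCompact_Icc
      have hs : MeasurableSet (square ∩ facePoint i (1 - c) ⁻¹' D) :=
        measurableSet_square.inter (h.measurable.preimage (continuous_facePoint' i _).measurable)
      rw [← setIntegral_sdiff hs hint inter_subset_left,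
        ← (Measure.measurePreserving_sub_left volume (1 : R2)).setIntegral_preimage_emb
          (MeasurableEquiv.subLeft (1 : R2)).measurableEmbedding _ (square \ _)]
      have hset : (fun y : R2 => (1 : R2) - y) ⁻¹' (square \ (square ∩ facePoint i (1 - c) ⁻¹' D)) =
          square ∩ facePoint i c ⁻¹' {x | x ∈ box ∧ 1 - x ∉ D} := by
        ext y
        have hsq : 1 - y ∈ square ↔ y ∈ square := by
          simp only [square, mem_Icc, Pi.le_def, Pi.sub_apply, Pi.one_apply, Pi.zero_apply,
            ← forall_and]
          refine forall_congr' fun j => ?_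
          constructor <;> rintro ⟨h₁, h₂⟩ <;> constructor <;> linarith
        simp only [mem_preimage, Set.mem_sdiff, mem_inter_iff, hsq, mem_ofPred_eq,
          facePoint_one_sub, facePoint_mem_box]
        tauto
      rw [hset]
      refine integral_congr_ae (ae_of_all _ fun y => ?_)
      simp only [hZ, ← facePoint_one_sub, sub_sub_cancel]
    have hflux : flux {x | x ∈ box ∧ 1 - x ∉ D} X =
        -(∫ x in box, divergence Z x) + flux D Z := by
      rw [hbox, flux, flux, ← Finset.sum_neg_distrib, ← Finset.sum_add_distrib]
      refine Finset.sum_congr rfl fun i _ => ?_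
      rw [hface i 1 (right_mem_Icc.2 zero_le_one), hface i 0 (left_mem_Icc.2 zero_le_one),
        sub_self, sub_zero]
      ring
    have hbd := h.bound Z hZs hZb
    linarith
  · have hfin : volume box ≠ ⊤ := by simp [volume_box]
    show volume.real {x | x ∈ box ∧ 1 - x ∉ D} = 1 - volume.real D
    rw [hD', measureReal_def, hmp.measure_preimage hmeasD.nullMeasurableSet, ← measureReal_def,
      measureReal_sdiff h.subset h.measurable hfin, measureReal_def (s := box), volume_box]
    simp

end Vale.Agent.P232
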