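import Vale.Agent.P232.BandFree
import Vale.Agent.P232.Slicing.Main

/-!
# P232: the slicing inequality in the form used by the case assembly
-/

open MeasureTheory Set Filter
open scoped ENNReal Real Topology

noncomputable section

namespace Vale.Agent.P232

theorem clamp_eq_cl (t : ℝ) : clamp t = Slicing.cl t := rfl

theorem slicingHeight_eq {D : Set R3} (hdown : ∀ x ∈ D, ∀ y ∈ box, y ≤ x → y ∈ D)
    {i j k : Fin 3} {e : Equiv.Perm (Fin 3)} (he0 : e 0 = i) (he1 : e 1 = k) (he2 : e 2 = j)
    (x z : ℝ) : Slicing.height D e x z = heightExt D i j z x := by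
  have hpt : ∀ a c b : ℝ, Slicing.pt e a c b = mkPoint i j a b c := fun a c b => by
    funext l
    obtain ⟨t, rfl⟩ := e.surjective l
    simp only [Slicing.pt, Equiv.symm_apply_apply]
    fin_cases t <;> simp [mkPoint, ← he0, ← he2]
  set x' := clamp x with hx'
  set z' := clamp z with hz'
  have hxm : x' ∈ Icc (0 : ℝ) 1 := clamp_mem x
  have hzm : z' ∈ Icc (0 : ℝ) 1 := clamp_mem z
  rw [heightExt, Slicing.height]
  simp only [← clamp_eq_cl, hpt, ← hx', ← hz']
  set h := height D i j z' x' with hh
  have hm := height_mem D i j z' x'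
  rw [← hh] at hm
  have h1 : {y ∈ Ioo (0 : ℝ) 1 | mkPoint i j x' y z' ∈ D} ⊆ Ioc 0 h := fun y hy =>
    ⟨hy.1.1, le_height (Ioo_subset_Icc_self hy.1) hy.2⟩
  have h2 : Ioo 0 h ⊆ {y ∈ Ioo (0 : ℝ) 1 | mkPoint i j x' y z' ∈ D} := fun y hy =>
    ⟨⟨hy.1, hy.2.trans_le hm.2⟩, mem_of_lt_height hdown hxm hy.1.le hzm hy.2⟩
  refine le_antisymm ((measureReal_mono h1 measure_Ioc_lt_top.ne).trans_eq ?_)
    ((Eq.trans_le ?_ (measureReal_mono h2
      (ne_top_of_le_ne_top measure_Ioc_lt_top.ne (measure_mono h1)))))
  · simp [hm.1]
  · simp [hm.1]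

/-- The slicing inequality for reduced sets, in every order of the axes. -/
theorem slicing : SlicingSpec := by
  intro D M h i j hij c s hc hs hc0 hs0 hcs z₀ hz₀ z₁ hz₁ hz
  obtain ⟨k, hki, hkj, hall⟩ := exists_third hij
  have hσ : Function.Bijective (![i, k, j] : Fin 3 → Fin 3) :=
    Finite.injective_iff_bijective.1 (by
      intro a b hab
      fin_cases a <;> fin_cases b <;> simp at hab ⊢ <;>
        first | exact absurd hab hki | exact absurd hab.symm hki | exact absurd hab hij |
          exact absurd hab.symm hij | exact absurd hab hkj | exact absurd hab.symm hkj)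
  set e : Equiv.Perm (Fin 3) := Equiv.ofBijective _ hσ
  have he : ∀ x z, Slicing.height D e x z = heightExt D i j z x := fun x z =>
    slicingHeight_eq h.down (i := i) (j := j) (k := k) rfl rfl rfl x z
  have hslice : ∀ z, (fun x => Slicing.height D e x z) = heightExt D i j z := fun z =>
    funext fun x => he x z
  have harea : ∀ z, Slicing.area (Slicing.height D e) z = sliceArea D i j z := fun z => by
    rw [Slicing.area, sliceArea, intervalIntegral.integral_of_le zero_le_one,
      integral_Ioc_eq_integral_Ioo]
    simp only [he]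
  have hle := Slicing.slice_le h e hc hs (fun t _ => hc0 t) (fun t _ => hs0 t) (fun t _ => hcs t)
    hz₀ hz₁ hz
  simp only [harea, hslice] at hle
  refine ⟨?_, by rwa [intervalIntegral.integral_of_le zero_le_one, integral_Ioc_eq_integral_Ioo]⟩
  have hlen : Measurable fun z => Slicing.len (heightExt D i j z) := by
    simpa only [hslice] using Slicing.measurable_len_slice h e
  rw [intervalIntegrable_iff_integrableOn_Ioc_of_le zero_le_one]
  refine IntegrableOn.of_bound measure_Ioc_lt_top
    ((hc.measurable.comp (antitone_sliceArea h.down).measurable).mul hlen).aestronglyMeasurable 2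
    (Eventually.of_forall fun z => ?_)
  have hF := antitone_heightExt (i := i) (j := j) h.down z
  have hF1 := heightExt_mem D i j z
  simp only [Real.norm_eq_abs, Function.comp_def, abs_mul, abs_of_nonneg (hc0 _),
    abs_of_nonneg (Slicing.len_nonneg hF hF1)]
  refine (mul_le_of_le_one_left (Slicing.len_nonneg hF hF1) ?_).trans (Slicing.len_le_two hF hF1)
  nlinarith [hcs (sliceArea D i j z), sq_nonneg (s (sliceArea D i j z))]

/-- The band-free case from its one-variable bound alone. -/
theorem bandFree_of_real (hR : BandFreeRealSpec) : BandFreeSpec := bandFree_of slicing hR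

end Vale.Agent.P232
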