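import Vale.Agent.P232.Corner.Planar
import Vale.Agent.P232.Corner.Gain
import Vale.Agent.P232.Phase1.Assembly

/-!
# P232: the tube corner near `V = 1/π`

If the two other top areas are at most `17/50000`, one direction gives the tube. The chord
calibration gains a multiple of the squared spread of the slice areas. A band loses only if it is
wide; it is then nested over a cheap slice, which forces a spread of `17/1000`.
-/

open MeasureTheory Set Filter
open scoped Real Topology

noncomputable section

namespace Vale.Agent.P232.Corner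

variable {D : Set R3} {M : ℝ} {i j k : Fin 3}

theorem slice_master (h : IsReduced D M) (z : ℝ) :
    (T1.isHeight_ext (i := i) (j := j) h.down z).slice.Master
      (Slicing.len (heightExt D i j z)) :=
  (T1.isHeight_ext h.down z).master
    (lenGe_len (antitone_heightExt h.down z) (heightExt_mem D i j z))

theorem intervalIntegrable_len (h : IsReduced D M) (hij : i ≠ j) :
    IntervalIntegrable (fun z => Slicing.len (heightExt D i j z)) volume 0 1 := by
  simpa using (slicing D M h i j hij (fun _ => 1) (fun _ => 0) continuous_const continuous_const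
    (fun _ => zero_le_one) (fun _ => le_rfl) (fun _ => by norm_num) (1 / 2)
    ⟨by norm_num, by norm_num⟩ (1 / 2) ⟨by norm_num, by norm_num⟩ le_rfl).1

theorem integral_len_le (h : IsReduced D M) (hij : i ≠ j) :
    ∫ z in (0 : ℝ)..1, Slicing.len (heightExt D i j z) ≤ M := by
  have hz : (1 / 2 : ℝ) ∈ Ioo (0 : ℝ) 1 := ⟨by norm_num, by norm_num⟩
  simpa using (slicing D M h i j hij (fun _ => 1) (fun _ => 0) continuous_const continuous_const
    (fun _ => zero_le_one) (fun _ => le_rfl) (fun _ => by norm_num) (1 / 2) hz (1 / 2) hz le_rfl).2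

/-- The chord calibration in one direction, with a pointwise loss `g`. -/
theorem chord_master (h : IsReduced D M) (hij : i ≠ j) (g : ℝ → ℝ)
    (hg : IntervalIntegrable g volume 0 1) (hg0 : ∀ z, 0 ≤ g z) {G : ℝ}
    (hG : ∫ z in (0 : ℝ)..1, g z ≤ G) (hV : 0 < boxVolume D)
    (hl : ∀ z ∈ Ioo (0 : ℝ) 1,
      Real.sqrt (π * sliceArea D i j z) - g z ≤ Slicing.len (heightExt D i j z)) :
    Real.sqrt π *
        (boxVolume D + Real.sqrt (Phase1.endTop D i j) * Real.sqrt (Phase1.endBot D i j)) /
        (Real.sqrt (Phase1.endTop D i j) + Real.sqrt (Phase1.endBot D i j)) +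
      2 / 3 * (Real.sqrt (Phase1.endBot D i j) - Real.sqrt (Phase1.endTop D i j)) ^ 2 - G ≤ M := by
  set a := Phase1.endTop D i j
  set b := Phase1.endBot D i j
  obtain ⟨haV, hVb⟩ := Phase1.ends_volume h.down h.subset h.measurable hij
  have ha : 0 ≤ a := Phase1.endTop_nonneg h.down
  have hab : a ≤ b := haV.trans hVb
  have hb : 0 < b := hV.trans_le hVb
  set c' : ℝ → ℝ := IccExtend hab fun t => chord a b t with hc'
  have hc'c : Continuous c' :=
    continuous_IccExtend_iff.2 (continuousOn_iff_continuous_domRestrict.1 (continuousOn_chord ha hb))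
  have hc'0 : ∀ t, 0 ≤ c' t := fun t => chord_nonneg _ (ha.trans (projIcc a b hab t).2.1)
  have hc'1 : ∀ t, c' t ≤ 1 := fun t => chord_le_one ha (projIcc a b hab t).2
  have hc'eq : ∀ t ∈ Icc a b, c' t = chord a b t := fun t ht => IccExtend_of_mem hab _ ht
  obtain ⟨ta, tb⟩ := Phase1.tendsto_ends (i := i) (j := j) h.down
  have hS := T1.slice_limits h hij ta tb hc'c
    (s := fun t => Real.sqrt (1 - c' t ^ 2)) (by fun_prop) hc'0 (fun t => Real.sqrt_nonneg _)
    fun t => by rw [Real.sq_sqrt (by nlinarith [hc'0 t, hc'1 t])]; linarith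
  have e : ∫ t in a..b, Real.sqrt (1 - c' t ^ 2) =
      ∫ t in a..b, Real.sqrt (1 - chord a b t ^ 2) := by
    refine intervalIntegral.integral_congr fun t ht => ?_
    rw [uIcc_of_le hab] at ht
    simp only [hc'eq t ht]
  have hgain := chord_gain ha hab hb
  have hA : IntervalIntegrable (sliceArea D i j) volume 0 1 :=
    (antitone_sliceArea h.down).intervalIntegrable
  have hlI := intervalIntegrable_len h hij
  have hcl : IntervalIntegrable
      (fun z => c' (sliceArea D i j z) * Slicing.len (heightExt D i j z)) volume 0 1 :=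
    (slicing D M h i j hij c' (fun t => Real.sqrt (1 - c' t ^ 2)) hc'c (by fun_prop) hc'0
      (fun t => Real.sqrt_nonneg _)
      (fun t => by rw [Real.sq_sqrt (by nlinarith [hc'0 t, hc'1 t])]; linarith) (1 / 2)
      ⟨by norm_num, by norm_num⟩ (1 / 2) ⟨by norm_num, by norm_num⟩ le_rfl).1
  set lam := Real.sqrt π / (Real.sqrt a + Real.sqrt b)
  set E := lam * (Real.sqrt a * Real.sqrt b)
  have hlin : IntervalIntegrable (fun z => lam * sliceArea D i j z + E) volume 0 1 :=
    (hA.const_mul lam).add intervalIntegrable_const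
  have hint : ∫ z in (0 : ℝ)..1, (lam * sliceArea D i j z + E - g z) ≤
      ∫ z in (0 : ℝ)..1, c' (sliceArea D i j z) * Slicing.len (heightExt D i j z) := by
    refine intervalIntegral.integral_mono_on_of_le_Ioo zero_le_one (hlin.sub hg) hcl fun z hz => ?_
    have hz' := Phase1.sliceArea_mem_ends (i := i) (j := j) h.down hz
    have h1 := mul_le_mul_of_nonneg_left (hl z hz) (hc'0 (sliceArea D i j z))
    have h2 := mul_le_mul_of_nonneg_right (hc'1 (sliceArea D i j z)) (hg0 z)
    rw [mul_sub, hc'eq _ hz', chord_mul_sqrt ha hz'.1] at h1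
    rw [hc'eq _ hz'] at h2 ⊢
    linarith
  rw [intervalIntegral.integral_sub hlin hg,
    intervalIntegral.integral_add (hA.const_mul lam) intervalIntegrable_const,
    intervalIntegral.integral_const_mul, intervalIntegral.integral_const,
    ← boxVolume_eq h.down h.subset h.measurable hij] at hint
  simp only [sub_zero, one_smul] at hint
  rw [e] at hS
  have e2 : Real.sqrt π * (boxVolume D + Real.sqrt a * Real.sqrt b) /
      (Real.sqrt a + Real.sqrt b) = lam * boxVolume D + E := by
    simp only [lam, E]; ring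
  linarith

/-- A wide band and a cheap slice under it: the slice areas spread. -/
theorem spread_of_wide (h : IsReduced D M) (hij : i ≠ j) {η : ℝ} (hη : η ≤ 17 / 50000)
    (hM : M ≤ 1005 / 1000)
    (hG : ∫ z in (0 : ℝ)..1,
      (rightHeight (heightExt D i j z) + topWidth (heightExt D i j z)) ≤ 2 * η)
    {z₀ : ℝ} (hz₀ : z₀ ∈ Ioo (0 : ℝ) 1) (hA₀ : 1 / π < sliceArea D i j z₀)
    (hw : 29 / 200 < bw (T1.isHeight_ext (i := i) (j := j) h.down z₀).slice) :
    17 / 1000 ≤ Phase1.endBot D i j - Phase1.endTop D i j := by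
  have hπ := Real.pi_lt_d4
  have hπ' := Real.pi_gt_d4
  have hb := (Phase1.sliceArea_mem_ends (i := i) (j := j) h.down hz₀).2
  have h1π : (3183 / 10000 : ℝ) ≤ 1 / π := by
    rw [le_div_iff₀ Real.pi_pos]; nlinarith
  rcases lt_or_ge (Phase1.endTop D i j) (301 / 1000) with ha | ha
  · linarith
  set g := fun z => rightHeight (heightExt D i j z) + topWidth (heightExt D i j z) with hg
  have hgI : IntervalIntegrable g volume 0 1 :=
    (T1.antitone_u h.down).intervalIntegrable.add (T1.antitone_w h.down hij).intervalIntegrable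
  obtain ⟨z₁, hz₁, hl₁, hg₁⟩ : ∃ z ∈ Ioo (0 : ℝ) 1,
      Slicing.len (heightExt D i j z) ≤ 102 / 100 ∧ g z ≤ 4 / 1000 := by
    by_contra hno
    push Not at hno
    have hint : ∫ z in (0 : ℝ)..1, (102 / 100 - 13 * g z) ≤
        ∫ z in (0 : ℝ)..1, Slicing.len (heightExt D i j z) := by
      refine intervalIntegral.integral_mono_on_of_le_Ioo zero_le_one
        (intervalIntegrable_const.sub (hgI.const_mul 13)) (intervalIntegrable_len h hij)
        fun z hz => ?_
      set s := (T1.isHeight_ext (i := i) (j := j) h.down z).slice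
      have hsA : 301 / 1000 ≤ s.A :=
        ha.trans (Phase1.sliceArea_mem_ends (i := i) (j := j) h.down hz).1
      have h2 : 972 / 1000 ≤ Real.sqrt (π * s.A) := by
        apply Real.le_sqrt_of_sq_le
        nlinarith
      have h3 : Real.sqrt (π * s.A) - g z ≤ Slicing.len (heightExt D i j z) :=
        sqrt_sub_wrap_le (slice_master h z)
      have hg0 : 0 ≤ g z := add_nonneg s.u_nonneg s.w_nonneg
      rcases le_or_gt (Slicing.len (heightExt D i j z)) (102 / 100) with hle | hgt
      · linarith [hno z hz hle]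
      · linarith
    rw [intervalIntegral.integral_sub intervalIntegrable_const (hgI.const_mul 13),
      intervalIntegral.integral_const_mul, intervalIntegral.integral_const] at hint
    simp only [sub_zero, one_smul] at hint
    linarith [integral_len_le h hij]
  set f := heightExt D i j z₀
  set f' := heightExt D i j z₁
  have hfh : IsHeight f := T1.isHeight_ext h.down z₀
  have hfh' : IsHeight f' := T1.isHeight_ext h.down z₁
  have hm := slice_master (i := i) (j := j) h z₁
  set s := (T1.isHeight_ext (i := i) (j := j) h.down z₁).slice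
  have hsA : 301 / 1000 ≤ s.A :=
    ha.trans (Phase1.sliceArea_mem_ends (i := i) (j := j) h.down hz₁).1
  have hsX : 0 < s.X := by linarith [s.A_le_X]
  have hsg : s.u + s.w ≤ 4 / 1000 := hg₁
  have hX : s.X ≤ 87 / 100 := by
    by_contra hX
    push Not at hX
    have h1 : π / 4 * s.X + 301 / 1000 / s.X ≤ π / 4 * s.X + s.A / s.X := by gcongr
    have h2 : (1029 / 1000 : ℝ) ≤ π / 4 * s.X + 301 / 1000 / s.X := by
      rw [add_comm, div_add' _ _ _ hsX.ne', le_div_iff₀ hsX]
      nlinarith [sq_nonneg (s.X - 87 / 100), s.X_le]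
    linarith [flux_quarter hm hsX]
  have hY : s.Y ≤ 87 / 100 := by
    by_contra hY
    push Not at hY
    have h2 : (590 / 1000 : ℝ) ≤ s.A / (2 * s.X) + 58 / 100 * s.X := by
      rw [div_add' _ _ _ (by positivity), le_div_iff₀ (by positivity)]
      nlinarith [sq_nonneg (s.X - 51 / 100)]
    linarith [flux_half hm hsX]
  have hzz : z₁ ∈ Ioo (0 : ℝ) 1 ∧ Phase1.endTop D i j ≤ sliceArea D i j z₁ :=
    ⟨hz₁, (Phase1.sliceArea_mem_ends (i := i) (j := j) h.down hz₁).1⟩
  suffices hdiff : 17 / 1000 ≤ sliceArea D i j z₀ - sliceArea D i j z₁ by linarith [hzz.2]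
  have hI : ∀ z, IntervalIntegrable (heightExt D i j z) volume 0 1 := fun z =>
    (antitone_heightExt h.down z).intervalIntegrable
  have hord : z₀ < z₁ ∨ z₁ ≤ z₀ := lt_or_ge z₀ z₁
  rcases hord with hlt | hge
  swap
  · exfalso
    have hmono : ∀ x, f x ≤ f' x := fun x => antitone_heightExt_fst h.down x hge
    have hu : rightHeight f ≤ rightHeight f' :=
      le_csInf ((nonempty_Ioo.2 zero_lt_one).image _) (by
        rintro _ ⟨x, hx, rfl⟩
        exact (hfh.rightHeight_le hx).trans (hmono x))
    have hw' : topWidth f ≤ topWidth f' := T1.antitone_w h.down hij hge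
    have hsum : rightHeight f' + topWidth f' ≤ 4 / 1000 := hg₁
    have := (bw_mem (T1.isHeight_ext (i := i) (j := j) h.down z₀).slice).2
    change _ ≤ rightHeight f + topWidth f at this
    linarith
  have hmono : ∀ x, f' x ≤ f x := fun x => antitone_heightExt_fst h.down x hlt.le
  show 17 / 1000 ≤ (∫ x in (0 : ℝ)..1, f x) - ∫ x in (0 : ℝ)..1, f' x
  rw [← intervalIntegral.integral_sub (hI z₀) (hI z₁)]
  have hId : IntervalIntegrable (fun x => f x - f' x) volume 0 1 := (hI z₀).sub (hI z₁)
  have hbw : bw (T1.isHeight_ext (i := i) (j := j) h.down z₀).slice =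
      if topWidth f = 0 then rightHeight f
      else if rightHeight f = 0 then topWidth f else 0 := rfl
  rw [hbw] at hw
  split_ifs at hw with hw0 hu0
  · have hsub : ∫ x in (87 / 100 : ℝ)..1, (f x - f' x) ≤ ∫ x in (0 : ℝ)..1, (f x - f' x) :=
      intervalIntegral.integral_mono_interval (by norm_num) (by norm_num) le_rfl
        (Eventually.of_forall fun x => sub_nonneg.2 (hmono x)) hId
    have hlow : (1 - 87 / 100) * (29 / 200) ≤ ∫ x in (87 / 100 : ℝ)..1, (f x - f' x) := by
      have := intervalIntegral.integral_mono_on_of_le_Ioo (μ := volume)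
        (f := fun _ : ℝ => (29 / 200 : ℝ)) (g := fun x => f x - f' x)
        (by norm_num : (87 / 100 : ℝ) ≤ 1) intervalIntegrable_const
        (hId.mono_set (uIcc_subset_uIcc (by norm_num [mem_uIcc]) right_mem_uIcc)) fun x hx => by
          have hx1 : x ∈ Ioo (0 : ℝ) 1 := ⟨lt_trans (by norm_num) hx.1, hx.2⟩
          rw [hfh'.eq_zero (lt_of_le_of_lt hX hx.1) hx.2]
          linarith [hfh.rightHeight_le hx1]
      rw [intervalIntegral.integral_const, smul_eq_mul] at this
      exact this
    linarith
  · have hw1 : topWidth f ≤ 1 := (IsHeight.topWidth_mem (f := f)).2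
    have hsub : ∫ x in (0 : ℝ)..29 / 200, (f x - f' x) ≤ ∫ x in (0 : ℝ)..1, (f x - f' x) :=
      intervalIntegral.integral_mono_interval le_rfl (by norm_num) (by norm_num)
        (Eventually.of_forall fun x => sub_nonneg.2 (hmono x)) hId
    have hlow : 29 / 200 * (13 / 100) ≤ ∫ x in (0 : ℝ)..29 / 200, (f x - f' x) := by
      have := intervalIntegral.integral_mono_on_of_le_Ioo (μ := volume)
        (f := fun _ : ℝ => (13 / 100 : ℝ)) (g := fun x => f x - f' x)
        (by norm_num : (0 : ℝ) ≤ 29 / 200) intervalIntegrable_const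
        (hId.mono_set (uIcc_subset_uIcc left_mem_uIcc (by norm_num [mem_uIcc]))) fun x hx => by
          rw [hfh.eq_one hx.1 (hx.2.trans hw)]
          linarith [hfh'.le_leftHeight (x := x) ⟨hx.1, hx.2.trans (by norm_num)⟩,
            (show leftHeight f' ≤ 87 / 100 from hY)]
      rw [intervalIntegral.integral_const, smul_eq_mul, sub_zero] at this
      exact this
    linarith
  · norm_num at hw

/-- **The tube corner, with gain.** Either the chord gain survives or the excess is at least
`10⁻⁵`. -/
theorem tube_gain (h : IsReduced D M) (hij : i ≠ j) (hki : k ≠ i) (hkj : k ≠ j)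
    (hall : ∀ l, l = i ∨ l = j ∨ l = k) {au aw : ℝ}
    (hau : Tendsto (sliceArea D k j) (𝓝[<] 1) (𝓝 au))
    (haw : Tendsto (sliceArea D k i) (𝓝[<] 1) (𝓝 aw))
    (hu : au ≤ 17 / 50000) (hw : aw ≤ 17 / 50000)
    (hV : 63 / 200 ≤ boxVolume D) (hV' : boxVolume D ≤ 199 / 625) (hM : M ≤ 1005 / 1000) :
    Real.sqrt (π * boxVolume D) +
        (Real.sqrt (Phase1.endBot D i j) - Real.sqrt (Phase1.endTop D i j)) ^ 2 / 6 ≤ M ∨
      Real.sqrt (π * boxVolume D) + 1 / 100000 ≤ M := by
  set V := boxVolume D with hVdef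
  set a := Phase1.endTop D i j
  set b := Phase1.endBot D i j
  obtain ⟨haV, hVb⟩ := Phase1.ends_volume h.down h.subset h.measurable hij
  have ha : 0 ≤ a := Phase1.endTop_nonneg h.down
  set x := Real.sqrt a
  set y := Real.sqrt b
  set v := Real.sqrt V with hv
  have hVv : v ^ 2 = V := Real.sq_sqrt (by linarith)
  have hxa : x ^ 2 = a := Real.sq_sqrt ha
  have hyb : y ^ 2 = b := Real.sq_sqrt (by linarith)
  have hx0 : 0 ≤ x := Real.sqrt_nonneg _
  have hxv : x ≤ v := Real.sqrt_le_sqrt haV
  have hvy : v ≤ y := Real.sqrt_le_sqrt hVb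
  have hv0 : 56 / 100 ≤ v := Real.le_sqrt_of_sq_le (by linarith)
  have hv1 : v ≤ 5643 / 10000 := Real.sqrt_le_iff.2 ⟨by norm_num, by linarith⟩
  obtain ⟨gA, gB⟩ := gain_scalar hx0 hxv hvy hv0 hv1
  rw [hVv] at gA gB
  have htarget : Real.sqrt (π * V) = Real.sqrt π * v := Real.sqrt_mul Real.pi_pos.le V
  rw [htarget]
  have hbwI := T1.intervalIntegrable_bandWidth h.down hij
  have hbw := T1.integral_bandWidth_le h.down hij hki hkj hall hau haw hu hw
  have hbw0 : ∀ z, 0 ≤ T1.bandWidth D i j z := fun z => (T1.bandWidth_mem h.down z).1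
  set g := fun z => rightHeight (heightExt D i j z) + topWidth (heightExt D i j z) with hg
  have hgI : IntervalIntegrable g volume 0 1 :=
    (T1.antitone_u h.down).intervalIntegrable.add (T1.antitone_w h.down hij).intervalIntegrable
  have hgG : ∫ z in (0 : ℝ)..1, g z ≤ 2 * (17 / 50000) := by
    rw [intervalIntegral.integral_add (T1.antitone_u h.down).intervalIntegrable
      (T1.antitone_w h.down hij).intervalIntegrable,
      tendsto_nhds_unique (tendsto_sliceArea h.down hij hki hkj hall).2 hau,
      tendsto_nhds_unique (tendsto_sliceArea_transpose h.down hij hki hkj hall).2 haw]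
    linarith
  have hAb : ∀ z ∈ Ioo (0 : ℝ) 1, sliceArea D i j z ≤ b := fun z hz =>
    (Phase1.sliceArea_mem_ends h.down hz).2
  have viaMu : ∀ B μ : ℝ, b ≤ B → B ≤ 1 / 2 → 0 ≤ μ → μ ≤ 1 →
      (31416 / 10000 - 2 * μ) * B ≤ 1 - μ ^ 2 → μ * (17 / 50000) + 1 / 100000 ≤ (y - v) ^ 2 / 2 →
      Real.sqrt π * v + (y - x) ^ 2 / 6 ≤ M ∨ Real.sqrt π * v + 1 / 100000 ≤ M := by
    intro B μ hbB hB hμ hμ1 hq hgain
    have hm := chord_master h hij (fun z => μ * T1.bandWidth D i j z) (hbwI.const_mul μ)
      (fun z => mul_nonneg hμ (hbw0 z)) (G := μ * (17 / 50000))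
      (by rw [intervalIntegral.integral_const_mul]; exact mul_le_mul_of_nonneg_left hbw hμ)
      (by linarith) fun z hz => loss_le (slice_master (i := i) (j := j) h z) hB hμ hμ1 hq
        ((hAb z hz).trans hbB)
    right; linarith only [hm, gB, hgain]
  have hy : ∀ c : ℝ, c ^ 2 ≤ b → c ≤ y := fun c hc => Real.le_sqrt_of_sq_le hc
  rcases le_or_gt b (329 / 1000) with hb1 | hb1
  · by_cases hwide : ∃ z ∈ Ioo (0 : ℝ) 1, 1 / π < sliceArea D i j z ∧
        29 / 200 < bw (T1.isHeight_ext (i := i) (j := j) h.down z).slice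
    · obtain ⟨z, hz, hzA, hzw⟩ := hwide
      have hsp := spread_of_wide h hij le_rfl hM hgG hz hzA hzw
      have hm := chord_master h hij (fun z => 6 / 100 * T1.bandWidth D i j z)
        (hbwI.const_mul _) (fun z => mul_nonneg (by norm_num) (hbw0 z))
        (G := 6 / 100 * (17 / 50000))
        (by rw [intervalIntegral.integral_const_mul]; linarith)
        (by linarith) fun z hz => loss_le (slice_master (i := i) (j := j) h z)
          (B := 329 / 1000) (by norm_num) (by norm_num) (by norm_num) (by norm_num)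
          ((hAb z hz).trans hb1)
      have hy1 : y ≤ 574 / 1000 :=
        Real.sqrt_le_iff.2 ⟨by norm_num, hb1.trans (by norm_num)⟩
      have hsp' : 17 / 1000 ≤ (y - x) * (y + x) := by
        rw [show (y - x) * (y + x) = y ^ 2 - x ^ 2 by ring, hxa, hyb]
        exact hsp
      have hD : 149 / 10000 ≤ y - x := by
        have hS : y + x ≤ 11383 / 10000 := by linarith only [hy1, hxv, hv1]
        have h0 : 0 ≤ y - x := sub_nonneg.2 (hxv.trans hvy)
        have := mul_le_mul_of_nonneg_left hS h0
        linarith only [this, hsp']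
      have := pow_le_pow_left₀ (by norm_num) hD 2
      right; linarith only [hm, gA, this]
    · push Not at hwide
      have hm := chord_master h hij (fun _ => 0) intervalIntegrable_const (fun _ => le_rfl)
        (G := 0) (by simp) (by linarith) fun z hz => by
          rw [sub_zero]
          rcases le_or_gt (sliceArea D i j z) (1 / π) with hlow | hhigh
          · exact no_loss_low (slice_master (i := i) (j := j) h z) hlow
          · exact no_loss_narrow (slice_master (i := i) (j := j) h z) ((hAb z hz).trans hb1)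
              (hwide z hz hhigh)
      left; linarith only [hm, gA]
  rcases le_or_gt b (333 / 1000) with hb2 | hb2
  · refine viaMu (333 / 1000) (8 / 100) hb2 (by norm_num) (by norm_num) (by norm_num) (by norm_num) ?_
    have := pow_le_pow_left₀ (by norm_num)
      (show 5735 / 10000 - 5643 / 10000 ≤ y - v by
        linarith only [hv1, hy (5735 / 10000) (le_trans (by norm_num) hb1.le)]) 2
    linarith only [this]
  rcases le_or_gt b (345 / 1000) with hb3 | hb3
  · refine viaMu (345 / 1000) (16 / 100) hb3 (by norm_num) (by norm_num) (by norm_num) (by norm_num) ?_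
    have := pow_le_pow_left₀ (by norm_num)
      (show 5770 / 10000 - 5643 / 10000 ≤ y - v by
        linarith only [hv1, hy (5770 / 10000) (le_trans (by norm_num) hb2.le)]) 2
    linarith only [this]
  rcases le_or_gt b (359 / 1000) with hb4 | hb4
  · refine viaMu (359 / 1000) (33 / 100) hb4 (by norm_num) (by norm_num) (by norm_num) (by norm_num) ?_
    have := pow_le_pow_left₀ (by norm_num)
      (show 5870 / 10000 - 5643 / 10000 ≤ y - v by
        linarith only [hv1, hy (5870 / 10000) (le_trans (by norm_num) hb3.le)]) 2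
    linarith only [this]
  rcases le_or_gt b (1 / 2) with hb5 | hb5
  · have hm := chord_master h hij (T1.bandWidth D i j) hbwI hbw0 hbw (by linarith) fun z hz =>
      loss_le_bw (slice_master (i := i) (j := j) h z) ((hAb z hz).trans hb5)
    have := pow_le_pow_left₀ (by norm_num)
      (show 5990 / 10000 - 5643 / 10000 ≤ y - v by
        linarith only [hv1, hy (5990 / 10000) (le_trans (by norm_num) hb4.le)]) 2
    right; linarith only [hm, gB, this]
  · have hg0 : ∀ z, 0 ≤ g z := fun z =>
      add_nonneg (T1.isHeight_ext (i := i) (j := j) h.down z).slice.u_nonneg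
        (T1.isHeight_ext (i := i) (j := j) h.down z).slice.w_nonneg
    have hm := chord_master h hij g hgI hg0 hgG (by linarith) fun z _ =>
      sqrt_sub_wrap_le (slice_master (i := i) (j := j) h z)
    have := pow_le_pow_left₀ (by norm_num)
      (show 7070 / 10000 - 5643 / 10000 ≤ y - v by
        linarith only [hv1, hy (7070 / 10000) (le_trans (by norm_num) hb5.le)]) 2
    right; linarith only [hm, gB, this]

/-- **The tube corner.** If the other two top areas are at most `17/50000`, the relative
perimeter is at least that of the tube or of the slab. -/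
theorem tube_corner (h : IsReduced D M) (hij : i ≠ j) (hki : k ≠ i) (hkj : k ≠ j)
    (hall : ∀ l, l = i ∨ l = j ∨ l = k) {au aw : ℝ}
    (hau : Tendsto (sliceArea D k j) (𝓝[<] 1) (𝓝 au))
    (haw : Tendsto (sliceArea D k i) (𝓝[<] 1) (𝓝 aw))
    (hu : au ≤ 17 / 50000) (hw : aw ≤ 17 / 50000)
    (hV : 63 / 200 ≤ boxVolume D) (hV' : boxVolume D ≤ 199 / 625) :
    min (Real.sqrt (π * boxVolume D)) 1 ≤ M := by
  rcases le_or_gt 1 M with hM | hM
  · exact (min_le_right _ _).trans hM
  refine (min_le_left _ _).trans ?_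
  rcases tube_gain h hij hki hkj hall hau haw hu hw hV hV' (by linarith) with hg | hg
  · linarith [sq_nonneg (Real.sqrt (Phase1.endBot D i j) - Real.sqrt (Phase1.endTop D i j))]
  · linarith

/-- Near equality flattens the direction. -/
theorem tube_flat {ε : ℝ} (hε : 0 < ε) : ∃ η : ℝ, 0 < η ∧ ∀ (D : Set R3) (M : ℝ),
    IsReduced D M → |boxVolume D - 1 / π| < η → M ≤ 1 + η →
      ∀ i j k : Fin 3, i ≠ j → k ≠ i → k ≠ j → ∀ a b au aw : ℝ,
        Tendsto (sliceArea D i j) (𝓝[<] 1) (𝓝 a) → Tendsto (sliceArea D i j) (𝓝[>] 0) (𝓝 b) →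
          Tendsto (sliceArea D k j) (𝓝[<] 1) (𝓝 au) → Tendsto (sliceArea D k i) (𝓝[<] 1) (𝓝 aw) →
            au ≤ 17 / 50000 → aw ≤ 17 / 50000 → b - a ≤ ε := by
  refine ⟨min (1 / 1000000) (ε ^ 2 / 200), lt_min (by norm_num) (by positivity), ?_⟩
  intro D M h hV hM i j k hij hki hkj a b au aw hta htb hau haw hu hw
  have hη1 : min (1 / 1000000 : ℝ) (ε ^ 2 / 200) ≤ 1 / 1000000 := min_le_left _ _
  have hη2 : min (1 / 1000000 : ℝ) (ε ^ 2 / 200) ≤ ε ^ 2 / 200 := min_le_right _ _
  have hπ := Real.pi_gt_d6
  have hπ' := Real.pi_lt_d6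
  have h1 : (318309 / 1000000 : ℝ) ≤ 1 / π := by rw [le_div_iff₀ Real.pi_pos]; linarith
  have h2 : 1 / π ≤ (318311 / 1000000 : ℝ) := by rw [div_le_iff₀ Real.pi_pos]; linarith
  obtain ⟨hv1, hv2⟩ := abs_lt.1 hV
  have hall : ∀ l, l = i ∨ l = j ∨ l = k := by
    obtain ⟨k', hk'i, hk'j, hall'⟩ := exists_third hij
    rcases hall' k with e | e | e
    · exact absurd e hki
    · exact absurd e hkj
    · exact e ▸ hall'
  have hg := tube_gain h hij hki hkj hall hau haw hu hw (by linarith) (by linarith) (by linarith)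
  rw [tendsto_nhds_unique hta (Phase1.tendsto_ends h.down).1,
    tendsto_nhds_unique htb (Phase1.tendsto_ends h.down).2]
  set a' := Phase1.endTop D i j
  set b' := Phase1.endBot D i j
  set η := min (1 / 1000000 : ℝ) (ε ^ 2 / 200)
  have hsV : 1 - 4 * η ≤ Real.sqrt (π * boxVolume D) := by
    rcases le_or_gt (1 - 4 * η) 0 with h0 | h0
    · exact h0.trans (Real.sqrt_nonneg _)
    refine Real.le_sqrt_of_sq_le ?_
    have hp : π * (1 / π - η) ≤ π * boxVolume D :=
      mul_le_mul_of_nonneg_left (by linarith) Real.pi_pos.le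
    rw [mul_sub, mul_one_div_cancel Real.pi_ne_zero] at hp
    nlinarith
  have hη0 : 0 < η := lt_min (by norm_num) (by positivity)
  have hD : (Real.sqrt b' - Real.sqrt a') ^ 2 ≤ 30 * η := by
    rcases hg with hg | hg <;> linarith
  obtain ⟨haV, hVb⟩ := Phase1.ends_volume h.down h.subset h.measurable hij
  have ha : 0 ≤ a' := Phase1.endTop_nonneg h.down
  have hb : b' ≤ 1 := Phase1.endBot_le_one h.down
  have hab : a' ≤ b' := haV.trans hVb
  have hS : Real.sqrt b' + Real.sqrt a' ≤ 2 := by
    linarith [Real.sqrt_le_one.2 hb, Real.sqrt_le_one.2 (hab.trans hb)]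
  have hd0 : 0 ≤ Real.sqrt b' - Real.sqrt a' := sub_nonneg.2 (Real.sqrt_le_sqrt hab)
  have hdiff : b' - a' ≤ 2 * (Real.sqrt b' - Real.sqrt a') := by
    have h3 := mul_le_mul_of_nonneg_left hS hd0
    have e : (Real.sqrt b' - Real.sqrt a') * (Real.sqrt b' + Real.sqrt a') = b' - a' := by
      rw [show ∀ p q : ℝ, (p - q) * (p + q) = p ^ 2 - q ^ 2 from fun p q => by ring,
        Real.sq_sqrt (ha.trans hab), Real.sq_sqrt ha]
    linarith
  refine hdiff.trans ?_
  have : (2 * (Real.sqrt b' - Real.sqrt a')) ^ 2 ≤ ε ^ 2 := by nlinarith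
  exact (pow_le_pow_iff_left₀ (by linarith) hε.le two_ne_zero).1 this

end Vale.Agent.P232.Corner
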