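import Mathlib

/-!
# P232: the cubic three-torus, perimeter, profile, and the reduced problem in the cube

A subset of the torus is a measurable `ℤ³`-periodic subset of `ℝ³`; its volume and perimeter are
computed in the fundamental cell. The perimeter is De Giorgi's: the supremum of `∫_E div X` over
`C¹` periodic vector fields of Euclidean length at most one.
-/

open MeasureTheory Set
open scoped ENNReal Real

noncomputable section

namespace Vale.Agent.P232

/-- Points of `ℝ³`. -/
abbrev R3 : Type := Fin 3 → ℝ

/-- Points of `ℝ²`, parametrising the faces. -/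
abbrev R2 : Type := Fin 2 → ℝ

/-- The coordinate unit vectors. -/
def unit (i : Fin 3) : R3 := Pi.single i 1

/-- Partial derivative. -/
def pd (i : Fin 3) (f : R3 → ℝ) (x : R3) : ℝ := fderiv ℝ f x (unit i)

/-- Divergence of a vector field given by its components. -/
def divergence (X : Fin 3 → R3 → ℝ) (x : R3) : ℝ := ∑ i, pd i (X i) x

/-- `ℤ³`-periodic functions. -/
def IsPeriodicFun {α : Type*} (f : R3 → α) : Prop := ∀ x i, f (x + unit i) = f x

/-- A measurable set of the torus, seen as a periodic subset of `ℝ³`. -/
structure IsTorusSet (E : Set R3) : Prop where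
  measurable : MeasurableSet E
  periodic : ∀ x i, x + unit i ∈ E ↔ x ∈ E

/-- The fundamental cell `[0,1)³`. -/
def cell : Set R3 := univ.pi fun _ => Ico (0 : ℝ) 1

/-- The volume of a set of the torus. -/
def torusVolume (E : Set R3) : ℝ := volume.real (cell ∩ E)

/-- Periodic `C¹` vector fields of Euclidean length at most one. -/
structure IsTestField (X : Fin 3 → R3 → ℝ) : Prop where
  smooth : ∀ i, ContDiff ℝ 1 (X i)
  periodic : ∀ i, IsPeriodicFun (X i)
  bound : ∀ x, ∑ i, X i x ^ 2 ≤ 1

/-- De Giorgi perimeter on the torus: the total variation of the indicator of `E`. -/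
def perimeter (E : Set R3) : ℝ≥0∞ :=
  ⨆ (X : Fin 3 → R3 → ℝ) (_ : IsTestField X), ENNReal.ofReal (∫ x in cell ∩ E, divergence X x)

/-- The isoperimetric profile of the cubic torus. -/
def profile (V : ℝ) : ℝ≥0∞ :=
  ⨅ (E : Set R3) (_ : IsTorusSet E) (_ : torusVolume E = V), perimeter E

/-- The perimeter of the best of ball, tube and slab of volume `min V (1 - V)`. -/
def candidate (V : ℝ) : ℝ :=
  min (min ((36 * π) ^ ((1 : ℝ) / 3) * min V (1 - V) ^ ((2 : ℝ) / 3))
    (2 * Real.sqrt (π * min V (1 - V)))) 2

/-! ## The reduced problem -/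

/-- The closed cube `[0,1]³` (one symmetric octant of the torus, scaled by `2`). -/
def box : Set R3 := Icc 0 1

/-- The closed square. -/
def square : Set R2 := Icc 0 1

/-- The point of the face `x i = c` with the other two coordinates `y`. -/
def facePoint (i : Fin 3) (c : ℝ) (y : R2) : R3 := Fin.insertNth i c y

/-- Flux of `X` out of the cube through the part of its boundary lying in `D`. -/
def flux (D : Set R3) (X : Fin 3 → R3 → ℝ) : ℝ :=
  ∑ i, ((∫ y in square ∩ facePoint i 1 ⁻¹' D, X i (facePoint i 1 y)) -
    ∫ y in square ∩ facePoint i 0 ⁻¹' D, X i (facePoint i 0 y))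

/-- A down set of the cube whose relative perimeter is at most `M`, tested against all `C¹`
fields of length at most one on the cube, the part of the boundary of the cube in `D` being
counted exactly. -/
structure IsReduced (D : Set R3) (M : ℝ) : Prop where
  subset : D ⊆ box
  measurable : MeasurableSet D
  down : ∀ x ∈ D, ∀ y ∈ box, y ≤ x → y ∈ D
  bound : ∀ X : Fin 3 → R3 → ℝ, (∀ i, ContDiff ℝ 1 (X i)) →
    (∀ x ∈ box, ∑ i, X i x ^ 2 ≤ 1) →
      ∫ x in D, divergence X x ≤ M + flux D X

/-- The volume of a set in the cube; it equals the volume of the torus set it comes from. -/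
def boxVolume (D : Set R3) : ℝ := volume.real D

/-- The reduction: every set of finite perimeter is approximated by reduced sets, whose doubled
perimeter bound is at most the perimeter. -/
def ReductionSpec : Prop :=
  ∀ E : Set R3, IsTorusSet E → perimeter E ≠ ⊤ → ∀ ε : ℝ, 0 < ε →
    ∃ (D : Set R3) (M : ℝ), IsReduced D M ∧ |boxVolume D - torusVolume E| < ε ∧
      2 * M ≤ (perimeter E).toReal + ε

/-- The lower bound on the reduced problem at volume `V`. -/
def ReducedBoundAt (V : ℝ) : Prop :=
  ∀ (D : Set R3) (M : ℝ), IsReduced D M → boxVolume D = V → candidate V ≤ 2 * M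

end Vale.Agent.P232
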