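import Vale.Agent.P232.Slices

/-!
# P232: a down set as a subgraph
-/

open MeasureTheory Set Filter
open scoped ENNReal Real Topology

noncomputable section

namespace Vale.Agent.P232

/-- Clamping to `[0,1]`. -/
def clamp (t : ℝ) : ℝ := max 0 (min 1 t)

/-- The height function of `D`, extended to the whole plane by clamping. -/
def heightExt (D : Set R3) (i j : Fin 3) (c a : ℝ) : ℝ := height D i j (clamp c) (clamp a)

/-- Slice areas. -/
def sliceArea (D : Set R3) (i j : Fin 3) (c : ℝ) : ℝ := ∫ a in (0 : ℝ)..1, heightExt D i j c a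

theorem clamp_mem (t : ℝ) : clamp t ∈ Icc (0 : ℝ) 1 :=
  ⟨le_max_left _ _, max_le zero_le_one (min_le_left _ _)⟩

theorem clamp_of_mem {t : ℝ} (h : t ∈ Icc (0 : ℝ) 1) : clamp t = t := by
  rw [clamp, min_eq_right h.2, max_eq_right h.1]

theorem monotone_clamp : Monotone clamp := fun _ _ h => max_le_max le_rfl (min_le_min le_rfl h)

theorem continuous_clamp : Continuous clamp := by unfold clamp; fun_prop

variable {D : Set R3} {i j : Fin 3}

theorem heightExt_of_mem {c a : ℝ} (hc : c ∈ Icc (0 : ℝ) 1) (ha : a ∈ Icc (0 : ℝ) 1) :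
    heightExt D i j c a = height D i j c a := by
  rw [heightExt, clamp_of_mem hc, clamp_of_mem ha]

theorem heightExt_mem (D : Set R3) (i j : Fin 3) (c a : ℝ) :
    heightExt D i j c a ∈ Icc (0 : ℝ) 1 :=
  height_mem D i j _ _

variable (hdown : ∀ x ∈ D, ∀ y ∈ box, y ≤ x → y ∈ D)
include hdown

theorem height_le_height {c c' a a' : ℝ} (hc : c ∈ Icc (0 : ℝ) 1) (ha : a ∈ Icc (0 : ℝ) 1)
    (hcc : c ≤ c') (haa : a ≤ a') : height D i j c' a' ≤ height D i j c a := by
  refine csSup_le (insert_nonempty _ _) ?_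
  rintro b (rfl | hb)
  · exact (height_mem D i j c a).1
  · refine le_height hb.1 (hdown _ hb.2 _ (mkPoint_mem_box ha hb.1 hc) fun l => ?_)
    unfold mkPoint
    split_ifs
    exacts [haa, le_rfl, hcc]

theorem antitone_heightExt (c : ℝ) : Antitone (heightExt D i j c) := fun _ _ h =>
  height_le_height hdown (clamp_mem _) (clamp_mem _) le_rfl (monotone_clamp h)

theorem antitone_heightExt_fst (a : ℝ) : Antitone fun c => heightExt D i j c a := fun _ _ h =>
  height_le_height hdown (clamp_mem _) (clamp_mem _) (monotone_clamp h) le_rfl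

theorem antitone_sliceArea : Antitone (sliceArea D i j) := fun _ _ h =>
  intervalIntegral.integral_mono_on zero_le_one (antitone_heightExt hdown _).intervalIntegrable
    (antitone_heightExt hdown _).intervalIntegrable fun a _ => antitone_heightExt_fst hdown a h

theorem sliceArea_mem (c : ℝ) : sliceArea D i j c ∈ Icc (0 : ℝ) 1 := by
  refine ⟨intervalIntegral.integral_nonneg zero_le_one fun a _ => (heightExt_mem D i j c a).1, ?_⟩
  calc sliceArea D i j c ≤ ∫ _ in (0 : ℝ)..1, (1 : ℝ) :=
        intervalIntegral.integral_mono_on zero_le_one (antitone_heightExt hdown c).intervalIntegrable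
          intervalIntegrable_const fun a _ => (heightExt_mem D i j c a).2
    _ = 1 := by simp

theorem measurable_heightExt (hm : MeasurableSet D) :
    Measurable fun p : ℝ × ℝ => heightExt D i j p.1 p.2 := by
  refine measurable_of_Ioi fun t => ?_
  rcases lt_or_ge t 0 with ht | ht
  · convert MeasurableSet.univ
    ext p
    simpa using ht.trans_le (heightExt_mem D i j p.1 p.2).1
  have e : (fun p : ℝ × ℝ => heightExt D i j p.1 p.2) ⁻¹' Ioi t =
      ⋃ (q : ℚ) (_ : t < q ∧ (q : ℝ) ≤ 1),
        (fun p : ℝ × ℝ => mkPoint i j (clamp p.2) q (clamp p.1)) ⁻¹' D := by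
    ext p
    simp only [mem_preimage, mem_Ioi, mem_iUnion, heightExt]
    constructor
    · intro h
      obtain ⟨q, hq1, hq2⟩ := exists_rat_btwn h
      exact ⟨q, ⟨hq1, hq2.le.trans (height_mem D i j _ _).2⟩,
        mem_of_lt_height hdown (clamp_mem _) (ht.trans hq1.le) (clamp_mem _) hq2⟩
    · rintro ⟨q, ⟨hq1, hq2⟩, hq⟩
      exact hq1.trans_le (le_height ⟨ht.trans hq1.le, hq2⟩ hq)
  rw [e]
  refine MeasurableSet.iUnion fun q => MeasurableSet.iUnion fun _ => ?_
  refine (measurable_pi_lambda _ fun l => ?_) hm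
  unfold mkPoint
  split_ifs
  exacts [(continuous_clamp.comp continuous_snd).measurable, measurable_const,
    (continuous_clamp.comp continuous_fst).measurable]

omit hdown in
/-- The third coordinate. -/
theorem exists_third (hij : i ≠ j) : ∃ k : Fin 3, k ≠ i ∧ k ≠ j ∧ ∀ l, l = i ∨ l = j ∨ l = k := by
  fin_cases i <;> fin_cases j <;> first | exact absurd rfl hij | decide

omit hdown in
theorem mkPoint_self {k : Fin 3} (hij : i ≠ j) (hki : k ≠ i) (hkj : k ≠ j)
    (hall : ∀ l, l = i ∨ l = j ∨ l = k) (x : R3) : mkPoint i j (x i) (x j) (x k) = x := by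
  funext l
  rcases hall l with rfl | rfl | rfl
  · simp [mkPoint]
  · simp [mkPoint, hij.symm]
  · simp [mkPoint, hki, hkj]

/-- `D` lies between the open and the closed subgraph. -/
theorem subgraph_subset (hsub : D ⊆ box) {k : Fin 3} (hij : i ≠ j) (hki : k ≠ i) (hkj : k ≠ j)
    (hall : ∀ l, l = i ∨ l = j ∨ l = k) {x : R3} (hx : x ∈ box) :
    (x j < heightExt D i j (x k) (x i) → x ∈ D) ∧
      (x ∈ D → x j ≤ heightExt D i j (x k) (x i)) := by
  have hm : ∀ l, x l ∈ Icc (0 : ℝ) 1 := fun l => ⟨hx.1 l, hx.2 l⟩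
  rw [heightExt_of_mem (hm k) (hm i)]
  constructor
  · intro h
    have := mem_of_lt_height hdown (hm i) (hm j).1 (hm k) h
    rwa [mkPoint_self hij hki hkj hall] at this
  · intro h
    exact le_height (hm j) (by rwa [mkPoint_self hij hki hkj hall])

/-- The volume is the integral of the slice areas. -/
theorem boxVolume_eq (hsub : D ⊆ box) (hm : MeasurableSet D) (hij : i ≠ j) :
    boxVolume D = ∫ c in (0 : ℝ)..1, sliceArea D i j c := by
  obtain ⟨k, hki, hkj, hall⟩ := exists_third hij
  set H : ℝ × ℝ → ℝ := fun p => heightExt D i j p.1 p.2 with hH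
  have hHm : Measurable H := measurable_heightExt hdown hm
  -- coordinates in the order (j, k, i)
  let σ : Fin 3 → Fin 3 := ![j, k, i]
  have hσ : Function.Bijective σ := Finite.injective_iff_bijective.1 (by
    intro a b h; fin_cases a <;> fin_cases b <;> simp [σ] at h ⊢ <;>
      first | exact absurd h hkj | exact absurd h.symm hkj | exact absurd h hij |
        exact absurd h.symm hij | exact absurd h hki | exact absurd h.symm hki)
  let e : R3 ≃ᵐ ℝ × (ℝ × ℝ) :=
    (MeasurableEquiv.piCongrLeft (fun _ => ℝ) (Equiv.ofBijective σ hσ)).symm.trans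
      ((MeasurableEquiv.piFinSuccAbove (fun _ => ℝ) 0).trans
        ((MeasurableEquiv.refl ℝ).prodCongr MeasurableEquiv.finTwoArrow))
  have he : MeasurePreserving e volume volume := by
    refine ((volume_measurePreserving_piCongrLeft (fun _ => ℝ) (Equiv.ofBijective σ hσ)).symm
      _).trans ((volume_preserving_piFinSuccAbove (fun _ => ℝ) 0).trans ?_)
    exact (MeasurePreserving.id volume).prod (volume_preserving_finTwoArrow ℝ)
  have heval : ∀ x : R3, e x = (x j, x k, x i) := fun x => rfl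
  set lo : Set (ℝ × (ℝ × ℝ)) :=
    {p | p.1 ∈ Icc 0 1 ∧ p.2 ∈ Icc (0 : ℝ) 1 ×ˢ Icc (0 : ℝ) 1 ∧ p.1 < H p.2}
  set hi : Set (ℝ × (ℝ × ℝ)) :=
    {p | p.1 ∈ Icc 0 1 ∧ p.2 ∈ Icc (0 : ℝ) 1 ×ˢ Icc (0 : ℝ) 1 ∧ p.1 ≤ H p.2}
  have hbox : ∀ x : R3, x ∈ box ↔
      (x j ∈ Icc (0 : ℝ) 1 ∧ (x k, x i) ∈ Icc (0 : ℝ) 1 ×ˢ Icc (0 : ℝ) 1) := fun x => by
    refine ⟨fun h => ⟨⟨h.1 j, h.2 j⟩, ⟨h.1 k, h.2 k⟩, ⟨h.1 i, h.2 i⟩⟩, fun h => ?_⟩
    refine ⟨fun l => ?_, fun l => ?_⟩ <;> rcases hall l with rfl | rfl | rfl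
    exacts [h.2.2.1, h.1.1, h.2.1.1, h.2.2.2, h.1.2, h.2.1.2]
  have h1 : e ⁻¹' lo ⊆ D := fun x hx => by
    simp only [lo, mem_preimage, mem_setOf_eq, heval] at hx
    exact (subgraph_subset hdown hsub hij hki hkj hall ((hbox x).2 ⟨hx.1, hx.2.1⟩)).1 hx.2.2
  have h2 : D ⊆ e ⁻¹' hi := fun x hx => by
    simp only [hi, mem_preimage, mem_setOf_eq, heval]
    have hb := (hbox x).1 (hsub hx)
    exact ⟨hb.1, hb.2, (subgraph_subset hdown hsub hij hki hkj hall (hsub hx)).2 hx⟩
  have hmlo : MeasurableSet lo := by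
    refine (measurableSet_Icc.preimage measurable_fst).inter
      (((measurableSet_Icc.prod measurableSet_Icc).preimage measurable_snd).inter ?_)
    exact measurableSet_lt measurable_fst (hHm.comp measurable_snd)
  have hmhi : MeasurableSet hi := by
    refine (measurableSet_Icc.preimage measurable_fst).inter
      (((measurableSet_Icc.prod measurableSet_Icc).preimage measurable_snd).inter ?_)
    exact measurableSet_le measurable_fst (hHm.comp measurable_snd)
  set Q : Set (ℝ × ℝ) := Icc (0 : ℝ) 1 ×ˢ Icc (0 : ℝ) 1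
  have hsec : ∀ (S : Set (ℝ × (ℝ × ℝ))), MeasurableSet S →
      (∀ y ∈ Q, volume ((fun t => (t, y)) ⁻¹' S) = ENNReal.ofReal (H y)) →
      (∀ y ∉ Q, (fun t : ℝ => (t, y)) ⁻¹' S = ∅) →
      volume S = ∫⁻ y in Q, ENNReal.ofReal (H y) := by
    intro S hS h1 h0
    rw [Measure.volume_eq_prod, Measure.prod_apply_symm hS,
      ← lintegral_indicator (measurableSet_Icc.prod measurableSet_Icc)]
    refine lintegral_congr fun y => ?_
    by_cases hy : y ∈ Q
    · rw [indicator_of_mem hy, h1 y hy]
    · rw [indicator_of_notMem hy, h0 y hy, measure_empty]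
  have vlo : volume lo = ∫⁻ y in Q, ENNReal.ofReal (H y) := hsec lo hmlo (fun y hy => by
    have : (fun t => (t, y)) ⁻¹' lo = Ico 0 (H y) := by
      ext t
      simp only [lo, mem_preimage, mem_setOf_eq, mem_Icc, mem_Ico]
      exact ⟨fun h => ⟨h.1.1, h.2.2⟩, fun h =>
        ⟨⟨h.1, h.2.le.trans (heightExt_mem D i j _ _).2⟩, hy, h.2⟩⟩
    rw [this, Real.volume_Ico, sub_zero]) fun y hy => by
      ext t; simp only [lo, mem_preimage, mem_setOf_eq, mem_empty_iff_false, iff_false]
      exact fun h => hy h.2.1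
  have vhi : volume hi = ∫⁻ y in Q, ENNReal.ofReal (H y) := hsec hi hmhi (fun y hy => by
    have : (fun t => (t, y)) ⁻¹' hi = Icc 0 (H y) := by
      ext t
      simp only [hi, mem_preimage, mem_setOf_eq, mem_Icc]
      exact ⟨fun h => ⟨h.1.1, h.2.2⟩, fun h =>
        ⟨⟨h.1, h.2.trans (heightExt_mem D i j _ _).2⟩, hy, h.2⟩⟩
    rw [this, Real.volume_Icc, sub_zero]) fun y hy => by
      ext t; simp only [hi, mem_preimage, mem_setOf_eq, mem_empty_iff_false, iff_false]
      exact fun h => hy h.2.1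
  have hvol : volume D = ∫⁻ y in Q, ENNReal.ofReal (H y) := le_antisymm
    ((measure_mono h2).trans_eq ((he.measure_preimage hmhi.nullMeasurableSet).trans vhi))
    ((vlo.symm.trans (he.measure_preimage hmlo.nullMeasurableSet).symm).trans_le
      (measure_mono h1))
  have hQfin : volume Q < ⊤ := (isCompact_Icc.prod isCompact_Icc).measure_lt_top
  have hint : IntegrableOn H Q := IntegrableOn.of_bound hQfin hHm.aestronglyMeasurable 1
    (Eventually.of_forall fun y => by
      rw [Real.norm_eq_abs, abs_of_nonneg (heightExt_mem D i j _ _).1]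
      exact (heightExt_mem D i j _ _).2)
  rw [boxVolume, measureReal_def, hvol, ← ofReal_integral_eq_lintegral_ofReal hint
    (Eventually.of_forall fun y => (heightExt_mem D i j _ _).1),
    ENNReal.toReal_ofReal (integral_nonneg fun y => (heightExt_mem D i j _ _).1),
    Measure.volume_eq_prod, setIntegral_prod _ hint, intervalIntegral.integral_of_le zero_le_one,
    ← integral_Icc_eq_integral_Ioc]
  refine setIntegral_congr_fun measurableSet_Icc fun c _ => ?_
  rw [sliceArea, intervalIntegral.integral_of_le zero_le_one, ← integral_Icc_eq_integral_Ioc]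

end Vale.Agent.P232
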