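import Vale.Agent.P232.Torus

/-!
# P232: a good level set of a monotone Lipschitz function on the cube is a reduced set
-/

open MeasureTheory Set Filter Topology
open scoped ENNReal NNReal Real

noncomputable section

namespace Vale.Agent.P232

theorem measurableSet_box : MeasurableSet box := measurableSet_Icc

theorem measurableSet_square : MeasurableSet square := measurableSet_Icc

theorem volume_box : volume box = 1 := by
  simp [box, Real.volume_Icc_pi]

theorem volume_square : volume square = 1 := by
  simp [square, Real.volume_Icc_pi]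

theorem continuous_facePoint (i : Fin 3) : Continuous fun p : ℝ × R2 => facePoint i p.1 p.2 := by
  unfold facePoint; fun_prop

theorem continuous_facePoint' (i : Fin 3) (c : ℝ) : Continuous (facePoint i c) :=
  (continuous_facePoint i).comp (continuous_const.prodMk continuous_id)

theorem facePoint_mem_box {i : Fin 3} {c : ℝ} {y : R2} :
    facePoint i c y ∈ box ↔ c ∈ Icc (0 : ℝ) 1 ∧ y ∈ square := by
  simp only [box, square, mem_Icc, Pi.le_def, facePoint, Fin.forall_iff_succAbove i,
    Fin.insertNth_apply_same, Fin.insertNth_apply_succAbove, Pi.zero_apply, Pi.one_apply]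
  tauto

theorem facePoint_add (i : Fin 3) (c t : ℝ) (y : R2) :
    facePoint i c y + t • unit i = facePoint i (c + t) y := by
  funext j
  revert j
  refine i.forall_iff_succAbove.2 ⟨?_, fun j => ?_⟩
  · simp [facePoint, unit_apply]
  · simp [facePoint, unit_apply]

theorem integrableOn_box {f : R3 → ℝ} (hf : Measurable f) (C : ℝ) (hC : ∀ x ∈ box, |f x| ≤ C) :
    IntegrableOn f box :=
  IntegrableOn.of_bound (by simp [volume_box]) hf.aestronglyMeasurable C
    (ae_restrict_of_forall_mem measurableSet_box hC)

/-- Fubini on the cube. -/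
theorem integral_box_eq {F : R3 → ℝ} (hF : IntegrableOn F box) (i : Fin 3) :
    ∫ x in box, F x = ∫ y in square, ∫ t in Icc (0 : ℝ) 1, F (facePoint i t y) := by
  set e := (MeasurableEquiv.piFinSuccAbove (fun _ : Fin 3 => ℝ) i).symm with he
  have hmp : MeasurePreserving e (volume.prod volume) volume :=
    (volume_preserving_piFinSuccAbove (fun _ : Fin 3 => ℝ) i).symm _
  have happ : ∀ p : ℝ × R2, e p = facePoint i p.1 p.2 := fun p => rfl
  have hpre : e ⁻¹' box = Icc (0 : ℝ) 1 ×ˢ square := by
    ext p
    simp only [mem_preimage, happ, mem_prod]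
    exact facePoint_mem_box
  rw [← hmp.setIntegral_preimage_emb e.measurableEmbedding F box, hpre]
  have hint : Integrable (fun p : ℝ × R2 => F (e p))
      ((volume.restrict (Icc (0 : ℝ) 1)).prod (volume.restrict square)) := by
    rw [Measure.prod_restrict, ← hpre]
    exact (hmp.integrableOn_comp_preimage e.measurableEmbedding).2 hF
  rw [← Measure.prod_restrict, integral_prod_symm _ hint]
  rfl

/-- The fundamental theorem of calculus on the cube for Lipschitz functions. -/
theorem integral_box_pd {h : R3 → ℝ} (hl : LocallyLipschitz h)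
    (hd : ∀ᵐ x, DifferentiableAt ℝ h x) (i : Fin 3) :
    IntegrableOn (pd i h) box ∧
      ∫ x in box, pd i h x =
        (∫ y in square, h (facePoint i 1 y)) - ∫ y in square, h (facePoint i 0 y) := by
  obtain ⟨C, hC⟩ := hl.locallyLipschitzOn.exists_lipschitzOnWith_of_compact
    (s := Icc (-1 : R3) 2) isCompact_Icc
  have hpd : IntegrableOn (pd i h) box := by
    refine integrableOn_box (measurable_pd i h) C fun x hx => ?_
    have hnhds : Icc (-1 : R3) 2 ∈ 𝓝 x := by
      refine pi_Icc_mem_nhds (fun j => ?_) (fun j => ?_)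
      · have := hx.1 j; simp at this ⊢; linarith
      · have := hx.2 j; simp at this ⊢; linarith
    have h1 := (fderiv ℝ h x).le_opNorm (unit i)
    rw [norm_unit, mul_one] at h1
    exact h1.trans (norm_fderiv_le_of_lipschitzOn ℝ hnhds hC)
  refine ⟨hpd, ?_⟩
  have hae : pd i h =ᵐ[volume.restrict box] fun x => lineDeriv ℝ h x (unit i) :=
    ae_restrict_of_ae (hd.mono fun x hx => hx.lineDeriv_eq_fderiv.symm)
  have hline : IntegrableOn (fun x => lineDeriv ℝ h x (unit i)) box := hpd.congr hae
  rw [integral_congr_ae hae, integral_box_eq hline i,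
    ← integral_sub (f := fun y => h (facePoint i 1 y)) (g := fun y => h (facePoint i 0 y))
      (μ := volume.restrict square) (((hl.continuous.comp (continuous_facePoint' i 1)).continuousOn).integrableOn_compact
      isCompact_Icc) (((hl.continuous.comp (continuous_facePoint' i 0)).continuousOn).integrableOn_compact
      isCompact_Icc)]
  refine setIntegral_congr_fun measurableSet_square fun y hy => ?_
  set g : ℝ → ℝ := fun t => h (facePoint i t y) with hg
  have hder : ∀ t, lineDeriv ℝ h (facePoint i t y) (unit i) = deriv g t := by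
    intro t
    rw [lineDeriv, hg]
    simp only [facePoint_add]
    rw [deriv_comp_const_add (f := g) t 0, add_zero]
  simp only [hder]
  have hlip : LipschitzOnWith C g (uIcc 0 1) := by
    rw [uIcc_of_le zero_le_one]
    refine LipschitzOnWith.of_dist_le_mul fun s hs t ht => ?_
    have hmem : ∀ r ∈ Icc (0 : ℝ) 1, facePoint i r y ∈ Icc (-1 : R3) 2 := fun r hr =>
      Icc_subset_Icc (fun j => by norm_num) (fun j => by norm_num) (facePoint_mem_box.2 ⟨hr, hy⟩)
    refine (hC.dist_le_mul _ (hmem s hs) _ (hmem t ht)).trans ?_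
    gcongr
    rw [show facePoint i t y = facePoint i s y + (t - s) • unit i by
      rw [facePoint_add, add_sub_cancel], dist_self_add_right, norm_smul, norm_unit, mul_one,
      Real.norm_eq_abs, Real.dist_eq, abs_sub_comm]
  rw [integral_Icc_eq_integral_Ioc, ← intervalIntegral.integral_of_le zero_le_one,
    hlip.absolutelyContinuousOnInterval.integral_deriv_eq_sub]

/-! ## The ramps -/

/-- The derivative of the smooth ramp. -/
def rampDeriv (t : ℝ) : ℝ := deriv Real.smoothTransition t

theorem contDiff_smoothTransition : ContDiff ℝ 1 Real.smoothTransition :=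
  Real.smoothTransition.contDiff

theorem continuous_rampDeriv : Continuous rampDeriv :=
  contDiff_smoothTransition.continuous_deriv le_rfl

theorem rampDeriv_nonneg (t : ℝ) : 0 ≤ rampDeriv t := Real.smoothTransition.monotone.deriv_nonneg

theorem rampDeriv_eq_zero {t : ℝ} (ht : t ∉ Icc (0 : ℝ) 1) : rampDeriv t = 0 := by
  rcases not_and_or.1 (mem_Icc.not.1 ht) with h | h
  · have : Real.smoothTransition =ᶠ[𝓝 t] fun _ => (0 : ℝ) :=
      (eventually_lt_nhds (not_le.1 h)).mono fun z hz => Real.smoothTransition.zero_of_nonpos hz.le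
    simp [rampDeriv, this.deriv_eq]
  · have : Real.smoothTransition =ᶠ[𝓝 t] fun _ => (1 : ℝ) :=
      (eventually_gt_nhds (not_le.1 h)).mono fun z hz => Real.smoothTransition.one_of_one_le hz.le
    simp [rampDeriv, this.deriv_eq]

theorem integral_rampDeriv : ∫ t, rampDeriv t = 1 := by
  rw [← setIntegral_eq_integral_of_forall_compl_eq_zero (s := Icc (0 : ℝ) 1)
    fun t ht => rampDeriv_eq_zero ht]
  rw [integral_Icc_eq_integral_Ioc, ← intervalIntegral.integral_of_le zero_le_one]
  simp only [rampDeriv]
  rw [intervalIntegral.integral_deriv_eq_sub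
    (fun t _ => (contDiff_smoothTransition.differentiable one_ne_zero).differentiableAt)
    (continuous_rampDeriv.intervalIntegrable 0 1),
    Real.smoothTransition.one_of_one_le le_rfl, Real.smoothTransition.zero_of_nonpos le_rfl, sub_zero]

theorem integrable_rampDeriv : Integrable rampDeriv :=
  continuous_rampDeriv.integrable_of_hasCompactSupport
    (HasCompactSupport.intro isCompact_Icc fun _ ht => rampDeriv_eq_zero ht)

/-- The ramp from `0` at `s` to `1` at `s + 1/(n+1)`. -/
def ramp (n : ℕ) (s t : ℝ) : ℝ := Real.smoothTransition (((n : ℝ) + 1) * (t - s))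

theorem hasDerivAt_ramp (n : ℕ) (s t : ℝ) :
    HasDerivAt (ramp n s) (((n : ℝ) + 1) * rampDeriv (((n : ℝ) + 1) * (t - s))) t := by
  have h1 : HasDerivAt (fun r => ((n : ℝ) + 1) * (r - s)) ((n : ℝ) + 1) t := by
    simpa using ((hasDerivAt_id t).sub_const s).const_mul ((n : ℝ) + 1)
  have h2 := (contDiff_smoothTransition.differentiable one_ne_zero
    (((n : ℝ) + 1) * (t - s))).hasDerivAt.comp t h1
  rw [mul_comm]
  exact h2

theorem contDiff_ramp (n : ℕ) (s : ℝ) : ContDiff ℝ 1 (ramp n s) :=
  contDiff_smoothTransition.comp (contDiff_const.mul (contDiff_id.sub contDiff_const))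

theorem ramp_mem_Icc (n : ℕ) (s t : ℝ) : ramp n s t ∈ Icc (0 : ℝ) 1 :=
  ⟨Real.smoothTransition.nonneg _, Real.smoothTransition.le_one _⟩

theorem tendsto_ramp (s t : ℝ) :
    Tendsto (fun n => ramp n s t) atTop (𝓝 (if s < t then 1 else 0)) := by
  split_ifs with h
  · refine tendsto_const_nhds.congr' ?_
    obtain ⟨N, hN⟩ := exists_nat_gt (1 / (t - s))
    filter_upwards [eventually_ge_atTop N] with n hn
    refine (Real.smoothTransition.one_of_one_le ?_).symm
    have h1 : 1 / (t - s) < (n : ℝ) + 1 := by
      have : (N : ℝ) ≤ n := Nat.cast_le.2 hn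
      linarith
    rw [div_lt_iff₀ (sub_pos.2 h)] at h1
    exact h1.le
  · refine tendsto_const_nhds.congr fun n => (Real.smoothTransition.zero_of_nonpos ?_).symm
    exact mul_nonpos_of_nonneg_of_nonpos (by positivity) (sub_nonpos.2 (not_lt.1 h))

theorem lintegral_rampDeriv (n : ℕ) (t : ℝ) :
    ∫⁻ s, ENNReal.ofReal (((n : ℝ) + 1) * rampDeriv (((n : ℝ) + 1) * (t - s))) = 1 := by
  rw [← ofReal_integral_eq_lintegral_ofReal]
  · rw [integral_const_mul, integral_sub_left_eq_self (fun r => rampDeriv (((n : ℝ) + 1) * r)) volume t,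
      Measure.integral_comp_mul_left rampDeriv, integral_rampDeriv, smul_eq_mul, mul_one, abs_inv,
      abs_of_pos (by positivity : (0 : ℝ) < (n : ℝ) + 1), mul_inv_cancel₀ (by positivity),
      ENNReal.ofReal_one]
  · exact (((integrable_rampDeriv.comp_mul_left' (by positivity : ((n : ℝ) + 1) ≠ 0)).comp_sub_left
      t).const_mul _)
  · exact ae_of_all _ fun s => mul_nonneg (by positivity) (rampDeriv_nonneg _)

/-! ## The level -/

/-- The ramp inequality: integration by parts in the cube. -/
theorem ramp_ineq {w : R3 → ℝ} {L : ℝ≥0} (hw : LipschitzWith L w) (n : ℕ) (s : ℝ)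
    {X : Fin 3 → R3 → ℝ} (hX : ∀ i, ContDiff ℝ 1 (X i)) (hb : ∀ x ∈ box, ∑ i, X i x ^ 2 ≤ 1) :
    ENNReal.ofReal ((∫ x in box, ramp n s (w x) * divergence X x) -
        ∑ i, ((∫ y in square, ramp n s (w (facePoint i 1 y)) * X i (facePoint i 1 y)) -
          ∫ y in square, ramp n s (w (facePoint i 0 y)) * X i (facePoint i 0 y))) ≤
      ∫⁻ x in box, ENNReal.ofReal
        (((n : ℝ) + 1) * rampDeriv (((n : ℝ) + 1) * (w x - s)) * gradNorm w x) := by
  set G := ramp n s
  set k : R3 → ℝ := fun x => ((n : ℝ) + 1) * rampDeriv (((n : ℝ) + 1) * (w x - s)) with hk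
  have hk0 : ∀ x, 0 ≤ k x := fun x => mul_nonneg (by positivity) (rampDeriv_nonneg _)
  have hwd : ∀ᵐ x, DifferentiableAt ℝ w x := hw.ae_differentiableAt
  have hkc : Continuous k :=
    continuous_const.mul (continuous_rampDeriv.comp (continuous_const.mul
      (hw.continuous.sub continuous_const)))
  obtain ⟨K, hK⟩ := isCompact_Icc.exists_bound_of_continuousOn
    (hkc.continuousOn (s := Icc (0 : R3) 1))
  have hGl : ∀ i, LocallyLipschitz fun x => G (w x) * X i x := fun i =>
    (show LocallyLipschitz (fun p : ℝ × ℝ => p.1 * p.2) from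
      (contDiff_fst.mul contDiff_snd : ContDiff ℝ 1 _).locallyLipschitz).comp
      (((contDiff_ramp n s).locallyLipschitz.comp hw.locallyLipschitz).prodMk
        (hX i).locallyLipschitz)
  have hGd : ∀ i, ∀ᵐ x, DifferentiableAt ℝ (fun z => G (w z) * X i z) x := fun i =>
    hwd.mono fun x hx =>
      (((hasDerivAt_ramp n s (w x)).differentiableAt).comp x hx).mul
        ((hX i).differentiable one_ne_zero x)
  have hpd : ∀ᵐ x, ∀ i, pd i (fun z => G (w z) * X i z) x =
      k x * (pd i w x * X i x) + G (w x) * pd i (X i) x := by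
    filter_upwards [hwd] with x hx i
    have hc : HasFDerivAt (fun z => G (w z)) (k x • fderiv ℝ w x) x :=
      (hasDerivAt_ramp n s (w x)).comp_hasFDerivAt x hx.hasFDerivAt
    simp only [pd, fderiv_fun_mul hc.differentiableAt ((hX i).differentiable one_ne_zero x),
      hc.fderiv, add_apply, FunLike.coe_smul, Pi.smul_apply, smul_eq_mul]
    ring
  have hint1 : IntegrableOn (fun x => G (w x) * divergence X x) box :=
    (((contDiff_ramp n s).continuous.comp hw.continuous).mul
      (continuous_divergence hX)).continuousOn.integrableOn_compact isCompact_Icc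
  have hflux : ∑ i, ((∫ y in square, G (w (facePoint i 1 y)) * X i (facePoint i 1 y)) -
      ∫ y in square, G (w (facePoint i 0 y)) * X i (facePoint i 0 y)) =
      ∫ x in box, (k x * (∑ i, pd i w x * X i x) + G (w x) * divergence X x) := by
    rw [← Finset.sum_congr rfl fun i _ => (integral_box_pd (hGl i) (hGd i) i).2,
      ← integral_finsetSum _ fun i _ => (integral_box_pd (hGl i) (hGd i) i).1]
    refine integral_congr_ae (ae_restrict_of_ae ?_)
    filter_upwards [hpd] with x hx
    simp only [hx, Finset.sum_add_distrib, divergence, Finset.mul_sum]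
  have hint2 : IntegrableOn (fun x => k x * ∑ i, pd i w x * X i x) box := by
    refine integrableOn_box (hkc.measurable.mul (Finset.measurable_sum _ fun i _ =>
      (measurable_pd i w).mul (hX i).continuous.measurable)) (K * (3 * L)) fun x hx => ?_
    rw [abs_mul]
    exact mul_le_mul (hK x hx) ((sum_mul_le_gradNorm w x _ (hb x hx)).trans (gradNorm_le hw x))
      (abs_nonneg _) ((norm_nonneg _).trans (hK x hx))
  have hint3 : IntegrableOn (fun x => k x * gradNorm w x) box := by
    refine integrableOn_box (hkc.measurable.mul (measurable_gradNorm w)) (K * (3 * L)) fun x hx => ?_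
    rw [abs_mul, abs_of_nonneg (gradNorm_nonneg w x)]
    exact mul_le_mul (hK x hx) (gradNorm_le hw x) (gradNorm_nonneg _ _)
      ((norm_nonneg _).trans (hK x hx))
  rw [hflux, integral_add hint2 hint1, sub_add_cancel_right, ← integral_neg]
  refine le_trans (ENNReal.ofReal_le_ofReal (integral_mono_ae hint2.neg hint3
    (ae_restrict_of_forall_mem measurableSet_box fun x hx => ?_))) (le_of_eq ?_)
  · show -(k x * ∑ i, pd i w x * X i x) ≤ k x * gradNorm w x
    rw [← mul_neg]
    exact mul_le_mul_of_nonneg_left
      ((neg_le_abs _).trans (sum_mul_le_gradNorm w x _ (hb x hx))) (hk0 x)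
  · exact ofReal_integral_eq_lintegral_ofReal hint3
      (ae_of_all _ fun x => mul_nonneg (hk0 x) (gradNorm_nonneg w x))

/-- A good level of a decreasing Lipschitz function on the cube. -/
theorem exists_reduced_level {w : R3 → ℝ} {L : ℝ≥0} (hw : LipschitzWith L w)
    (h01 : ∀ x, w x ∈ Icc (0 : ℝ) 1) (hanti : ∀ x ∈ box, ∀ y ∈ box, y ≤ x → w x ≤ w y)
    {δ : ℝ} (hδ : 0 < δ) (hδ' : δ < 1 / 2) :
    ∃ D : Set R3, IsReduced D ((∫ x in box, gradNorm w x) / (1 - 2 * δ)) ∧
      |boxVolume D - ∫ x in box, w x| ≤ (∫ x in box, w x * (1 - w x)) / δ := by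
  set I := ∫ x in box, gradNorm w x with hI
  have hIint : IntegrableOn (gradNorm w) box := integrableOn_box (measurable_gradNorm w) (3 * L)
    fun x _ => by rw [abs_of_nonneg (gradNorm_nonneg w x)]; exact gradNorm_le hw x
  set Φ : ℕ → ℝ → ℝ≥0∞ := fun n s => ∫⁻ x in box, ENNReal.ofReal
    (((n : ℝ) + 1) * rampDeriv (((n : ℝ) + 1) * (w x - s)) * gradNorm w x) with hΦdef
  have hjoint : ∀ n : ℕ, Measurable fun p : ℝ × R3 => ENNReal.ofReal
      (((n : ℝ) + 1) * rampDeriv (((n : ℝ) + 1) * (w p.2 - p.1)) * gradNorm w p.2) := fun n =>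
    ((measurable_const.mul (continuous_rampDeriv.measurable.comp (measurable_const.mul
      ((hw.continuous.measurable.comp measurable_snd).sub measurable_fst)))).mul
      ((measurable_gradNorm w).comp measurable_snd)).ennreal_ofReal
  have hΦm : ∀ n, Measurable (Φ n) := fun n => (hjoint n).lintegral_prod_right'
  have hΦint : ∀ n, ∫⁻ s, Φ n s = ENNReal.ofReal I := fun n => by
    rw [hI, ofReal_integral_eq_lintegral_ofReal hIint (ae_of_all _ (gradNorm_nonneg w))]
    simp only [hΦdef]
    rw [lintegral_lintegral_swap (hjoint n).aemeasurable]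
    refine lintegral_congr fun x => ?_
    simp only [ENNReal.ofReal_mul' (gradNorm_nonneg w x)]
    rw [lintegral_mul_const' _ _ ENNReal.ofReal_ne_top, lintegral_rampDeriv, one_mul]
  have hlim : ∫⁻ s in Ioo δ (1 - δ), liminf (fun n => Φ n s) atTop ≤ ENNReal.ofReal I := by
    refine (setLIntegral_le_lintegral _ _).trans ((lintegral_liminf_le hΦm).trans ?_)
    simp only [hΦint, liminf_const, le_refl]
  obtain ⟨s, hs, hsle⟩ := exists_le_setLAverage (μ := volume) (s := Ioo δ (1 - δ))
    (f := fun s => liminf (fun n => Φ n s) atTop)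
    (by rw [Real.volume_Ioo]; exact (ENNReal.ofReal_pos.2 (by linarith)).ne')
    (by rw [Real.volume_Ioo]; exact ENNReal.ofReal_ne_top) (Measurable.liminf hΦm).aemeasurable
  have hsle' : liminf (fun n => Φ n s) atTop ≤ ENNReal.ofReal (I / (1 - 2 * δ)) := by
    refine hsle.trans ?_
    rw [setLAverage_eq, Real.volume_Ioo, ENNReal.ofReal_div_of_pos (by linarith),
      show 1 - δ - δ = 1 - 2 * δ by ring]
    exact ENNReal.div_le_div_right hlim _
  refine ⟨box ∩ {x | s < w x}, ⟨inter_subset_left,
    measurableSet_box.inter (measurableSet_lt measurable_const hw.continuous.measurable),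
    fun x hx y hy hyx => ⟨hy, lt_of_lt_of_le hx.2 (hanti x hx.1 y hy hyx)⟩, ?_⟩, ?_⟩
  · intro X hX hb
    set c : R3 → ℝ := fun x => if s < w x then 1 else 0 with hc
    have hset : MeasurableSet {x | s < w x} :=
      measurableSet_lt measurable_const hw.continuous.measurable
    have hA : Tendsto (fun n => ∫ x in box, ramp n s (w x) * divergence X x) atTop
        (𝓝 (∫ x in box ∩ {x | s < w x}, divergence X x)) := by
      obtain ⟨B, hB⟩ := isCompact_Icc.exists_bound_of_continuousOn
        ((continuous_divergence hX).continuousOn (s := Icc (0 : R3) 1))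
      have : ∫ x in box ∩ {x | s < w x}, divergence X x = ∫ x in box, c x * divergence X x := by
        rw [← setIntegral_indicator hset]
        refine integral_congr_ae (ae_of_all _ fun x => ?_)
        by_cases h : s < w x <;> simp [hc, h]
      rw [this]
      refine tendsto_integral_of_dominated_convergence (fun _ => B) (fun n => ?_)
        (integrableOn_const (by simp [volume_box])) (fun n => ?_)
        (ae_of_all _ fun x => (tendsto_ramp s (w x)).mul_const _)
      · exact (((contDiff_ramp n s).continuous.comp hw.continuous).mul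
          (continuous_divergence hX)).aestronglyMeasurable
      · refine ae_restrict_of_forall_mem measurableSet_box fun x hx => ?_
        rw [norm_mul, Real.norm_of_nonneg (ramp_mem_Icc n s _).1]
        exact (mul_le_of_le_one_left (norm_nonneg _) (ramp_mem_Icc n s _).2).trans (hB x hx)
    have hF : ∀ (i : Fin 3) (a : ℝ), a ∈ Icc (0 : ℝ) 1 →
        Tendsto (fun n => ∫ y in square, ramp n s (w (facePoint i a y)) * X i (facePoint i a y)) atTop
          (𝓝 (∫ y in square ∩ facePoint i a ⁻¹' (box ∩ {x | s < w x}), X i (facePoint i a y))) := by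
      intro i a ha
      have hcont := continuous_facePoint' i a
      have hmeas : MeasurableSet (facePoint i a ⁻¹' (box ∩ {x | s < w x})) :=
        (measurableSet_box.inter hset).preimage hcont.measurable
      have : ∫ y in square ∩ facePoint i a ⁻¹' (box ∩ {x | s < w x}), X i (facePoint i a y)
          = ∫ y in square, c (facePoint i a y) * X i (facePoint i a y) := by
        rw [← setIntegral_indicator hmeas]
        refine setIntegral_congr_fun measurableSet_square fun y hy => ?_
        have hbx : facePoint i a y ∈ box := facePoint_mem_box.2 ⟨ha, hy⟩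
        by_cases h : s < w (facePoint i a y) <;> simp [hc, h, hbx]
      rw [this]
      refine tendsto_integral_of_dominated_convergence (fun _ => 1) (fun n => ?_)
        (integrableOn_const (by simp [volume_square])) (fun n => ?_)
        (ae_of_all _ fun y => (tendsto_ramp s (w _)).mul_const _)
      · exact (((contDiff_ramp n s).continuous.comp (hw.continuous.comp hcont)).mul
          ((hX i).continuous.comp hcont)).aestronglyMeasurable
      · refine ae_restrict_of_forall_mem measurableSet_square fun y hy => ?_
        rw [norm_mul, Real.norm_of_nonneg (ramp_mem_Icc n s _).1, Real.norm_eq_abs]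
        refine (mul_le_of_le_one_left (abs_nonneg _) (ramp_mem_Icc n s _).2).trans ?_
        refine abs_le_one_iff_mul_self_le_one.2 ?_
        rw [← sq]
        exact (Finset.single_le_sum (fun j _ => sq_nonneg (X j (facePoint i a y)))
          (Finset.mem_univ i)).trans (hb _ (facePoint_mem_box.2 ⟨ha, hy⟩))
    have hfl : Tendsto (fun n => ∑ i,
        ((∫ y in square, ramp n s (w (facePoint i 1 y)) * X i (facePoint i 1 y)) -
          ∫ y in square, ramp n s (w (facePoint i 0 y)) * X i (facePoint i 0 y))) atTop
        (𝓝 (flux (box ∩ {x | s < w x}) X)) :=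
      tendsto_finsetSum _ fun i _ =>
        (hF i 1 (right_mem_Icc.2 zero_le_one)).sub (hF i 0 (left_mem_Icc.2 zero_le_one))
    have hle : ENNReal.ofReal ((∫ x in box ∩ {x | s < w x}, divergence X x) -
        flux (box ∩ {x | s < w x}) X) ≤ ENNReal.ofReal (I / (1 - 2 * δ)) := by
      refine le_trans ?_ hsle'
      rw [← ((ENNReal.continuous_ofReal.tendsto _).comp (hA.sub hfl)).liminf_eq]
      exact liminf_le_liminf (Eventually.of_forall fun n => ramp_ineq hw n s hX hb)
    have hI0 : 0 ≤ I / (1 - 2 * δ) :=
      div_nonneg (setIntegral_nonneg measurableSet_box fun x _ => gradNorm_nonneg w x) (by linarith)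
    have := (ENNReal.ofReal_le_ofReal_iff hI0).1 hle
    linarith
  · have hset : MeasurableSet {x | s < w x} :=
      measurableSet_lt measurable_const hw.continuous.measurable
    have hvol : boxVolume (box ∩ {x | s < w x}) =
        ∫ x in box, {x | s < w x}.indicator (fun _ => (1 : ℝ)) x := by
      rw [setIntegral_indicator hset, setIntegral_const, smul_eq_mul, mul_one]
      rfl
    have hi1 : IntegrableOn (fun x => {x | s < w x}.indicator (fun _ => (1 : ℝ)) x) box :=
      integrableOn_box (measurable_const.indicator hset) 1 fun x _ => by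
        by_cases h : x ∈ {x | s < w x} <;> simp [h]
    have hi2 : IntegrableOn w box := hw.continuous.continuousOn.integrableOn_compact isCompact_Icc
    have hi3 : IntegrableOn (fun x => w x * (1 - w x) / δ) box :=
      ((hw.continuous.mul (continuous_const.sub hw.continuous)).div_const δ).continuousOn.integrableOn_compact
        isCompact_Icc
    rw [hvol, ← integral_sub hi1 hi2, ← integral_div]
    refine abs_integral_le_integral_abs.trans (integral_mono (hi1.sub hi2).abs hi3 fun x => ?_)
    obtain ⟨h0, h1⟩ := h01 x
    rw [le_div_iff₀ hδ]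
    by_cases h : s < w x
    · rw [indicator_of_mem (show x ∈ {x | s < w x} from h), abs_of_nonneg (by linarith)]
      nlinarith [hs.1]
    · rw [indicator_of_notMem (show x ∉ {x | s < w x} from h), zero_sub, abs_neg, abs_of_nonneg h0]
      nlinarith [hs.2, not_lt.1 h]

end Vale.Agent.P232
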