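import Vale.Agent.P232.Polarise
import Vale.Agent.P232.Level

/-!
# P232: the reduction of the torus problem to down sets of the cube

Every set of finite perimeter on the cubic torus gives reduced down sets of the cube with nearly the
same volume and nearly half its perimeter; hence a lower bound for reduced sets in a neighbourhood
of a volume is a lower bound for the isoperimetric profile at that volume.
-/

open MeasureTheory Set Filter Topology
open scoped ENNReal NNReal Real Pointwise

noncomputable section

namespace Vale.Agent.P232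

/-- The octant of the centred cell. -/
def octant : Set R3 := univ.pi fun _ => Icc (0 : ℝ) (1 / 2)

theorem measurableSet_pi_Icc (a b : Fin 3 → ℝ) :
    MeasurableSet (univ.pi fun j => Icc (a j) (b j)) :=
  MeasurableSet.univ_pi fun _ => measurableSet_Icc

theorem setIntegral_halve {f : R3 → ℝ} (i : Fin 3)
    (hsymm : ∀ᵐ x, f (refl i 0 x) = f x) (s : Fin 3 → Set ℝ) (hs : ∀ j, MeasurableSet (s j))
    (hsi : s i = Icc (-(1 / 2)) (1 / 2)) (hint : IntegrableOn f (univ.pi s)) :
    ∫ x in univ.pi s, f x = 2 * ∫ x in univ.pi (Function.update s i (Icc 0 (1 / 2))), f x := by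
  set P := univ.pi (Function.update s i (Icc (0 : ℝ) (1 / 2))) with hP
  set N := univ.pi (Function.update s i (Ico (-(1 / 2) : ℝ) 0)) with hN
  have hm : ∀ t : Set ℝ, MeasurableSet t → MeasurableSet (univ.pi (Function.update s i t)) :=
    fun t ht => MeasurableSet.univ_pi fun j => by
      by_cases h : j = i
      · subst h; rwa [Function.update_self]
      · rw [Function.update_of_ne h]; exact hs j
  have hsplit : univ.pi s = N ∪ P := by
    ext x
    simp only [hN, hP, mem_union, mem_univ_pi]
    constructor
    · intro hx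
      have hxi := hx i
      rw [hsi] at hxi
      rcases lt_or_ge (x i) 0 with h | h
      · left
        intro j
        by_cases hj : j = i
        · subst hj; rw [Function.update_self]; exact ⟨hxi.1, h⟩
        · rw [Function.update_of_ne hj]; exact hx j
      · right
        intro j
        by_cases hj : j = i
        · subst hj; rw [Function.update_self]; exact ⟨h, hxi.2⟩
        · rw [Function.update_of_ne hj]; exact hx j
    · rintro (hx | hx) j <;> have h := hx j <;> by_cases hj : j = i
      · subst hj; rw [Function.update_self] at h; rw [hsi]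
        exact ⟨h.1, by linarith [h.2]⟩
      · rwa [Function.update_of_ne hj] at h
      · subst hj; rw [Function.update_self] at h; rw [hsi]
        exact ⟨by linarith [h.1], h.2⟩
      · rwa [Function.update_of_ne hj] at h
  have hdisj : Disjoint N P := by
    rw [Set.disjoint_left]
    intro x hxN hxP
    have h1 := mem_univ_pi.1 hxN i
    have h2 := mem_univ_pi.1 hxP i
    rw [Function.update_self] at h1 h2
    linarith [h1.2, h2.1]
  rw [hsplit] at hint ⊢
  rw [setIntegral_union hdisj (hm _ measurableSet_Icc) hint.left_of_union hint.right_of_union]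
  have hemb : MeasurableEmbedding (refl i 0) :=
    (MeasurableEquiv.mk ⟨refl i 0, refl i 0, refl_refl i 0, refl_refl i 0⟩
      (continuous_refl i 0).measurable (continuous_refl i 0).measurable).measurableEmbedding
  have hNP : ∫ x in N, f x = ∫ x in P, f x := by
    have hpre : refl i 0 ⁻¹' P = univ.pi (Function.update s i (Icc (-(1 / 2) : ℝ) 0)) := by
      ext x
      simp only [hP, mem_preimage, mem_univ_pi]
      refine forall_congr' fun j => ?_
      by_cases hj : j = i
      · subst hj
        simp only [Function.update_self, refl_apply, if_true, mem_Icc]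
        constructor <;> rintro ⟨h₁, h₂⟩ <;> constructor <;> linarith
      · simp [refl_apply, hj]
    rw [← (measurePreserving_refl i 0).setIntegral_preimage_emb hemb f P, hpre,
      integral_congr_ae (ae_restrict_of_ae hsymm)]
    refine setIntegral_congr_set (Measure.ae_eq_set_pi fun j _ => ?_)
    by_cases hj : j = i
    · subst hj
      simp only [Function.update_self]
      exact Ico_ae_eq_Icc
    · simp only [Function.update_of_ne hj]
      exact EventuallyEq.rfl
  rw [hNP]
  ring

theorem setIntegral_cell_eq_octant {f : R3 → ℝ} (hf : IsPeriodicFun f) (hm : Measurable f)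
    (C : ℝ) (hC : ∀ x, |f x| ≤ C) (hsymm : ∀ i, ∀ᵐ x, f (refl i 0 x) = f x) :
    ∫ x in cell, f x = 8 * ∫ x in octant, f x := by
  set c : R3 := fun _ => -(1 / 2) with hc
  have h0 : ∫ x in cell, f x = ∫ x in univ.pi fun _ => Icc (-(1 / 2) : ℝ) (1 / 2), f x := by
    rw [← setIntegral_cell_add hf c, ← (measurePreserving_add_right volume c).setIntegral_image_emb
      (MeasurableEquiv.addRight c).measurableEmbedding f cell]
    refine setIntegral_congr_set ?_
    have : (fun x : R3 => x + c) '' cell = univ.pi fun _ => Ico (-(1 / 2) : ℝ) (1 / 2) := by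
      rw [image_add_right]
      ext x
      simp only [cell, mem_preimage, mem_univ_pi]
      refine forall_congr' fun j => ?_
      simp only [hc, Pi.add_apply, Pi.neg_apply, mem_Ico]
      constructor <;> rintro ⟨h₁, h₂⟩ <;> constructor <;> linarith
    rw [this]
    exact Measure.ae_eq_set_pi fun j _ => Ico_ae_eq_Icc
  have hint : ∀ s : Fin 3 → Set ℝ, (∀ j, s j ⊆ Icc (-(1 / 2)) (1 / 2)) →
      IntegrableOn f (univ.pi s) := fun s hs =>
    (IntegrableOn.of_bound (by
      rw [volume_pi_pi]; simp [Real.volume_Icc]) hm.aestronglyMeasurable C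
      (ae_of_all _ fun x => (Real.norm_eq_abs _).trans_le (hC x))).mono_set
      (pi_mono fun j _ => hs j)
  set s0 : Fin 3 → Set ℝ := fun _ => Icc (-(1 / 2) : ℝ) (1 / 2) with hs0
  set s1 := Function.update s0 0 (Icc (0 : ℝ) (1 / 2)) with hs1
  set s2 := Function.update s1 1 (Icc (0 : ℝ) (1 / 2)) with hs2
  have hlast : Function.update s2 2 (Icc (0 : ℝ) (1 / 2)) = fun _ => Icc (0 : ℝ) (1 / 2) := by
    funext j
    fin_cases j <;> simp [hs2, hs1, Function.update]
  have hsub : Icc (0 : ℝ) (1 / 2) ⊆ Icc (-(1 / 2)) (1 / 2) := Icc_subset_Icc (by norm_num) le_rfl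
  have hsub1 : ∀ j, s1 j ⊆ Icc (-(1 / 2)) (1 / 2) := fun j => by
    simp only [hs1, hs0, Function.update_apply]
    split_ifs
    exacts [hsub, Subset.rfl]
  have hsub2 : ∀ j, s2 j ⊆ Icc (-(1 / 2)) (1 / 2) := fun j => by
    simp only [hs2, Function.update_apply]
    split_ifs
    exacts [hsub, hsub1 j]
  have hm0 : ∀ j, MeasurableSet (s0 j) := fun _ => measurableSet_Icc
  have hm1 : ∀ j, MeasurableSet (s1 j) := fun j => by
    simp only [hs1, hs0, Function.update_apply]
    split_ifs <;> exact measurableSet_Icc
  have hm2 : ∀ j, MeasurableSet (s2 j) := fun j => by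
    simp only [hs2, Function.update_apply]
    split_ifs
    exacts [measurableSet_Icc, hm1 j]
  rw [h0, setIntegral_halve 0 (hsymm 0) s0 hm0 rfl (hint s0 fun _ => Subset.rfl), ← hs1,
    setIntegral_halve 1 (hsymm 1) s1 hm1 (by simp [hs1, hs0]) (hint s1 hsub1), ← hs2,
    setIntegral_halve 2 (hsymm 2) s2 hm2 (by simp [hs2, hs1, hs0, Function.update])
      (hint s2 hsub2), hlast]
  simp only [octant]
  ring

theorem integral_box_half (f : R3 → ℝ) :
    ∫ x in box, f ((1 / 2 : ℝ) • x) = 8 * ∫ x in octant, f x := by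
  rw [Measure.setIntegral_comp_smul_of_pos volume f box (by norm_num : (0 : ℝ) < 1 / 2)]
  have hset : (1 / 2 : ℝ) • box = octant := by
    ext x
    rw [mem_smul_set_iff_inv_smul_mem₀ (by norm_num)]
    simp only [box, octant, mem_univ_pi, mem_Icc, Pi.le_def, Pi.smul_apply, smul_eq_mul,
      Pi.zero_apply, Pi.one_apply, ← forall_and]
    refine forall_congr' fun j => ?_
    rw [show ((1 : ℝ) / 2)⁻¹ = 2 by norm_num]
    constructor <;> rintro ⟨h₁, h₂⟩ <;> constructor <;> linarith
  rw [hset, Module.finrank_fintype_fun_eq_card, Fintype.card_fin, smul_eq_mul]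
  norm_num

/-- A symmetric decreasing function is invariant under the reflections in the planes `x i = 0`. -/
theorem IsSymmDecreasing.refl_eq {v : R3 → ℝ} (hv : IsSymmDecreasing v) (hp : IsPeriodicFun v)
    (i : Fin 3) (x : R3) : v (refl i 0 x) = v x := by
  have key : ∀ y : R3, |y i| ≤ 1 / 2 → v (refl i 0 y) = v y := fun y hy => by
    have hr : refl i 0 y = Function.update y i (-(y i)) := by
      funext j
      by_cases hj : j = i
      · subst hj; simp [refl_apply]
      · simp [refl_apply, hj]
    have h1 := hv i y (y i) (-(y i)) (abs_neg _).ge ((abs_neg _).trans_le hy)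
    have h2 := hv i y (-(y i)) (y i) (abs_neg _).le hy
    rw [Function.update_eq_self] at h1 h2
    rw [hr]
    exact le_antisymm h1 h2
  obtain ⟨y, hy, hxy⟩ := (show IsPeriodicFun fun z => v (refl i 0 z) - v z from fun z j => by
    show v (refl i 0 (z + unit j)) - v (z + unit j) = _
    rw [show v (refl i 0 (z + unit j)) = v (refl i 0 z) from (hp.refl i 0) z j, hp z j]).exists_cell x
  rw [← sub_eq_zero]
  refine hxy.trans ?_
  have hyi := mem_univ_pi.1 hy i
  rcases le_or_gt (y i) (1 / 2) with h | h
  · exact sub_eq_zero.2 (key y (by rw [abs_of_nonneg hyi.1]; exact h))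
  · have h1 := (hp.refl i 0) (y - unit i) i
    have h2 := hp (y - unit i) i
    simp only [sub_add_cancel] at h1 h2
    rw [h1, h2, sub_eq_zero]
    refine key _ ?_
    simp only [Pi.sub_apply, unit_apply, if_true]
    rw [abs_of_nonpos (by linarith [hyi.2])]
    linarith

theorem IsSymmDecreasing.antitone_half {v : R3 → ℝ} (hv : IsSymmDecreasing v) {x y : R3}
    (hx : x ∈ box) (hy : y ∈ box) (hyx : y ≤ x) :
    v ((1 / 2 : ℝ) • x) ≤ v ((1 / 2 : ℝ) • y) := by
  set X := (1 / 2 : ℝ) • x
  set Y := (1 / 2 : ℝ) • y with hY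
  have hb : ∀ j, 0 ≤ Y j ∧ Y j ≤ X j ∧ X j ≤ 1 / 2 := fun j => by
    have h1 := hy.1 j
    have h2 := hyx j
    have h3 := hx.2 j
    simp only [Pi.zero_apply, Pi.one_apply] at h1 h3
    simp only [X, Y, Pi.smul_apply, smul_eq_mul]
    exact ⟨by linarith, by linarith, by linarith⟩
  have step : ∀ (Z : R3) (j : Fin 3), Z j = X j → v Z ≤ v (Function.update Z j (Y j)) :=
    fun Z j hZ => by
      obtain ⟨h1, h2, h3⟩ := hb j
      have h := hv j Z (Y j) (X j) (by rw [abs_of_nonneg h1, abs_of_nonneg (h1.trans h2)]; exact h2)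
        (by rw [abs_of_nonneg (h1.trans h2)]; exact h3)
      rwa [← hZ, Function.update_eq_self] at h
  calc v X ≤ v (Function.update X 0 (Y 0)) := step X 0 rfl
    _ ≤ v (Function.update (Function.update X 0 (Y 0)) 1 (Y 1)) := step _ 1 (by simp)
    _ ≤ v (Function.update (Function.update (Function.update X 0 (Y 0)) 1 (Y 1)) 2 (Y 2)) :=
        step _ 2 (by simp)
    _ = v Y := by
        congr 1
        funext j
        fin_cases j <;> simp [Function.update]

/-- The reduction. -/
theorem reduction : ReductionSpec := by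
  intro E hE hfin ε hε
  set P := (perimeter E).toReal with hPdef
  have hP : 0 ≤ P := ENNReal.toReal_nonneg
  set δ := min (1 / 4) (ε / (4 * (P + 1))) with hδdef
  have hδ : 0 < δ := lt_min (by norm_num) (by positivity)
  have hδ4 : δ ≤ 1 / 4 := min_le_left _ _
  have hδP : 4 * δ * (P + 1) ≤ ε := by
    have : δ ≤ ε / (4 * (P + 1)) := min_le_right _ _
    rw [le_div_iff₀ (by positivity)] at this
    linarith
  obtain ⟨u, L, huL, hup, hu01, huV, huQ, huP⟩ :=
    hE.exists_smooth_approx hfin (ε := ε * δ / 2) (by positivity)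
  obtain ⟨v, ⟨hvL, hvp, hv01⟩, hsd, hA, hQ, hM⟩ := exists_symmDecreasing (L := L) ⟨huL, hup, hu01⟩
  set w : R3 → ℝ := fun x => v ((1 / 2 : ℝ) • x) with hw
  have hwL : LipschitzWith L w := by
    refine LipschitzWith.of_dist_le_mul fun x y => (hvL.dist_le_mul _ _).trans ?_
    rw [dist_smul₀]
    gcongr
    calc ‖(1 / 2 : ℝ)‖ * dist x y ≤ 1 * dist x y := by gcongr; norm_num
      _ = dist x y := one_mul _
  have hrefl := hsd.refl_eq hvp
  have hgsymm : ∀ i, ∀ᵐ x, gradNorm v (refl i 0 x) = gradNorm v x := fun i => by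
    filter_upwards [(measurePreserving_refl i 0).quasiMeasurePreserving.ae
      (hvL.ae_differentiableAt (μ := volume))] with x hx
    rw [← gradNorm_comp_refl hx, show (fun z => v (refl i 0 z)) = v from funext (hrefl i)]
  have hgw : ∀ᵐ x, gradNorm w x = gradNorm v ((1 / 2 : ℝ) • x) / 2 := by
    filter_upwards [(Measure.quasiMeasurePreserving_smul volume (r := (1 / 2 : ℝ)) (by norm_num)).ae
      (hvL.ae_differentiableAt (μ := volume))] with x hx
    have hd : HasFDerivAt w ((fderiv ℝ v ((1 / 2 : ℝ) • x)).comp
        ((1 / 2 : ℝ) • ContinuousLinearMap.id ℝ R3)) x :=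
      hx.hasFDerivAt.comp x ((hasFDerivAt_id x).const_smul (1 / 2 : ℝ))
    simp only [gradNorm, pd, hd.fderiv, ContinuousLinearMap.comp_apply, FunLike.coe_smul,
      Pi.smul_apply, ContinuousLinearMap.id_apply, map_smul, smul_eq_mul, mul_pow, ← Finset.mul_sum]
    rw [Real.sqrt_mul (by norm_num), Real.sqrt_sq (by norm_num)]
    ring
  have hI : ∫ x in box, gradNorm w x = (∫ x in cell, gradNorm v x) / 2 := by
    rw [integral_congr_ae (ae_restrict_of_ae hgw), integral_div, integral_box_half,
      setIntegral_cell_eq_octant (pd_periodic_gradNorm hvp) (measurable_gradNorm v) (3 * L)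
        (fun x => by rw [abs_of_nonneg (gradNorm_nonneg v x)]; exact gradNorm_le hvL x) hgsymm]
  have hcomp : ∀ {φ : ℝ → ℝ}, Continuous φ →
      ∫ x in box, φ (w x) = ∫ x in cell, φ (v x) := fun {φ} hφ => by
    obtain ⟨C, hC⟩ := (hvp.comp φ).exists_bound (hφ.comp hvL.continuous)
    rw [setIntegral_cell_eq_octant (hvp.comp φ) (hφ.comp hvL.continuous).measurable C hC
      fun i => ae_of_all _ fun x => congrArg φ (hrefl i x)]
    exact integral_box_half fun z => φ (v z)
  obtain ⟨D, hD, hvol⟩ := exists_reduced_level hwL (fun x => hv01 _)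
    (fun x hx y hy hyx => hsd.antitone_half hx hy hyx) hδ (by linarith)
  refine ⟨D, _, hD, ?_, ?_⟩
  · rw [hcomp (φ := fun t => t) continuous_id,
      hcomp (φ := fun t => t * (1 - t)) (by fun_prop), hA, hQ] at hvol
    have h2 : (∫ x in cell, u x * (1 - u x)) / δ ≤ ε / 2 := by
      rw [div_le_iff₀ hδ]; linarith
    have h3 : ε * δ / 2 ≤ ε / 2 := by nlinarith
    calc |boxVolume D - torusVolume E|
        ≤ |boxVolume D - ∫ x in cell, u x| + |(∫ x in cell, u x) - torusVolume E| :=
          abs_sub_le _ _ _
      _ < ε := by linarith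
  · rw [hI]
    have h1 : ∫ x in cell, gradNorm v x ≤ P := hM.trans huP
    have h4 : 2 * ((∫ x in cell, gradNorm v x) / 2 / (1 - 2 * δ)) ≤ P / (1 - 2 * δ) := by
      rw [← mul_div_assoc, mul_div_cancel₀ _ (two_ne_zero (α := ℝ))]
      exact div_le_div_of_nonneg_right h1 (by linarith)
    refine h4.trans ?_
    rw [div_le_iff₀ (by linarith)]
    nlinarith

theorem continuous_candidate : Continuous candidate := by
  unfold candidate
  have hmin : Continuous fun V : ℝ => min V (1 - V) := by fun_prop
  have h23 : Continuous fun V : ℝ => min V (1 - V) ^ ((2 : ℝ) / 3) :=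
    (Real.continuous_rpow_const (by norm_num)).comp hmin
  fun_prop

/-- A lower bound for reduced sets near a volume bounds the perimeter from below at that volume. -/
theorem candidate_le_perimeter_of_eventually {V : ℝ} (h : ∀ᶠ W in 𝓝 V, ReducedBoundAt W)
    {E : Set R3} (hE : IsTorusSet E) (hV : torusVolume E = V) :
    ENNReal.ofReal (candidate V) ≤ perimeter E := by
  rcases eq_or_ne (perimeter E) ⊤ with htop | hfin
  · rw [htop]; exact le_top
  rw [← ENNReal.ofReal_toReal hfin]
  refine ENNReal.ofReal_le_ofReal (le_of_forall_pos_le_add fun ε hε => ?_)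
  obtain ⟨η, hη, hη'⟩ := Metric.eventually_nhds_iff.1 h
  obtain ⟨η₂, hη₂, hη₂'⟩ := Metric.continuous_iff.1 continuous_candidate V (ε / 2) (half_pos hε)
  obtain ⟨D, M, hD, hvol, hM⟩ := reduction E hE hfin (min (min η η₂) (ε / 2)) (by positivity)
  rw [hV] at hvol
  have hd : dist (boxVolume D) V < min (min η η₂) (ε / 2) := by rwa [Real.dist_eq]
  have h1 : candidate (boxVolume D) ≤ 2 * M :=
    hη' (hd.trans_le ((min_le_left _ _).trans (min_le_left _ _))) D M hD rfl
  have h2 := hη₂' _ (hd.trans_le ((min_le_left _ _).trans (min_le_right _ _)))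
  rw [Real.dist_eq, abs_lt] at h2
  have h3 := min_le_right (min η η₂) (ε / 2)
  linarith

/-- The same as a lower bound for the profile. -/
theorem candidate_le_profile_of_eventually {V : ℝ} (h : ∀ᶠ W in 𝓝 V, ReducedBoundAt W) :
    ENNReal.ofReal (candidate V) ≤ profile V :=
  le_iInf fun _ => le_iInf fun hE => le_iInf fun hV =>
    candidate_le_perimeter_of_eventually h hE hV

/-- If the bound holds on the open interval, the profile is bounded below there. -/
theorem candidate_le_profile_of_forall (h : ∀ W ∈ Ioo (0 : ℝ) 1, ReducedBoundAt W) {V : ℝ}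
    (hV : V ∈ Ioo (0 : ℝ) 1) : ENNReal.ofReal (candidate V) ≤ profile V :=
  candidate_le_profile_of_eventually (eventually_of_mem (isOpen_Ioo.mem_nhds hV) h)

end Vale.Agent.P232
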