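import Vale.Agent.P232.Reduction
import Vale.Agent.P232.UpperBound

/-!
# P232: a reduced set unfolds to a torus set, so a bound on the profile bounds reduced sets
-/

open MeasureTheory Set Filter
open scoped ENNReal Real Topology

noncomputable section

namespace Vale.Agent.P232

/-- The torus set with octant `D / 2`, reflected in the coordinate planes. -/
def unfold (D : Set R3) : Set R3 := {x | (fun i => 2 * intDist (x i)) ∈ D}

theorem intDist_neg (t : ℝ) : intDist (-t) = intDist t := by
  have key : ∀ t, intDist (-t) ≤ intDist t := fun t => by
    refine (round_le (-t) (-round t)).trans_eq ?_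
    simp only [intDist, Int.cast_neg, neg_sub_neg]
    exact abs_sub_comm _ _
  exact le_antisymm (key t) (by simpa using key (-t))

theorem measurable_intDist : Measurable intDist :=
  (LipschitzWith.of_dist_le_mul (K := 1) fun s t => by
    simpa [Real.dist_eq] using abs_intDist_sub s t).continuous.measurable

theorem isTorusSet_unfold {D : Set R3} (hD : MeasurableSet D) : IsTorusSet (unfold D) := by
  refine ⟨hD.preimage (measurable_pi_lambda _ fun i =>
    (measurable_intDist.comp (measurable_pi_apply i)).const_mul 2), fun x i => ?_⟩
  simp only [unfold, mem_setOf_eq]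
  rw [show (fun j => 2 * intDist ((x + unit i) j)) = fun j => 2 * intDist (x j) from funext fun j => by
    by_cases h : j = i
    · subst h; simp [unit_apply, intDist_add_one]
    · simp [unit_apply, h]]

theorem refl_mem_unfold {D : Set R3} (i : Fin 3) (x : R3) :
    refl i 0 x ∈ unfold D ↔ x ∈ unfold D := by
  simp only [unfold, mem_setOf_eq]
  rw [show (fun j => 2 * intDist (refl i 0 x j)) = fun j => 2 * intDist (x j) from funext fun j => by
    by_cases h : j = i
    · subst h; simp [refl_apply, intDist_neg]
    · simp [refl_apply, h]]

theorem half_mem_unfold {D : Set R3} {z : R3} (hz : z ∈ box) :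
    (1 / 2 : ℝ) • z ∈ unfold D ↔ z ∈ D := by
  simp only [unfold, mem_setOf_eq]
  rw [show (fun j => 2 * intDist (((1 / 2 : ℝ) • z) j)) = z from funext fun j => by
    simp only [Pi.smul_apply, smul_eq_mul]
    have h0 : 0 ≤ z j := hz.1 j
    have h1 : z j ≤ 1 := hz.2 j
    rw [intDist_eq_abs (by rw [abs_le]; constructor <;> linarith), abs_of_nonneg (by linarith)]
    ring]

/-- Integrals of symmetric functions over the unfolded set. -/
theorem setIntegral_unfold {D : Set R3} (hD : MeasurableSet D) (hsub : D ⊆ box) {f : R3 → ℝ}
    (hf : IsPeriodicFun f) (hm : Measurable f) (C : ℝ) (hC : ∀ x, |f x| ≤ C)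
    (hsymm : ∀ i x, f (refl i 0 x) = f x) :
    ∫ x in cell ∩ unfold D, f x = ∫ z in D, f ((1 / 2 : ℝ) • z) := by
  have hU := (isTorusSet_unfold hD)
  have hper : IsPeriodicFun ((unfold D).indicator f) := fun x i => by
    by_cases h : x ∈ unfold D
    · rw [indicator_of_mem h, indicator_of_mem ((hU.periodic x i).2 h), hf]
    · rw [indicator_of_notMem h, indicator_of_notMem (fun h' => h ((hU.periodic x i).1 h'))]
  have hsy : ∀ i, ∀ᵐ x, (unfold D).indicator f (refl i 0 x) = (unfold D).indicator f x :=
    fun i => ae_of_all _ fun x => by
      by_cases h : x ∈ unfold D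
      · rw [indicator_of_mem h, indicator_of_mem ((refl_mem_unfold i x).2 h), hsymm]
      · rw [indicator_of_notMem h, indicator_of_notMem (fun h' => h ((refl_mem_unfold i x).1 h'))]
  rw [← setIntegral_indicator hU.measurable,
    setIntegral_cell_eq_octant hper (hm.indicator hU.measurable) C (fun x => by
      by_cases h : x ∈ unfold D
      · rw [indicator_of_mem h]; exact hC x
      · rw [indicator_of_notMem h, abs_zero]; exact (abs_nonneg _).trans (hC x)) hsy,
    ← integral_box_half, ← inter_eq_right.2 hsub, ← setIntegral_indicator hD,
    inter_eq_right.2 hsub]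
  refine setIntegral_congr_fun measurableSet_box fun z hz => ?_
  by_cases h : z ∈ D
  · rw [indicator_of_mem h, indicator_of_mem ((half_mem_unfold hz).2 h)]
  · rw [indicator_of_notMem h, indicator_of_notMem (fun h' => h ((half_mem_unfold hz).1 h'))]

theorem torusVolume_unfold {D : Set R3} (hD : MeasurableSet D) (hsub : D ⊆ box) :
    torusVolume (unfold D) = boxVolume D := by
  have := setIntegral_unfold hD hsub (f := fun _ => (1 : ℝ)) (fun _ _ => rfl) measurable_const 1
    (fun _ => by simp) (fun _ _ => rfl)
  simpa [torusVolume, boxVolume] using this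

/-- The sign of the component `j` of a field reflected in `x i = 0`. -/
def parity (i j : Fin 3) : ℝ := if j = i then -1 else 1

/-- The average of a field and its reflection in `x i = 0`. -/
def symField (i : Fin 3) (X : Fin 3 → R3 → ℝ) : Fin 3 → R3 → ℝ :=
  fun j x => (X j x + parity i j * X j (refl i 0 x)) / 2

theorem parity_sq (i j : Fin 3) : parity i j * parity i j = 1 := by
  unfold parity; split_ifs <;> norm_num

theorem isTestField_symField {X : Fin 3 → R3 → ℝ} (hX : IsTestField X) (i : Fin 3) :
    IsTestField (symField i X) := by
  refine ⟨fun j => ?_, fun j x k => ?_, fun x => ?_⟩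
  · have : ContDiff ℝ 1 (refl i 0) := by unfold refl; fun_prop
    exact ((hX.smooth j).add (contDiff_const.mul ((hX.smooth j).comp this))).div_const 2
  · have h1 := (hX.periodic j).refl i 0 x k
    simp only [symField, hX.periodic j x k]
    simp only at h1
    rw [h1]
  · have h1 := hX.bound x
    have h2 := hX.bound (refl i 0 x)
    simp only [Fin.sum_univ_three] at h1 h2 ⊢
    simp only [symField]
    have e : ∀ j, ((X j x + parity i j * X j (refl i 0 x)) / 2) ^ 2 ≤
        (X j x ^ 2 + X j (refl i 0 x) ^ 2) / 2 := fun j => by
      have hp := parity_sq i j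
      nlinarith [sq_nonneg (X j x - parity i j * X j (refl i 0 x))]
    linarith [e 0, e 1, e 2]

theorem symField_parity (i : Fin 3) (X : Fin 3 → R3 → ℝ) (j : Fin 3) (x : R3) :
    symField i X j (refl i 0 x) = parity i j * symField i X j x := by
  simp only [symField, refl_refl]
  linear_combination (-(X j (refl i 0 x) / 2)) * parity_sq i j

theorem symField_parity_of {k : Fin 3} {X : Fin 3 → R3 → ℝ}
    (h : ∀ j x, X j (refl k 0 x) = parity k j * X j x) (i : Fin 3) (j : Fin 3) (x : R3) :
    symField i X j (refl k 0 x) = parity k j * symField i X j x := by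
  have hcomm : refl i 0 (refl k 0 x) = refl k 0 (refl i 0 x) := by
    funext l
    by_cases hl : l = i <;> by_cases hk : l = k <;> simp [refl_apply, hl, hk] <;> simp_all
  simp only [symField, hcomm, h]
  ring

theorem divergence_symField {X : Fin 3 → R3 → ℝ} (hX : IsTestField X) (i : Fin 3) (x : R3) :
    divergence (symField i X) x = (divergence X x + divergence X (refl i 0 x)) / 2 := by
  simp only [divergence, ← Finset.sum_add_distrib, Finset.sum_div]
  refine Finset.sum_congr rfl fun j _ => ?_
  have hd := ((hX.smooth j).differentiable one_ne_zero (refl i 0 x)).hasFDerivAt.comp x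
    (hasFDerivAt_refl i 0 x)
  have h := (((hX.smooth j).differentiable one_ne_zero x).hasFDerivAt.add
    (hd.const_mul (parity i j))).const_mul (2 : ℝ)⁻¹
  have he : symField i X j = fun y => (2 : ℝ)⁻¹ * (X j y + parity i j * X j (refl i 0 y)) :=
    funext fun y => by simp only [symField]; ring
  simp only [pd, he]
  rw [show fderiv ℝ (fun y => (2 : ℝ)⁻¹ * (X j y + parity i j * X j (refl i 0 y))) x = _ from
    h.fderiv]
  by_cases hj : j = i
  · subst hj
    simp [parity, unit_apply]
    ring
  · simp [parity, hj, Ne.symm hj, unit_apply]
    ring

theorem integral_div_symField {D : Set R3} (hD : MeasurableSet D) {X : Fin 3 → R3 → ℝ}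
    (hX : IsTestField X) (i : Fin 3) :
    ∫ x in cell ∩ unfold D, divergence (symField i X) x =
      ∫ x in cell ∩ unfold D, divergence X x := by
  have hU := isTorusSet_unfold hD
  have hper : IsPeriodicFun ((unfold D).indicator (divergence X)) := fun x k => by
    have hdp : divergence X (x + unit k) = divergence X x :=
      Finset.sum_congr rfl fun j _ => (hX.periodic j).pd j x k
    by_cases h : x ∈ unfold D
    · rw [indicator_of_mem h, indicator_of_mem ((hU.periodic x k).2 h), hdp]
    · rw [indicator_of_notMem h, indicator_of_notMem (fun h' => h ((hU.periodic x k).1 h'))]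
  have hc := continuous_divergence hX.smooth
  have i1 : IntegrableOn (divergence X) (cell ∩ unfold D) :=
    (integrableOn_cell_of_continuous hc).mono_set inter_subset_left
  have i2 : IntegrableOn (fun x => divergence X (refl i 0 x)) (cell ∩ unfold D) :=
    (integrableOn_cell_of_continuous (hc.comp (continuous_refl i 0))).mono_set inter_subset_left
  have heq : ∫ x in cell ∩ unfold D, divergence X (refl i 0 x) =
      ∫ x in cell ∩ unfold D, divergence X x := by
    rw [← setIntegral_indicator hU.measurable, ← setIntegral_indicator hU.measurable,
      ← setIntegral_cell_refl hper i 0]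
    refine setIntegral_congr_fun measurableSet_cell fun x _ => ?_
    by_cases h : x ∈ unfold D
    · rw [indicator_of_mem h, indicator_of_mem ((refl_mem_unfold i x).2 h)]
    · rw [indicator_of_notMem h, indicator_of_notMem (fun h' => h ((refl_mem_unfold i x).1 h'))]
  simp only [divergence_symField hX i]
  rw [integral_div, integral_add i1 i2, heq]
  ring

/-- The unfolded set of a reduced set has perimeter at most `2 M`. -/
theorem perimeter_unfold_le {D : Set R3} {M : ℝ} (h : IsReduced D M) :
    perimeter (unfold D) ≤ ENNReal.ofReal (2 * M) := by
  refine iSup₂_le fun X hX => ENNReal.ofReal_le_ofReal ?_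
  set X1 := symField 0 X
  set X2 := symField 1 X1
  set Y := symField 2 X2
  have h1 : IsTestField X1 := isTestField_symField hX 0
  have h2 : IsTestField X2 := isTestField_symField h1 1
  have hY : IsTestField Y := isTestField_symField h2 2
  have hpar : ∀ k j x, Y j (refl k 0 x) = parity k j * Y j x := fun k => by
    fin_cases k
    · exact fun j x => symField_parity_of (fun j x => symField_parity_of
        (fun j x => symField_parity 0 X j x) 1 j x) 2 j x
    · exact fun j x => symField_parity_of (fun j x => symField_parity 1 X1 j x) 2 j x
    · exact fun j x => symField_parity 2 X2 j x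
  rw [← integral_div_symField h.measurable hX 0, ← integral_div_symField h.measurable h1 1,
    ← integral_div_symField h.measurable h2 2]
  obtain ⟨C, hC⟩ := (show IsPeriodicFun (divergence Y) from fun x k =>
    Finset.sum_congr rfl fun j _ => (hY.periodic j).pd j x k).exists_bound
      (continuous_divergence hY.smooth)
  have hsym : ∀ i x, divergence Y (refl i 0 x) = divergence Y x := fun i x => by
    have e : symField i Y = Y := funext fun j => funext fun z => by
      simp only [symField, hpar]
      linear_combination (Y j z / 2) * parity_sq i j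
    have h' := divergence_symField hY i x
    rw [e] at h'
    linarith
  rw [setIntegral_unfold h.measurable h.subset (f := divergence Y)
    (fun x k => Finset.sum_congr rfl fun j _ => (hY.periodic j).pd j x k)
    (continuous_divergence hY.smooth).measurable C hC hsym]
  set Z : Fin 3 → R3 → ℝ := fun j z => Y j ((1 / 2 : ℝ) • z) with hZ
  have hZs : ∀ j, ContDiff ℝ 1 (Z j) := fun j =>
    (hY.smooth j).comp (contDiff_const_smul (1 / 2 : ℝ))
  have hZd : ∀ z, divergence Z z = divergence Y ((1 / 2 : ℝ) • z) / 2 := fun z => by
    simp only [divergence, Finset.sum_div]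
    refine Finset.sum_congr rfl fun j _ => ?_
    have hd : HasFDerivAt (Z j) ((fderiv ℝ (Y j) ((1 / 2 : ℝ) • z)).comp
        ((1 / 2 : ℝ) • ContinuousLinearMap.id ℝ R3)) z :=
      ((hY.smooth j).differentiable one_ne_zero _).hasFDerivAt.comp z
        ((hasFDerivAt_id z).const_smul (1 / 2 : ℝ))
    simp only [pd, hd.fderiv, ContinuousLinearMap.comp_apply, FunLike.coe_smul, Pi.smul_apply,
      ContinuousLinearMap.id_apply, map_smul, smul_eq_mul]
    ring
  have hflux : flux D Z = 0 := by
    have hface : ∀ (j : Fin 3) (c : ℝ), c = 0 ∨ c = 1 → ∀ y, Z j (facePoint j c y) = 0 := by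
      intro j c hc y
      set x : R3 := (1 / 2 : ℝ) • facePoint j c y
      have hx : x j = c / 2 := by simp [x, facePoint]; ring
      have key : Y j (refl j 0 x) = Y j x := by
        rcases hc with hc | hc
        · congr 1
          funext l
          by_cases hl : l = j
          · subst hl; simp [refl_apply, hx, hc]
          · simp [refl_apply, hl]
        · rw [← hY.periodic j (refl j 0 x) j]
          congr 1
          funext l
          by_cases hl : l = j
          · subst hl; simp [refl_apply, unit_apply, hx, hc]; norm_num
          · simp [refl_apply, unit_apply, hl]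
      rw [hpar] at key
      show Y j x = 0
      simp [parity] at key
      linarith
    simp only [flux, hface _ 1 (Or.inr rfl), hface _ 0 (Or.inl rfl)]
    simp
  have hb := h.bound Z hZs (fun z _ => hY.bound _)
  rw [hflux, add_zero] at hb
  simp only [hZd] at hb
  rw [integral_div] at hb
  linarith

/-- A lower bound on the profile bounds reduced sets. -/
theorem reducedBoundAt_of_profile {V : ℝ}
    (h : ENNReal.ofReal (candidate V) ≤ profile V) : ReducedBoundAt V := by
  intro D M hD hvol
  have hM : 0 ≤ M := by
    have := hD.bound (fun _ _ => 0) (fun _ => contDiff_const) (fun _ _ => by simp)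
    simpa [flux, divergence, pd] using this
  have h' := h.trans ((profile_le_of_set (isTorusSet_unfold hD.measurable)
    ((torusVolume_unfold hD.measurable hD.subset).trans hvol) (perimeter_unfold_le hD)).1)
  rwa [ENNReal.ofReal_le_ofReal_iff (by positivity)] at h'

end Vale.Agent.P232
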