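import Vale.Agent.P232.Subgraph
import Vale.Agent.P232.Slicing.Len

/-!
# P232: the test-polygon length bounds every flux
-/

open MeasureTheory Set Filter
open scoped ENNReal Real Topology

noncomputable section

namespace Vale.Agent.P232

variable {f : ℝ → ℝ}

theorem isHeight_of_antitone (hf : Antitone f) (hf01 : ∀ x, f x ∈ Icc (0 : ℝ) 1) : IsHeight f :=
  ⟨hf.antitoneOn _, fun x _ => hf01 x⟩

/-- `Slicing.len` bounds the fluxes of all fields. -/
theorem lenGe_len (hf : Antitone f) (hf01 : ∀ x, f x ∈ Icc (0 : ℝ) 1) :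
    LenGe f (Slicing.len f) := by
  intro a g b₀ ha hg hab
  have hh := isHeight_of_antitone hf hf01
  have hY : Tendsto f (𝓝[>] 0) (𝓝 (leftHeight f)) :=
    (hf.antitoneOn _).tendsto_nhdsWithin_Ioo_right (nonempty_Ioo.2 zero_lt_one) hh.bdd_image.1
  have hu : Tendsto f (𝓝[<] 1) (𝓝 (rightHeight f)) :=
    (hf.antitoneOn _).tendsto_nhdsWithin_Ioo_left (nonempty_Ioo.2 zero_lt_one) hh.bdd_image.2
  have h := Slicing.flux_le_len hf hf01 (b := fun x => b₀ + ∫ t in (0 : ℝ)..x, g t) ha hab
    (hg.intervalIntegrable 0 1) (fun x _ => by simp) hY hu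
  have hw := IsHeight.topWidth_mem (f := f)
  have hX := IsHeight.botWidth_mem (f := f)
  have hwX := IsHeight.topWidth_le (f := f)
  have key : ∫ x in (0 : ℝ)..1, a x * Slicing.inI (f x) =
      ∫ x in topWidth f..botWidth f, a x := by
    rw [intervalIntegral.integral_of_le zero_le_one, intervalIntegral.integral_of_le hwX]
    rw [integral_Ioc_eq_integral_Ioo, integral_Ioc_eq_integral_Ioo]
    rw [setIntegral_eq_of_subset_of_ae_sdiff_eq_zero measurableSet_Ioo.nullMeasurableSet
      (Ioo_subset_Ioo hw.1 hX.2) ?_]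
    · refine setIntegral_congr_fun measurableSet_Ioo fun x hx => ?_
      have hx01 : x ∈ Ioo (0 : ℝ) 1 := ⟨hw.1.trans_lt hx.1, hx.2.trans_le hX.2⟩
      have h1 : f x < 1 := by
        by_contra hcon
        exact hx.1.not_ge (le_csSup (IsHeight.bdd _)
          (mem_insert_of_mem _ ⟨hx01, not_lt.1 hcon⟩))
      have h0 : 0 < f x := by
        obtain ⟨y, hy, hxy⟩ := exists_lt_of_lt_csSup (insert_nonempty _ _) hx.2
        rcases hy with rfl | hy
        · exact absurd hxy hx01.1.not_gt
        · exact hy.2.trans_le (hf hxy.le)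
      simp [Slicing.inI, h0, h1]
    · filter_upwards [Measure.ae_ne volume (topWidth f), Measure.ae_ne volume (botWidth f)]
        with x hxw hxX hx
      obtain ⟨h01, hn⟩ := hx
      rcases lt_or_gt_of_ne hxw with h' | h'
      · simp [Slicing.inI, hh.eq_one h01.1 h']
      · rcases lt_or_gt_of_ne hxX with h'' | h''
        · exact absurd ⟨h', h''⟩ hn
        · simp [Slicing.inI, hh.eq_zero h'' h01.2]
  have e : ∫ x in (0 : ℝ)..1, g x * f x = ∫ x in (0 : ℝ)..1, f x * g x := by
    simp_rw [mul_comm]
  simp only [intervalIntegral.integral_same, add_zero] at h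
  rw [key, e] at h
  rw [fieldFlux]
  linarith

variable {D : Set R3} {i j : Fin 3}

/-- In a band-free direction the length of every slice is at least `√(π min (A, 1 - A))`. -/
theorem sqrt_le_len (hdown : ∀ x ∈ D, ∀ y ∈ box, y ≤ x → y ∈ D) (hij : BandFreeAxes D i j) {c : ℝ}
    (hc : c ∈ Ioo (0 : ℝ) 1) :
    Real.sqrt (π * min (sliceArea D i j c) (1 - sliceArea D i j c)) ≤
      Slicing.len (heightExt D i j c) := by
  set F := heightExt D i j c with hF
  have hFa : Antitone F := antitone_heightExt hdown c
  have hl := lenGe_len hFa (heightExt_mem D i j c)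
  have hc' := Ioo_subset_Icc_self hc
  have e : ∀ x ∈ Icc (0 : ℝ) 1, F x = height D i j c x := fun x hx => heightExt_of_mem hc' hx
  have e1 : topWidth F = topWidth (height D i j c) := by
    unfold topWidth
    congr 2; ext x
    exact and_congr_right fun hx => by rw [e x (Ioo_subset_Icc_self hx)]
  have e2 : botWidth F = botWidth (height D i j c) := by
    unfold botWidth
    congr 2; ext x
    exact and_congr_right fun hx => by rw [e x (Ioo_subset_Icc_self hx)]
  have e3 : F '' Ioo 0 1 = height D i j c '' Ioo 0 1 :=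
    image_congr fun x hx => e x (Ioo_subset_Icc_self hx)
  have hl' : LenGe (height D i j c) (Slicing.len F) := by
    intro a g b₀ ha hg hab
    refine le_trans (le_of_eq ?_) (hl a g b₀ ha hg hab)
    unfold fieldFlux leftHeight rightHeight
    rw [e1, e2, e3]
    congr 3
    refine intervalIntegral.integral_congr fun x hx => ?_
    rw [uIcc_of_le zero_le_one] at hx
    simp only [e x hx]
  have hA : ∫ x in (0 : ℝ)..1, height D i j c x = sliceArea D i j c := by
    refine intervalIntegral.integral_congr fun x hx => ?_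
    rw [uIcc_of_le zero_le_one] at hx
    exact (e x hx).symm
  rw [← hA]
  exact sqrt_le_of_bandFreeAxes hdown hij hc hl'

end Vale.Agent.P232
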