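import Vale.Agent.P232.Torus

/-!
# P232: mollification of periodic functions

The mollification of the indicator of a set of finite perimeter is smooth, periodic, with values in
`[0,1]`, and the integral of its gradient is at most the perimeter. For a Lipschitz function the
dual total variation dominates the integral of the gradient.
-/

open MeasureTheory Set Filter Topology
open scoped ENNReal NNReal Real

noncomputable section

namespace Vale.Agent.P232

/-- Bumps shrinking to the origin. -/
def bump (n : ℕ) : ContDiffBump (0 : R3) :=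
  ⟨1 / (n + 1 : ℝ), 2 / (n + 1 : ℝ), by positivity, by
    rw [div_lt_div_iff_of_pos_right (by positivity)]; norm_num⟩

/-- The kernels of mollification. -/
def kernel (n : ℕ) : R3 → ℝ := (bump n).normed volume

theorem kernel_nonneg (n : ℕ) (y : R3) : 0 ≤ kernel n y := (bump n).nonneg_normed y

theorem integrable_kernel (n : ℕ) : Integrable (kernel n) := (bump n).integrable_normed

theorem integral_kernel (n : ℕ) : ∫ y, kernel n y = 1 := (bump n).integral_normed

theorem continuous_kernel (n : ℕ) : Continuous (kernel n) := (bump n).continuous_normed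

/-- Mollification. -/
def mollify (n : ℕ) (f : R3 → ℝ) (x : R3) : ℝ := ∫ y, kernel n y * f (x - y)

/-- Dual form of: the total variation of `f` on the torus is at most `M`. -/
def HasVariationLE (f : R3 → ℝ) (M : ℝ) : Prop :=
  ∀ X, IsTestField X → ∫ x in cell, f x * divergence X x ≤ M

variable {f : R3 → ℝ} {B : ℝ}

theorem integrable_kernel_mul (hf : Measurable f) (hB : ∀ x, |f x| ≤ B) (n : ℕ) (x : R3) :
    Integrable fun y => kernel n y * f (x - y) :=
  (integrable_kernel n).mul_bdd (hf.comp (measurable_const.sub measurable_id)).aestronglyMeasurable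
    (ae_of_all _ fun y => (Real.norm_eq_abs _).trans_le (hB (x - y)))

theorem locallyIntegrable_of_bdd (hf : Measurable f) (hB : ∀ x, |f x| ≤ B) :
    LocallyIntegrable f := fun x => by
  refine ⟨Metric.ball x 1, Metric.ball_mem_nhds x one_pos, ?_⟩
  exact IntegrableOn.of_bound measure_ball_lt_top hf.aestronglyMeasurable B
    (ae_of_all _ fun y => (Real.norm_eq_abs _).trans_le (hB y))

theorem contDiff_mollify (hf : Measurable f) (hB : ∀ x, |f x| ≤ B) (n : ℕ) (k : ℕ∞) :
    ContDiff ℝ k (mollify n f) :=
  (bump n).hasCompactSupport_normed.contDiff_convolution_left (ContinuousLinearMap.lsmul ℝ ℝ)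
    (bump n).contDiff_normed (locallyIntegrable_of_bdd hf hB)

theorem mollify_periodic (hp : IsPeriodicFun f) (n : ℕ) : IsPeriodicFun (mollify n f) :=
  fun x i => by
    simp only [mollify]
    congr 1
    funext y
    rw [add_sub_right_comm, hp]

theorem abs_mollify_le (hf : Measurable f) (hB : ∀ x, |f x| ≤ B) (n : ℕ) (x : R3) :
    |mollify n f x| ≤ B := by
  refine abs_integral_le_integral_abs.trans ?_
  calc ∫ y, |kernel n y * f (x - y)| ≤ ∫ y, kernel n y * B := by
        refine integral_mono (integrable_kernel_mul hf hB n x).abs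
          ((integrable_kernel n).mul_const B) fun y => ?_
        rw [abs_mul, abs_of_nonneg (kernel_nonneg n y)]
        exact mul_le_mul_of_nonneg_left (hB _) (kernel_nonneg n y)
    _ = B := by rw [integral_mul_const, integral_kernel, one_mul]

theorem mollify_mem_Icc (hf : Measurable f) (h01 : ∀ x, f x ∈ Icc (0 : ℝ) 1) (n : ℕ) (x : R3) :
    mollify n f x ∈ Icc (0 : ℝ) 1 := by
  have hB : ∀ z, |f z| ≤ 1 := fun z => by
    rw [abs_of_nonneg (h01 z).1]; exact (h01 z).2
  exact ⟨integral_nonneg fun y => mul_nonneg (kernel_nonneg n y) (h01 _).1,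
    (le_abs_self _).trans (abs_mollify_le hf hB n x)⟩

theorem tendsto_mollify (hf : Measurable f) (hB : ∀ x, |f x| ≤ B) :
    ∀ᵐ x, Tendsto (fun n => mollify n f x) atTop (𝓝 (f x)) :=
  ContDiffBump.ae_convolution_tendsto_right_of_locallyIntegrable (φ := bump) (K := 2)
    (by
      simpa [bump, div_eq_mul_inv, mul_comm] using
        (tendsto_one_div_add_atTop_nhds_zero_nat (𝕜 := ℝ)).const_mul 2)
    (Eventually.of_forall fun n => le_of_eq (by simp [bump]; ring))
    (locallyIntegrable_of_bdd hf hB)

theorem tendsto_integral_comp_mollify (hf : Measurable f) (h01 : ∀ x, f x ∈ Icc (0 : ℝ) 1)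
    {φ : ℝ → ℝ} (hφ : Continuous φ) :
    Tendsto (fun n => ∫ x in cell, φ (mollify n f x)) atTop (𝓝 (∫ x in cell, φ (f x))) := by
  have hB : ∀ z, |f z| ≤ 1 := fun z => by
    rw [abs_of_nonneg (h01 z).1]; exact (h01 z).2
  obtain ⟨C, hC⟩ := (isCompact_Icc (a := (0 : ℝ)) (b := 1)).exists_bound_of_continuousOn
    hφ.continuousOn
  refine tendsto_integral_of_dominated_convergence (fun _ => C) (fun n => ?_)
    (integrableOn_const volume_cell_ne_top) (fun n => ?_) ?_
  · exact (hφ.comp (contDiff_mollify hf hB n 0).continuous).aestronglyMeasurable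
  · exact ae_of_all _ fun x => hC _ (mollify_mem_Icc hf h01 n x)
  · refine ae_restrict_of_ae ?_
    filter_upwards [tendsto_mollify hf hB] with x hx
    exact (hφ.tendsto _).comp hx

theorem IsTestField.shift {X : Fin 3 → R3 → ℝ} (hX : IsTestField X) (y : R3) :
    IsTestField fun i x => X i (x + y) :=
  ⟨fun i => (hX.smooth i).comp (contDiff_id.add contDiff_const), fun i => (hX.periodic i).shift y,
    fun x => hX.bound (x + y)⟩

theorem divergence_shift (X : Fin 3 → R3 → ℝ) (y x : R3) :
    divergence (fun i z => X i (z + y)) x = divergence X (x + y) := by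
  simp [divergence, pd, fderiv_comp_add_right]

theorem HasVariationLE.mollify (hf : Measurable f) (hB : ∀ x, |f x| ≤ B) (hp : IsPeriodicFun f)
    {M : ℝ} (hM : HasVariationLE f M) (n : ℕ) : HasVariationLE (P232.mollify n f) M := by
  intro X hX
  have hc := continuous_divergence hX.smooth
  have hdp : IsPeriodicFun (divergence X) := fun x j => by
    simp only [divergence]
    exact Finset.sum_congr rfl fun i _ => (hX.periodic i).pd i x j
  obtain ⟨D, hD⟩ := hdp.exists_bound hc
  have hint : Integrable (fun p : R3 × R3 => kernel n p.2 * f (p.1 - p.2) * divergence X p.1)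
      ((volume.restrict cell).prod volume) := by
    have : IsFiniteMeasure (volume.restrict cell) :=
      isFiniteMeasure_restrict.2 volume_cell_ne_top
    refine ((integrable_const (B * D)).mul_prod (integrable_kernel n)).mono ?_ ?_
    · exact ((((continuous_kernel n).measurable.comp measurable_snd).mul
        (hf.comp (measurable_fst.sub measurable_snd))).mul
        (hc.measurable.comp measurable_fst)).aestronglyMeasurable
    · refine ae_of_all _ fun p => ?_
      simp only [Real.norm_eq_abs, abs_mul, abs_of_nonneg (kernel_nonneg n _)]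
      have hb0 : 0 ≤ B := (abs_nonneg _).trans (hB 0)
      have hd0 : 0 ≤ D := (abs_nonneg _).trans (hD 0)
      rw [abs_of_nonneg hb0, abs_of_nonneg hd0]
      calc kernel n p.2 * |f (p.1 - p.2)| * |divergence X p.1|
          ≤ kernel n p.2 * B * D := by
            gcongr
            · exact mul_nonneg (kernel_nonneg n _) hb0
            · exact kernel_nonneg n _
            · exact hB _
            · exact hD _
        _ = B * D * kernel n p.2 := by ring
  have key : ∀ y, ∫ x in cell, kernel n y * f (x - y) * divergence X x ≤ kernel n y * M := by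
    intro y
    simp only [mul_assoc]
    rw [integral_const_mul]
    refine mul_le_mul_of_nonneg_left ?_ (kernel_nonneg n y)
    have hs := setIntegral_cell_add ((hp.shift (-y)).mul hdp) y
    simp only [add_neg_cancel_right] at hs
    simp only [← sub_eq_add_neg] at hs
    rw [← hs]
    refine le_of_eq_of_le ?_ (hM _ (hX.shift y))
    simp only [divergence_shift]
  simp only [P232.mollify, ← integral_mul_const]
  rw [integral_integral_swap hint]
  calc ∫ y, ∫ x in cell, kernel n y * f (x - y) * divergence X x
      ≤ ∫ y, kernel n y * M := integral_mono hint.integral_prod_right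
        ((integrable_kernel n).mul_const M) key
    _ = M := by rw [integral_mul_const, integral_kernel, one_mul]

theorem gradient_le_of_contDiff {u : R3 → ℝ} (hu : ContDiff ℝ 2 u) (hp : IsPeriodicFun u)
    {M : ℝ} (hM : HasVariationLE u M) : ∫ x in cell, gradNorm u x ≤ M := by
  obtain ⟨L, hL⟩ := exists_lipschitzWith (hu.of_le (by norm_num)) hp
  refine le_of_forall_pos_le_add fun δ hδ => ?_
  have hS : ∀ x, 0 < (∑ i, pd i u x ^ 2) + δ ^ 2 := fun x => by positivity
  set X : Fin 3 → R3 → ℝ := fun i x => -pd i u x / Real.sqrt ((∑ j, pd j u x ^ 2) + δ ^ 2)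
    with hXdef
  have hpd : ∀ i, ContDiff ℝ 1 (pd i u) := fun i => contDiff_pd (n := 1) (hu.of_le (by norm_num)) i
  have hX : IsTestField X := by
    refine ⟨fun i => ?_, fun i => fun x j => ?_, fun x => ?_⟩
    · exact (hpd i).neg.div
        (((ContDiff.sum fun j _ => (hpd j).pow 2).add contDiff_const).sqrt fun x => (hS x).ne')
        fun x => (Real.sqrt_pos.2 (hS x)).ne'
    · simp only [hXdef]
      rw [hp.pd i x j, Finset.sum_congr rfl fun k _ => by rw [hp.pd k x j]]
    · simp only [hXdef, div_pow, neg_sq, Real.sq_sqrt (hS x).le, ← Finset.sum_div]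
      rw [div_le_one (hS x)]
      nlinarith
  have hle := hM X hX
  rw [integral_mul_divergence hL hp hX.smooth hX.periodic, ← integral_neg] at hle
  have hint : IntegrableOn (fun x => -∑ i, pd i u x * X i x) cell :=
    integrableOn_cell_of_continuous (continuous_finsetSum _ fun i _ =>
      (hpd i).continuous.mul (hX.smooth i).continuous).neg
  have hpt : ∀ x, gradNorm u x - δ ≤ -∑ i, pd i u x * X i x := fun x => by
    have hsq := Real.sqrt_pos.2 (hS x)
    have heq : -∑ i, pd i u x * X i x =
        (∑ i, pd i u x ^ 2) / Real.sqrt ((∑ j, pd j u x ^ 2) + δ ^ 2) := by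
      simp only [hXdef, ← Finset.sum_neg_distrib, Finset.sum_div]
      exact Finset.sum_congr rfl fun i _ => by ring
    rw [heq, gradNorm, le_div_iff₀ hsq]
    set S := ∑ i, pd i u x ^ 2
    have hS0 : 0 ≤ S := Finset.sum_nonneg fun i _ => sq_nonneg _
    have h1 := Real.sq_sqrt hS0
    have h2 := Real.sq_sqrt (hS x).le
    have h3 := Real.sqrt_nonneg S
    nlinarith [sq_nonneg (Real.sqrt S - Real.sqrt (S + δ ^ 2) + δ), sq_nonneg (Real.sqrt S - δ),
      mul_nonneg h3 hδ.le, Real.sqrt_le_sqrt (show S ≤ S + δ ^ 2 by nlinarith)]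
  have h2 := integral_mono ((integrableOn_gradNorm hL).sub (integrableOn_const volume_cell_ne_top))
    hint hpt
  rw [integral_sub' (integrableOn_gradNorm hL) (integrableOn_const volume_cell_ne_top)] at h2
  simp only [setIntegral_const, measureReal_def, volume_cell, ENNReal.toReal_one, one_smul] at h2
  linarith

theorem pd_mollify {v : R3 → ℝ} {L : ℝ≥0} (hv : LipschitzWith L v) (hB : ∀ x, |v x| ≤ B)
    (n : ℕ) (i : Fin 3) (x : R3) : pd i (mollify n v) x = mollify n (pd i v) x := by
  set t : ℕ → ℝ := fun k => 1 / ((k : ℝ) + 1) with ht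
  have htpos : ∀ k, 0 < t k := fun k => by positivity
  have hto : Tendsto t atTop (𝓝[≠] 0) := tendsto_nhdsWithin_iff.2
    ⟨tendsto_one_div_add_atTop_nhds_zero_nat, Eventually.of_forall fun k => (htpos k).ne'⟩
  have hline : HasDerivAt (fun s : ℝ => mollify n v (x + s • unit i)) (pd i (mollify n v) x) 0 :=
    ((contDiff_mollify hv.continuous.measurable hB n 1).differentiable (by norm_num)
      x).hasFDerivAt.hasLineDerivAt (unit i)
  have h1 := hline.tendsto_slope_zero.comp hto
  have h2 : Tendsto (fun k => ∫ y, kernel n y * ((t k)⁻¹ * (v (x - y + t k • unit i) - v (x - y))))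
      atTop (𝓝 (mollify n (pd i v) x)) := by
    refine tendsto_integral_of_dominated_convergence (fun y => kernel n y * L) (fun k => ?_)
      ((integrable_kernel n).mul_const _) (fun k => ae_of_all _ fun y => ?_) ?_
    · have := hv.continuous
      have := continuous_kernel n
      exact Continuous.aestronglyMeasurable (by fun_prop)
    · rw [Real.norm_eq_abs, abs_mul, abs_of_nonneg (kernel_nonneg n y)]
      refine mul_le_mul_of_nonneg_left ?_ (kernel_nonneg n y)
      have hle := hv.dist_le_mul (x - y + t k • unit i) (x - y)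
      rw [Real.dist_eq, dist_eq_norm, add_sub_cancel_left, norm_smul, norm_unit, mul_one,
        Real.norm_eq_abs, abs_of_pos (htpos k)] at hle
      rw [abs_mul, abs_inv, abs_of_pos (htpos k), inv_mul_le_iff₀ (htpos k)]
      linarith
    · filter_upwards [(Measure.measurePreserving_sub_left volume x).quasiMeasurePreserving.ae
        (hv.ae_differentiableAt (μ := volume))] with y hy
      refine Tendsto.const_mul _ ?_
      have h := ((hy.hasFDerivAt.hasLineDerivAt (unit i)).tendsto_slope_zero).comp hto
      simpa [Function.comp_def, pd] using h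
  refine tendsto_nhds_unique ?_ h2
  refine h1.congr fun k => ?_
  simp only [Function.comp_apply, zero_add, zero_smul, add_zero, smul_eq_mul, mollify]
  rw [← integral_sub (integrable_kernel_mul hv.continuous.measurable hB n _)
    (integrable_kernel_mul hv.continuous.measurable hB n x), ← integral_const_mul]
  congr 1
  funext y
  rw [add_sub_right_comm]
  ring

/-- For a Lipschitz function the dual variation dominates the integral of the gradient. -/
theorem gradient_le_of_lipschitz {v : R3 → ℝ} {L : ℝ≥0} (hv : LipschitzWith L v)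
    (hp : IsPeriodicFun v) (hB : ∀ x, |v x| ≤ B) {M : ℝ} (hM : HasVariationLE v M) :
    ∫ x in cell, gradNorm v x ≤ M := by
  have hlim : Tendsto (fun n => ∫ x in cell, gradNorm (mollify n v) x) atTop
      (𝓝 (∫ x in cell, gradNorm v x)) := by
    refine tendsto_integral_of_dominated_convergence (fun _ => 3 * (L : ℝ))
      (fun n => (measurable_gradNorm _).aestronglyMeasurable)
      (integrableOn_const volume_cell_ne_top) (fun n => ae_of_all _ fun x => ?_) ?_
    · rw [Real.norm_eq_abs, abs_of_nonneg (gradNorm_nonneg _ _)]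
      refine (gradNorm_le_sum _ x).trans ((Finset.sum_le_sum fun i _ => ?_).trans_eq
        (by simp : ∑ _i : Fin 3, (L : ℝ) = 3 * L))
      rw [pd_mollify hv hB]
      exact abs_mollify_le (measurable_pd i v) (abs_pd_le hv i) n x
    · refine ae_restrict_of_ae ?_
      filter_upwards [ae_all_iff.2 fun i => tendsto_mollify (measurable_pd i v) (abs_pd_le hv i)]
        with x hx
      simp only [gradNorm, pd_mollify hv hB]
      exact (Real.continuous_sqrt.tendsto _).comp
        (tendsto_finsetSum _ fun i _ => (hx i).pow 2)
  refine le_of_tendsto' hlim fun n => ?_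
  exact gradient_le_of_contDiff (contDiff_mollify hv.continuous.measurable hB n 2)
    (mollify_periodic hp n) (hM.mollify hv.continuous.measurable hB hp n)

/-! ## Sets of the torus -/

theorem IsTorusSet.periodic_indicator {E : Set R3} (hE : IsTorusSet E) :
    IsPeriodicFun (E.indicator fun _ => (1 : ℝ)) := fun x i => by
  by_cases h : x ∈ E
  · rw [indicator_of_mem h, indicator_of_mem ((hE.periodic x i).2 h)]
  · rw [indicator_of_notMem h, indicator_of_notMem (mt (hE.periodic x i).1 h)]

theorem IsTorusSet.hasVariationLE {E : Set R3} (hE : IsTorusSet E) (hfin : perimeter E ≠ ⊤) :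
    HasVariationLE (E.indicator fun _ => (1 : ℝ)) (perimeter E).toReal := by
  intro X hX
  have : ∫ x in cell, E.indicator (fun _ => (1 : ℝ)) x * divergence X x
      = ∫ x in cell ∩ E, divergence X x := by
    rw [← setIntegral_indicator hE.measurable]
    refine integral_congr_ae (ae_of_all _ fun x => ?_)
    by_cases h : x ∈ E <;> simp [h]
  rw [this]
  refine (ENNReal.ofReal_le_iff_le_toReal hfin).1 ?_
  exact le_iSup₂_of_le X hX le_rfl

/-- A set of finite perimeter is approximated by smooth functions with no larger gradient. -/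
theorem IsTorusSet.exists_smooth_approx {E : Set R3} (hE : IsTorusSet E)
    (hfin : perimeter E ≠ ⊤) {ε : ℝ} (hε : 0 < ε) :
    ∃ (u : R3 → ℝ) (L : ℝ≥0), LipschitzWith L u ∧ IsPeriodicFun u ∧ (∀ x, u x ∈ Icc (0 : ℝ) 1) ∧
      |(∫ x in cell, u x) - torusVolume E| < ε ∧ (∫ x in cell, u x * (1 - u x)) < ε ∧
      ∫ x in cell, gradNorm u x ≤ (perimeter E).toReal := by
  set χ := E.indicator fun _ => (1 : ℝ)
  have hm : Measurable χ := measurable_const.indicator hE.measurable
  have h01 : ∀ x, χ x ∈ Icc (0 : ℝ) 1 := fun x => by
    by_cases h : x ∈ E <;> simp [χ, h]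
  have hB : ∀ x, |χ x| ≤ 1 := fun x => by rw [abs_of_nonneg (h01 x).1]; exact (h01 x).2
  have hp := hE.periodic_indicator
  have hV : ∫ x in cell, χ x = torusVolume E := by
    rw [setIntegral_indicator hE.measurable, setIntegral_const, smul_eq_mul, mul_one]
    rfl
  have hzero : ∫ x in cell, χ x * (1 - χ x) = 0 := by
    refine integral_eq_zero_of_ae (ae_of_all _ fun x => ?_)
    by_cases h : x ∈ E <;> simp [χ, h]
  have t1 := tendsto_integral_comp_mollify hm h01 (φ := fun t => t) continuous_id
  have t2 := tendsto_integral_comp_mollify hm h01 (φ := fun t => t * (1 - t)) (by fun_prop)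
  rw [hV] at t1
  rw [hzero] at t2
  obtain ⟨n, hn1, hn2⟩ := ((t1.eventually (Metric.ball_mem_nhds _ hε)).and
    (t2.eventually (eventually_lt_nhds hε))).exists
  obtain ⟨L, hL⟩ := exists_lipschitzWith (contDiff_mollify hm hB n 1) (mollify_periodic hp n)
  refine ⟨mollify n χ, L, hL, mollify_periodic hp n, mollify_mem_Icc hm h01 n, ?_, hn2,
    gradient_le_of_contDiff (contDiff_mollify hm hB n 2) (mollify_periodic hp n)
      ((hE.hasVariationLE hfin).mollify hm hB hp n)⟩
  simpa [Real.dist_eq] using hn1

end Vale.Agent.P232
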