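import Mathlib

/-!
# P232: length of the boundary of a down set of the unit square

A slice is recorded by its height function `f` with its wrap data. `Master s l` says that `l`
bounds every flux of a field `(b, √(1 - b²))`, `b` affine; all bounds used in the slicing argument
follow from it by one choice of `b` (E. Schmidt's proof of the isoperimetric inequality).
-/

open MeasureTheory Set Real
open scoped Topology

namespace Vale.Agent.P232

/-- A down set slice: height `f`, the wrap `w` at the top and extent `X` on the bottom, the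
one-sided values `Y = f (0+)` and `u = f (1-)`, and the area `A`. -/
structure Slice where
  f : ℝ → ℝ
  w : ℝ
  X : ℝ
  Y : ℝ
  u : ℝ
  A : ℝ
  w_nonneg : 0 ≤ w
  w_le : w ≤ X
  X_le : X ≤ 1
  u_nonneg : 0 ≤ u
  u_le : u ≤ Y
  Y_le : Y ≤ 1
  Y_eq : 0 < w → Y = 1
  u_eq : X < 1 → u = 0
  u_le_A : u ≤ A
  A_le_Y : A ≤ Y
  w_le_A : w ≤ A
  A_le_X : A ≤ X

namespace Slice

/-- The flux of the affine field with `b x = p x + q`. -/
noncomputable def flux (s : Slice) (p q : ℝ) : ℝ :=
  (∫ x in s.w..s.X, √(1 - (p * x + q) ^ 2)) + p * (s.A - s.w) + (p * s.w + q) * s.Y -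
    (p * s.X + q) * s.u

/-- `l` bounds every flux. -/
def Master (s : Slice) (l : ℝ) : Prop :=
  ∀ p q : ℝ, |p * s.w + q| ≤ 1 → |p * s.X + q| ≤ 1 → s.flux p q ≤ l

/-- The quarter circle. -/
lemma integral_quarter : ∫ x in (0 : ℝ)..1, √(1 - x ^ 2) = π / 4 := by
  have h := integral_sqrt_one_sub_sq
  have hc : Continuous fun x : ℝ => √(1 - x ^ 2) :=
    (continuous_const.sub (continuous_pow 2)).sqrt
  rw [← intervalIntegral.integral_add_adjacent_intervals (b := 0) (hc.intervalIntegrable _ _)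
    (hc.intervalIntegrable _ _)] at h
  have e : ∫ x in (-1 : ℝ)..0, √(1 - x ^ 2) = ∫ x in (0 : ℝ)..1, √(1 - x ^ 2) := by
    have := intervalIntegral.integral_comp_neg (a := (0 : ℝ)) (b := 1) fun x => √(1 - x ^ 2)
    simpa using this.symm
  linarith

/-- A quarter circle over `[a, b]`, rising or falling. -/
lemma integral_arc {a b : ℝ} (h : a < b) :
    (∫ x in a..b, √(1 - ((x - a) / (b - a)) ^ 2) = (b - a) * (π / 4)) ∧
      ∫ x in a..b, √(1 - ((b - x) / (b - a)) ^ 2) = (b - a) * (π / 4) := by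
  have h0 : b - a ≠ 0 := (sub_pos.2 h).ne'
  constructor
  · have := intervalIntegral.integral_comp_div_sub (a := a) (b := b)
      (fun x => √(1 - x ^ 2)) h0 (a / (b - a))
    simp only [← sub_div, sub_self, div_self h0] at this
    rw [this, smul_eq_mul, integral_quarter]
  · have := intervalIntegral.integral_comp_sub_div (a := a) (b := b)
      (fun x => √(1 - x ^ 2)) h0 (b / (b - a))
    simp only [← sub_div, sub_self, div_self h0] at this
    rw [this, smul_eq_mul, integral_quarter]

lemma amgm {a X : ℝ} (ha : 0 ≤ a) (hX : 0 < X) : √(π * a) ≤ X * (π / 4) + a / X := by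
  have h : π * a = 4 * ((X * (π / 4)) * (a / X)) := by field_simp
  rw [h, Real.sqrt_le_iff]
  exact ⟨by positivity, by nlinarith [sq_nonneg (X * (π / 4) - a / X)]⟩

/-- The antiderivative of `√(1 - t ^ 2)`. -/
noncomputable def arcArea (t : ℝ) : ℝ := (t * √(1 - t ^ 2) + arcsin t) / 2

lemma integral_sqrt {a b : ℝ} (ha : -1 ≤ a) (hab : a ≤ b) (hb : b ≤ 1) :
    ∫ t in a..b, √(1 - t ^ 2) = arcArea b - arcArea a := by
  refine intervalIntegral.integral_eq_sub_of_hasDerivAt_of_le hab ?_ (fun t ht => ?_)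
    (Continuous.intervalIntegrable (by fun_prop) _ _)
  · unfold arcArea
    fun_prop
  have h1 : -1 < t := ha.trans_lt ht.1
  have h2 : t < 1 := ht.2.trans_le hb
  have h0 : 0 < 1 - t ^ 2 := by nlinarith
  have hd := (((hasDerivAt_id t).mul (((hasDerivAt_pow 2 t).const_sub 1).sqrt h0.ne')).add
    (hasDerivAt_arcsin h1.ne' h2.ne)).div_const 2
  refine hd.congr_deriv ?_
  have hs : √(1 - t ^ 2) ≠ 0 := (Real.sqrt_pos.2 h0).ne'
  simp only [id_eq]
  field_simp
  linear_combination (-2) * Real.sq_sqrt h0.le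

/-- The curved term of the flux in closed form. -/
lemma integral_sqrt_affine {w X p q : ℝ} (hp : p ≠ 0) (hwX : w ≤ X) (hw : |p * w + q| ≤ 1)
    (hX : |p * X + q| ≤ 1) :
    ∫ x in w..X, √(1 - (p * x + q) ^ 2) = (arcArea (p * X + q) - arcArea (p * w + q)) / p := by
  rw [intervalIntegral.integral_comp_mul_add (fun t => √(1 - t ^ 2)) hp, smul_eq_mul,
    ← div_eq_inv_mul]
  rw [abs_le] at hw hX
  congr 1
  rcases hp.lt_or_gt with h | h
  · rw [intervalIntegral.integral_symm, integral_sqrt hX.1 (by nlinarith) hw.2]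
    ring
  · exact integral_sqrt hw.1 (by nlinarith) hX.2

variable {s : Slice} {l : ℝ}

/-- **Arcs**: the master inequality in closed form. -/
theorem arc_le (h : s.Master l) {p q : ℝ} (hp : p ≠ 0) (hw : |p * s.w + q| ≤ 1)
    (hX : |p * s.X + q| ≤ 1) :
    (arcArea (p * s.X + q) - arcArea (p * s.w + q)) / p + p * (s.A - s.w) +
      (p * s.w + q) * s.Y - (p * s.X + q) * s.u ≤ l := by
  have := h p q hw hX
  rwa [flux, integral_sqrt_affine hp s.w_le hw hX] at this

lemma Master.nonneg (h : s.Master l) : 0 ≤ l := by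
  have h0 := h 0 0 (by simp) (by simp)
  simp only [flux, zero_mul, add_zero, sub_zero] at h0
  refine le_trans ?_ h0
  exact intervalIntegral.integral_nonneg s.w_le fun x _ => Real.sqrt_nonneg _

/-- **Island**: `l ≥ √(π A)`. -/
theorem island_le (h : s.Master l) (hw : s.w = 0) (hu : s.u = 0) : √(π * s.A) ≤ l := by
  have hA : 0 ≤ s.A := s.u_nonneg.trans s.u_le_A
  rcases (s.w_nonneg.trans s.w_le).eq_or_lt with hX | hX
  · have : s.A = 0 := le_antisymm (hX ▸ s.A_le_X) hA
    simpa [this] using h.nonneg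
  have h1 := h (1 / s.X) 0 (by simp [hw]) (by
    rw [add_zero, one_div, inv_mul_cancel₀ hX.ne', abs_one])
  simp only [flux, hw, hu, mul_zero, add_zero, sub_zero, zero_mul] at h1
  have e := (integral_arc hX).1
  simp only [sub_zero] at e
  simp only [one_div, inv_mul_eq_div, e] at h1
  exact (amgm hA hX).trans h1

/-- **Band**: `l ≥ √(π (A - u))`. -/
theorem band_low_le (h : s.Master l) (hw : s.w = 0) (hX : s.X = 1) :
    √(π * (s.A - s.u)) ≤ l := by
  have h1 := h 1 0 (by simp [hw]) (by simp [hX])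
  simp only [flux, hw, hX, one_mul, add_zero, sub_zero, zero_mul] at h1
  rw [integral_quarter] at h1
  have := amgm (sub_nonneg.2 s.u_le_A) one_pos
  linarith

/-- **Band**: `l ≥ √(π (Y - A))`. -/
theorem band_high_le (h : s.Master l) (hw : s.w = 0) (hX : s.X = 1) :
    √(π * (s.Y - s.A)) ≤ l := by
  have h1 := h (-1) 1 (by simp [hw]) (by simp [hX])
  have e := (integral_arc (zero_lt_one' ℝ)).2
  simp only [flux, hw, hX, mul_zero, mul_one, sub_zero, zero_add, one_mul, neg_one_mul,
    neg_add_cancel, zero_mul] at h1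
  simp only [sub_zero, div_one, one_mul] at e
  simp only [neg_add_eq_sub, e] at h1
  have := amgm (sub_nonneg.2 s.A_le_Y) one_pos
  linarith

/-- **Cross**: `l ≥ √(π (1 - A))`. -/
theorem cross_le (h : s.Master l) (hY : s.Y = 1) (hX : s.X = 1) :
    √(π * (1 - s.A)) ≤ l := by
  have hA : 0 ≤ 1 - s.A := by linarith [s.A_le_X]
  rcases (s.w_le.trans s.X_le).eq_or_lt with hw | hw
  · have : s.A = 1 := le_antisymm (hX ▸ s.A_le_X) (hw ▸ s.w_le_A)
    simpa [this] using h.nonneg
  have h0 : 0 < 1 - s.w := sub_pos.2 hw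
  have hb : -(1 / (1 - s.w)) * s.w + 1 / (1 - s.w) = 1 := by field_simp; ring
  have h1 := h (-(1 / (1 - s.w))) (1 / (1 - s.w)) (by rw [hb, abs_one]) (by simp [hX])
  simp only [flux, hX, hY, hb, mul_one, neg_add_cancel, zero_mul, sub_zero] at h1
  have e : ∀ x : ℝ, -(1 / (1 - s.w)) * x + 1 / (1 - s.w) = (1 - x) / (1 - s.w) := fun x => by ring
  simp only [e, (integral_arc hw).2] at h1
  refine (amgm hA h0).trans (le_of_eq_of_le ?_ h1)
  field_simp
  ring

/-- **Chord**: the length of the segment from `(w, Y)` to `(X, u)`. -/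
theorem chord_le (h : s.Master l) : √((s.X - s.w) ^ 2 + (s.Y - s.u) ^ 2) ≤ l := by
  set L := √((s.X - s.w) ^ 2 + (s.Y - s.u) ^ 2)
  rcases (Real.sqrt_nonneg _ : 0 ≤ L).eq_or_lt with hL | hL
  · exact (le_of_eq hL.symm).trans h.nonneg
  have hsq : L ^ 2 = (s.X - s.w) ^ 2 + (s.Y - s.u) ^ 2 := Real.sq_sqrt (by positivity)
  set q := (s.Y - s.u) / L with hq
  have hq1 : |q| ≤ 1 := by
    rw [abs_le_one_iff_mul_self_le_one, hq, div_mul_div_comm, div_le_one (by positivity)]
    nlinarith [sq_nonneg (s.X - s.w)]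
  have h1 := h 0 q (by simpa using hq1) (by simpa using hq1)
  simp only [flux, zero_mul, zero_add, intervalIntegral.integral_const, smul_eq_mul,
    add_zero] at h1
  have e : √(1 - q ^ 2) = (s.X - s.w) / L := by
    rw [show 1 - q ^ 2 = ((s.X - s.w) / L) ^ 2 by
      have : L ≠ 0 := hL.ne'
      rw [hq]; field_simp; linear_combination hsq, Real.sqrt_sq (div_nonneg (sub_nonneg.2 s.w_le) hL.le)]
  rw [e, hq] at h1
  refine le_trans (le_of_eq ?_) h1
  have : L ≠ 0 := hL.ne'
  field_simp
  linear_combination hsq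

/-- A slice that is not a band has `l ≥ √(π min (A, 1 - A))`. -/
theorem nonband_le (h : s.Master l)
    (ht : (s.w = 0 ∧ s.u = 0) ∨ (0 < s.w ∧ 0 < s.u)) :
    √(π * min s.A (1 - s.A)) ≤ l := by
  rcases ht with ⟨hw, hu⟩ | ⟨hw, hu⟩
  · exact (Real.sqrt_le_sqrt (mul_le_mul_of_nonneg_left (min_le_left _ _) Real.pi_pos.le)).trans
      (island_le h hw hu)
  · have hX : s.X = 1 := by
      by_contra hne
      exact hu.ne' (s.u_eq (lt_of_le_of_ne s.X_le hne))
    exact (Real.sqrt_le_sqrt (mul_le_mul_of_nonneg_left (min_le_right _ _) Real.pi_pos.le)).trans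
      (cross_le h (s.Y_eq hw) hX)

end Slice

/-! ## Slices given by height functions -/

variable {f : ℝ → ℝ}

/-- The width at the top of the square. -/
noncomputable def topWidth (f : ℝ → ℝ) : ℝ :=
  sSup (insert 0 {x | x ∈ Ioo (0 : ℝ) 1 ∧ 1 ≤ f x})

/-- The extent on the bottom of the square. -/
noncomputable def botWidth (f : ℝ → ℝ) : ℝ :=
  sSup (insert 0 {x | x ∈ Ioo (0 : ℝ) 1 ∧ 0 < f x})

/-- The one-sided value at `0`. -/
noncomputable def leftHeight (f : ℝ → ℝ) : ℝ := sSup (f '' Ioo 0 1)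

/-- The one-sided value at `1`. -/
noncomputable def rightHeight (f : ℝ → ℝ) : ℝ := sInf (f '' Ioo 0 1)

/-- The flux of the field `(b, a)`, `b x = b₀ + ∫_0^x g`, through the part of the boundary of
`{y < f x}` inside the square. -/
noncomputable def fieldFlux (f a g : ℝ → ℝ) (b₀ : ℝ) : ℝ :=
  (∫ x in topWidth f..botWidth f, a x) + (∫ x in (0 : ℝ)..1, f x * g x) + b₀ * leftHeight f -
    (b₀ + ∫ x in (0 : ℝ)..1, g x) * rightHeight f

/-- `l` bounds the fluxes of all fields of length at most one. -/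
def LenGe (f : ℝ → ℝ) (l : ℝ) : Prop :=
  ∀ (a g : ℝ → ℝ) (b₀ : ℝ), Continuous a → Continuous g →
    (∀ x ∈ Icc (0 : ℝ) 1, a x ^ 2 + (b₀ + ∫ t in (0 : ℝ)..x, g t) ^ 2 ≤ 1) →
      fieldFlux f a g b₀ ≤ l

/-- An antitone height function on the unit interval. -/
structure IsHeight (f : ℝ → ℝ) : Prop where
  anti : AntitoneOn f (Ioo 0 1)
  mem : ∀ x ∈ Ioo (0 : ℝ) 1, f x ∈ Icc (0 : ℝ) 1

namespace IsHeight

variable (hf : IsHeight f)
include hf

lemma intervalIntegrable {c d : ℝ} (hc : c ∈ Icc (0 : ℝ) 1) (hd : d ∈ Icc (0 : ℝ) 1) :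
    IntervalIntegrable f volume c d := by
  have h : IntervalIntegrable f volume 0 1 := by
    rw [intervalIntegrable_iff_integrableOn_Ioo_of_le zero_le_one]
    refine IntegrableOn.of_bound (by simp)
      (aemeasurable_restrict_of_antitoneOn measurableSet_Ioo hf.anti).aestronglyMeasurable 1 ?_
    filter_upwards [ae_restrict_mem measurableSet_Ioo] with x hx
    rw [Real.norm_eq_abs, abs_le]
    exact ⟨by linarith [(hf.mem x hx).1], (hf.mem x hx).2⟩
  refine h.mono_set ?_
  rw [uIcc_of_le zero_le_one]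
  exact uIcc_subset_Icc hc hd

omit hf in
lemma bdd (P : ℝ → Prop) : BddAbove (insert 0 {x | x ∈ Ioo (0 : ℝ) 1 ∧ P x}) :=
  (bddAbove_Ioo.mono fun _ h => h.1).insert 0

omit hf in
lemma topWidth_nonneg : 0 ≤ topWidth f := le_csSup (bdd _) (mem_insert _ _)

omit hf in
lemma botWidth_le_one : botWidth f ≤ 1 := by
  refine csSup_le (insert_nonempty _ _) fun x hx => ?_
  rcases hx with rfl | hx
  exacts [zero_le_one, hx.1.2.le]

omit hf in
lemma topWidth_le : topWidth f ≤ botWidth f :=
  csSup_le_csSup (bdd _) (insert_nonempty _ _)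
    (insert_subset_insert fun _ h => ⟨h.1, zero_lt_one.trans_le h.2⟩)

omit hf in
lemma topWidth_mem : topWidth f ∈ Icc (0 : ℝ) 1 :=
  ⟨topWidth_nonneg, topWidth_le.trans botWidth_le_one⟩

omit hf in
lemma botWidth_mem : botWidth f ∈ Icc (0 : ℝ) 1 :=
  ⟨topWidth_nonneg.trans topWidth_le, botWidth_le_one⟩

lemma eq_one {x : ℝ} (h0 : 0 < x) (hx : x < topWidth f) : f x = 1 := by
  obtain ⟨y, hy, hxy⟩ := exists_lt_of_lt_csSup (insert_nonempty _ _) hx
  rcases hy with rfl | hy
  · exact absurd hxy h0.not_gt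
  have hx1 : x ∈ Ioo (0 : ℝ) 1 := ⟨h0, hxy.trans hy.1.2⟩
  exact le_antisymm (hf.mem x hx1).2 (hy.2.trans (hf.anti hx1 hy.1 hxy.le))

lemma eq_zero {x : ℝ} (hx : botWidth f < x) (h1 : x < 1) : f x = 0 := by
  have hx1 : x ∈ Ioo (0 : ℝ) 1 := ⟨botWidth_mem.1.trans_lt hx, h1⟩
  refine le_antisymm (le_of_not_gt fun h => ?_) (hf.mem x hx1).1
  exact (le_csSup (bdd fun x => 0 < f x) (mem_insert_of_mem _ ⟨hx1, h⟩)).not_gt hx

lemma bdd_image : BddAbove (f '' Ioo 0 1) ∧ BddBelow (f '' Ioo 0 1) :=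
  ⟨⟨1, by rintro _ ⟨x, hx, rfl⟩; exact (hf.mem x hx).2⟩,
    ⟨0, by rintro _ ⟨x, hx, rfl⟩; exact (hf.mem x hx).1⟩⟩

lemma le_leftHeight {x : ℝ} (hx : x ∈ Ioo (0 : ℝ) 1) : f x ≤ leftHeight f :=
  le_csSup hf.bdd_image.1 (mem_image_of_mem f hx)

lemma rightHeight_le {x : ℝ} (hx : x ∈ Ioo (0 : ℝ) 1) : rightHeight f ≤ f x :=
  csInf_le hf.bdd_image.2 (mem_image_of_mem f hx)

lemma leftHeight_eq_one (h : 0 < topWidth f) : leftHeight f = 1 := by
  have hx : topWidth f / 2 ∈ Ioo (0 : ℝ) 1 :=
    ⟨by linarith, by linarith [(topWidth_mem (f := f)).2]⟩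
  refine le_antisymm (csSup_le ((nonempty_Ioo.2 zero_lt_one).image f) ?_) ?_
  · rintro _ ⟨x, hx, rfl⟩
    exact (hf.mem x hx).2
  · exact (hf.eq_one (half_pos h) (by linarith)).ge.trans (hf.le_leftHeight hx)

lemma rightHeight_eq_zero (h : botWidth f < 1) : rightHeight f = 0 := by
  have hx : (botWidth f + 1) / 2 ∈ Ioo (0 : ℝ) 1 :=
    ⟨by linarith [(botWidth_mem (f := f)).1], by linarith⟩
  refine le_antisymm ((hf.rightHeight_le hx).trans (hf.eq_zero (by linarith) hx.2).le) ?_
  refine le_csInf ((nonempty_Ioo.2 zero_lt_one).image f) ?_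
  rintro _ ⟨x, hx, rfl⟩
  exact (hf.mem x hx).1

/-- The integral against a height function, split at its two thresholds. -/
lemma integral_mul_eq {g : ℝ → ℝ} (hg : Continuous g) :
    ∫ x in (0 : ℝ)..1, f x * g x =
      (∫ x in (0 : ℝ)..topWidth f, g x) + ∫ x in topWidth f..botWidth f, f x * g x := by
  have hI : ∀ c d : ℝ, c ∈ Icc (0 : ℝ) 1 → d ∈ Icc (0 : ℝ) 1 →
      IntervalIntegrable (fun x => f x * g x) volume c d := fun c d hc hd =>
    (hf.intervalIntegrable hc hd).mul_continuousOn hg.continuousOn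
  have h0 : (0 : ℝ) ∈ Icc (0 : ℝ) 1 := ⟨le_rfl, zero_le_one⟩
  have h1 : (1 : ℝ) ∈ Icc (0 : ℝ) 1 := ⟨zero_le_one, le_rfl⟩
  have hw := topWidth_mem (f := f)
  have hX := botWidth_mem (f := f)
  have e1 : ∫ x in (0 : ℝ)..topWidth f, f x * g x = ∫ x in (0 : ℝ)..topWidth f, g x := by
    refine intervalIntegral.integral_congr_ae ?_
    filter_upwards [Measure.ae_ne volume (topWidth f)] with x hx hmem
    rw [uIoc_of_le hw.1] at hmem
    rw [hf.eq_one hmem.1 (lt_of_le_of_ne hmem.2 hx), one_mul]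
  have e2 : ∫ x in botWidth f..1, f x * g x = 0 := by
    refine intervalIntegral.integral_zero_ae ?_
    filter_upwards [Measure.ae_ne volume (1 : ℝ)] with x hx hmem
    rw [uIoc_of_le hX.2] at hmem
    rw [hf.eq_zero hmem.1 (lt_of_le_of_ne hmem.2 hx), zero_mul]
  rw [← intervalIntegral.integral_add_adjacent_intervals (hI _ _ h0 hX) (hI _ _ hX h1), e2,
    add_zero, ← intervalIntegral.integral_add_adjacent_intervals (hI _ _ h0 hw) (hI _ _ hw hX), e1]

lemma area_eq :
    ∫ x in (0 : ℝ)..1, f x = topWidth f + ∫ x in topWidth f..botWidth f, f x := by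
  simpa using hf.integral_mul_eq (g := fun _ => 1) continuous_const

lemma area_bounds :
    (rightHeight f ≤ ∫ x in (0 : ℝ)..1, f x) ∧ (∫ x in (0 : ℝ)..1, f x ≤ leftHeight f) := by
  have hI := hf.intervalIntegrable (c := 0) (d := 1) ⟨le_rfl, zero_le_one⟩ ⟨zero_le_one, le_rfl⟩
  constructor
  · have := intervalIntegral.integral_mono_on_of_le_Ioo zero_le_one intervalIntegrable_const hI
      fun x hx => hf.rightHeight_le hx
    simpa using this
  · have := intervalIntegral.integral_mono_on_of_le_Ioo zero_le_one hI intervalIntegrable_const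
      fun x hx => hf.le_leftHeight hx
    simpa using this

lemma middle_bounds :
    0 ≤ ∫ x in topWidth f..botWidth f, f x ∧
      ∫ x in topWidth f..botWidth f, f x ≤ botWidth f - topWidth f := by
  have hI := hf.intervalIntegrable (topWidth_mem (f := f)) (botWidth_mem (f := f))
  have hsub : ∀ x ∈ Ioo (topWidth f) (botWidth f), x ∈ Ioo (0 : ℝ) 1 := fun x hx =>
    ⟨topWidth_nonneg.trans_lt hx.1, hx.2.trans_le botWidth_le_one⟩
  constructor
  · have := intervalIntegral.integral_mono_on_of_le_Ioo (topWidth_le (f := f))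
      intervalIntegrable_const hI fun x hx => (hf.mem x (hsub x hx)).1
    simpa using this
  · have := intervalIntegral.integral_mono_on_of_le_Ioo (topWidth_le (f := f)) hI
      intervalIntegrable_const fun x hx => (hf.mem x (hsub x hx)).2
    simpa using this

/-- The slice of a height function. -/
noncomputable def slice : Slice where
  f := f
  w := topWidth f
  X := botWidth f
  Y := leftHeight f
  u := rightHeight f
  A := ∫ x in (0 : ℝ)..1, f x
  w_nonneg := topWidth_nonneg
  w_le := topWidth_le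
  X_le := botWidth_le_one
  u_nonneg := le_csInf ((nonempty_Ioo.2 zero_lt_one).image f)
    (by rintro _ ⟨x, hx, rfl⟩; exact (hf.mem x hx).1)
  u_le := hf.area_bounds.1.trans hf.area_bounds.2
  Y_le := csSup_le ((nonempty_Ioo.2 zero_lt_one).image f)
    (by rintro _ ⟨x, hx, rfl⟩; exact (hf.mem x hx).2)
  Y_eq := hf.leftHeight_eq_one
  u_eq := hf.rightHeight_eq_zero
  u_le_A := hf.area_bounds.1
  A_le_Y := hf.area_bounds.2
  w_le_A := by linarith [hf.area_eq, hf.middle_bounds.1]
  A_le_X := by linarith [hf.area_eq, hf.middle_bounds.2]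

end IsHeight

/-- The cut-off: `1` on `[w, X]`, `0` at distance at least `δ` from it. -/
noncomputable def cutRamp (w X δ x : ℝ) : ℝ := max 0 (1 - max (w - x) (max (x - X) 0) / δ)

/-- A bound `l` of all fluxes satisfies the master inequality. -/
theorem IsHeight.master (hf : IsHeight f) {l : ℝ} (h : LenGe f l) : hf.slice.Master l := by
  intro p q hpw hpX
  simp only [Slice.flux, IsHeight.slice] at hpw hpX ⊢
  have hw := topWidth_mem (f := f)
  have hX := botWidth_mem (f := f)
  have hwX := topWidth_le (f := f)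
  have harea := hf.area_eq
  set w := topWidth f
  set X := botWidth f
  set Y := leftHeight f
  set u := rightHeight f
  set A := ∫ x in (0 : ℝ)..1, f x
  set I := ∫ x in w..X, √(1 - (p * x + q) ^ 2)
  suffices hs : ∀ ε ∈ Ioo (0 : ℝ) 1,
      I + (1 - ε) * (p * (A - w) + (p * w + q) * Y - (p * X + q) * u) ≤ l by
    set L := p * (A - w) + (p * w + q) * Y - (p * X + q) * u
    have ht : Filter.Tendsto (fun ε : ℝ => I + (1 - ε) * L) (𝓝[>] 0) (𝓝 (I + L)) :=
      ((continuous_const.add ((continuous_const.sub continuous_id).mul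
        continuous_const)).tendsto' 0 _ (by simp [I, L])).mono_left nhdsWithin_le_nhds
    have := le_of_tendsto ht (Filter.eventually_of_mem (Ioo_mem_nhdsGT zero_lt_one) hs)
    linarith
  intro ε ⟨hε, hε1⟩
  set δ := ε / (|p| + 1)
  have hδ : 0 < δ := by positivity
  have hpδ : |p| * δ ≤ ε := by
    simp only [δ, ← mul_div_assoc, div_le_iff₀ (by positivity : 0 < |p| + 1)]
    nlinarith
  set g : ℝ → ℝ := fun x => (1 - ε) * p * cutRamp w X δ x
  have hg : Continuous g := by
    unfold g cutRamp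
    fun_prop
  have hgb : ∀ x, |g x| ≤ |p| := fun x => by
    have h0 : 0 ≤ cutRamp w X δ x := le_max_left _ _
    have h1 : cutRamp w X δ x ≤ 1 :=
      max_le zero_le_one (sub_le_self _ (div_nonneg (le_max_of_le_right (le_max_right _ _)) hδ.le))
    simp only [g, abs_mul, abs_of_nonneg h0, abs_of_pos (sub_pos.2 hε1)]
    calc (1 - ε) * |p| * cutRamp w X δ x ≤ 1 * |p| * 1 := by gcongr; linarith
      _ = |p| := by ring
  have hgin : ∀ x ∈ Icc w X, g x = (1 - ε) * p := fun x hx => by
    have : max (w - x) (max (x - X) 0) = 0 := by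
      rw [max_eq_right (sub_nonpos.2 hx.2), max_eq_right (sub_nonpos.2 hx.1)]
    simp [g, cutRamp, this]
  have hgout : ∀ x, δ ≤ max (w - x) (x - X) → g x = 0 := fun x hx => by
    have h2 : δ ≤ max (w - x) (max (x - X) 0) :=
      hx.trans (max_le_max le_rfl (le_max_left _ _))
    have h1 : 1 ≤ max (w - x) (max (x - X) 0) / δ := (one_le_div hδ).2 h2
    simp [g, cutRamp, max_eq_left (sub_nonpos.2 h1)]
  have hI : ∀ c d : ℝ, IntervalIntegrable g volume c d := hg.intervalIntegrable
  have hbound : ∀ c d, c ≤ d → d ≤ c + δ → |∫ t in c..d, g t| ≤ ε := fun c d hcd hd => by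
    have := intervalIntegral.norm_integral_le_of_norm_le_const (a := c) (b := d)
      fun x _ => (Real.norm_eq_abs (g x)).le.trans (hgb x)
    rw [Real.norm_eq_abs, abs_of_nonneg (sub_nonneg.2 hcd)] at this
    exact this.trans ((mul_le_mul_of_nonneg_left (by linarith) (abs_nonneg p)).trans hpδ)
  have hrun : ∀ x, X ≤ x → |∫ t in X..x, g t| ≤ ε := fun x hx => by
    rcases le_total x (X + δ) with hd | hd
    · exact hbound X x hx hd
    rw [← intervalIntegral.integral_add_adjacent_intervals (hI X (X + δ)) (hI (X + δ) x),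
      intervalIntegral.integral_congr (a := X + δ) (g := fun _ => (0 : ℝ))
        (fun t ht => hgout t ?_),
      intervalIntegral.integral_zero, add_zero]
    · exact hbound X _ (by linarith) le_rfl
    · rw [uIcc_of_le hd] at ht
      exact le_max_of_le_right (by linarith [ht.1])
  have lrun : ∀ x, x ≤ w → |∫ t in x..w, g t| ≤ ε := fun x hx => by
    rcases le_total w (x + δ) with hd | hd
    · exact hbound x w hx hd
    rw [← intervalIntegral.integral_add_adjacent_intervals (hI x (w - δ)) (hI (w - δ) w),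
      intervalIntegral.integral_congr (a := x) (g := fun _ => (0 : ℝ)) (fun t ht => hgout t ?_),
      intervalIntegral.integral_zero, zero_add]
    · exact hbound _ w (by linarith) (by linarith)
    · rw [uIcc_of_le (by linarith)] at ht
      exact le_max_of_le_left (by linarith [ht.2])
  have hmid : ∀ x ∈ Icc w X, ∫ t in w..x, g t = (1 - ε) * p * (x - w) := fun x hx => by
    rw [intervalIntegral.integral_congr (g := fun _ => (1 - ε) * p) fun t ht => hgin t ?_]
    · rw [intervalIntegral.integral_const, smul_eq_mul]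
      ring
    · rw [uIcc_of_le hx.1] at ht
      exact ⟨ht.1, ht.2.trans hx.2⟩
  set b₀ := (1 - ε) * (p * w + q) - ∫ t in (0 : ℝ)..w, g t with hb₀
  set b : ℝ → ℝ := fun x => b₀ + ∫ t in (0 : ℝ)..x, g t with hb
  have hbw : ∀ x, b x = (1 - ε) * (p * w + q) + ∫ t in w..x, g t := fun x => by
    simp only [b, b₀]
    rw [← intervalIntegral.integral_add_adjacent_intervals (hI 0 w) (hI w x)]
    ring
  have hbmid : ∀ x ∈ Icc w X, b x = (1 - ε) * (p * x + q) := fun x hx => by
    rw [hbw, hmid x hx]; ring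
  have hlin : ∀ x ∈ Icc w X, |p * x + q| ≤ 1 := fun x hx => by
    rw [abs_le] at hpw hpX ⊢
    rcases le_total 0 p with hp | hp
    · have := mul_le_mul_of_nonneg_left hx.1 hp
      have := mul_le_mul_of_nonneg_left hx.2 hp
      constructor <;> linarith [hpw.1, hpX.2]
    · have := mul_le_mul_of_nonpos_left hx.1 hp
      have := mul_le_mul_of_nonpos_left hx.2 hp
      constructor <;> linarith [hpw.2, hpX.1]
  have hb1 : ∀ x, |b x| ≤ 1 := fun x => by
    rcases lt_or_ge x w with hx | hx
    · rw [hbw, intervalIntegral.integral_symm x w]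
      have := mul_le_mul_of_nonneg_left hpw (sub_pos.2 hε1).le
      rw [← abs_of_pos (sub_pos.2 hε1), ← abs_mul, abs_of_pos (sub_pos.2 hε1), mul_one] at this
      linarith [abs_sub ((1 - ε) * (p * w + q)) (∫ t in x..w, g t), lrun x hx.le,
        abs_add_le ((1 - ε) * (p * w + q)) (-∫ t in x..w, g t),
        abs_neg (∫ t in x..w, g t)]
    rcases le_or_gt x X with hx' | hx'
    · rw [hbmid x ⟨hx, hx'⟩, abs_mul, abs_of_pos (sub_pos.2 hε1)]
      nlinarith [hlin x ⟨hx, hx'⟩]
    · rw [hbw, ← intervalIntegral.integral_add_adjacent_intervals (hI w X) (hI X x),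
        hmid X ⟨hwX, le_rfl⟩, ← add_assoc,
        show (1 - ε) * (p * w + q) + (1 - ε) * p * (X - w) = (1 - ε) * (p * X + q) by ring]
      have := abs_add_le ((1 - ε) * (p * X + q)) (∫ t in X..x, g t)
      rw [abs_mul, abs_of_pos (sub_pos.2 hε1)] at this
      nlinarith [hrun x hx'.le]
  have hbc : Continuous b := continuous_const.add (intervalIntegral.continuous_primitive hI 0)
  have hfl := h (fun x => √(1 - b x ^ 2)) g b₀ (by fun_prop) hg fun x _ => by
    have := (sq_le_one_iff_abs_le_one (b x)).2 (hb1 x)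
    change √(1 - b x ^ 2) ^ 2 + b x ^ 2 ≤ 1
    rw [Real.sq_sqrt (by linarith)]
    linarith
  rw [fieldFlux, hf.integral_mul_eq hg] at hfl
  have e1 : ∫ x in w..X, f x * g x = (1 - ε) * p * (A - w) := by
    rw [intervalIntegral.integral_congr (g := fun x => (1 - ε) * p * f x) fun t ht => ?_,
      intervalIntegral.integral_const_mul]
    · rw [show A - w = ∫ x in w..X, f x by linarith]
    · rw [uIcc_of_le hwX] at ht
      simp only [hgin t ht]
      ring
  have e2 : (∫ x in (0 : ℝ)..w, g x) + b₀ * Y = (1 - ε) * (p * w + q) * Y := by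
    rcases hw.1.eq_or_lt with hw0 | hw0
    · simp [b₀, ← hw0]
    · simp only [b₀, Y, hf.leftHeight_eq_one hw0]
      ring
  have e3 : (b₀ + ∫ x in (0 : ℝ)..1, g x) * u = (1 - ε) * (p * X + q) * u := by
    rcases hX.2.eq_or_lt with hX1 | hX1
    · have := hbmid X ⟨hwX, le_rfl⟩
      simp only [b] at this
      rw [← this, hX1]
    · simp [u, hf.rightHeight_eq_zero hX1]
  have e4 : I ≤ ∫ x in w..X, √(1 - b x ^ 2) := by
    refine intervalIntegral.integral_mono_on hwX
      (Continuous.intervalIntegrable (by fun_prop) _ _)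
      (Continuous.intervalIntegrable (by fun_prop) _ _) fun x hx => Real.sqrt_le_sqrt ?_
    rw [hbmid x hx, mul_pow]
    have : (1 - ε) ^ 2 ≤ 1 := by nlinarith
    nlinarith [sq_nonneg (p * x + q)]
  rw [e1, e3] at hfl
  linarith [hfl, e2, e4]

end Vale.Agent.P232
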