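import Vale.Agent.P232.Concave
import Vale.Agent.P232.Reduction

/-!
# P232: the slab range from a bound at one end

A certificate on a right neighbourhood of one volume `V₀ ∈ [1/π, 1/2)` gives the profile on
`[V₀, 1 - V₀]`.
-/

open MeasureTheory Set Filter
open scoped ENNReal Topology Real

noncomputable section

namespace Vale.Agent.P232

theorem candidate_eq_two {v : ℝ} (hv : 1 / π ≤ min v (1 - v)) : candidate v = 2 := by
  set m := min v (1 - v)
  have hπ := Real.pi_pos
  have h1 : 1 ≤ π * m := by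
    rw [div_le_iff₀ hπ] at hv
    linarith
  have hm : 0 < m := lt_of_lt_of_le (by positivity) hv
  have htube : 2 ≤ 2 * Real.sqrt (π * m) := by
    linarith [Real.one_le_sqrt.2 h1]
  have hball : 2 ≤ (36 * π) ^ ((1 : ℝ) / 3) * m ^ ((2 : ℝ) / 3) := by
    have h2 : ((36 * π) ^ ((1 : ℝ) / 3) * m ^ ((2 : ℝ) / 3)) ^ 3 = 36 * π * m ^ 2 := by
      rw [mul_pow, ← Real.rpow_natCast, ← Real.rpow_mul (by positivity),
        ← Real.rpow_natCast (m ^ _), ← Real.rpow_mul hm.le]
      norm_num
    have h3 : (2 : ℝ) ^ 3 ≤ 36 * π * m ^ 2 := by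
      have : 36 * π * m ^ 2 = 36 * (π * m) * m := by ring
      have hm4 : 1 / 4 ≤ m := le_trans
        (one_div_le_one_div_of_le hπ Real.pi_lt_four.le) hv
      rw [this]
      nlinarith
    rw [← h2] at h3
    exact le_of_pow_le_pow_left₀ (by norm_num) (by positivity) h3
  rw [candidate, min_eq_right]
  exact le_min hball htube

/-- A lower bound `2` at `V₀` gives the profile on `[V₀, 1 - V₀]`. -/
theorem profile_eq_two_of_endpoint {V₀ : ℝ} (h0 : 1 / π ≤ V₀)
    (h : ENNReal.ofReal 2 ≤ profile V₀) {V : ℝ} (hV : V ∈ Icc V₀ (1 - V₀)) :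
    profile V = ENNReal.ofReal (candidate V) := by
  have h4 : 1 / 4 ≤ V₀ := (one_div_le_one_div_of_le Real.pi_pos Real.pi_lt_four.le).trans h0
  refine le_antisymm (profile_le_candidate ⟨by linarith [hV.1], by linarith [hV.2]⟩) ?_
  rw [candidate_eq_two (le_min (h0.trans hV.1) (by linarith [hV.2]))]
  exact profile_ge_of_endpoint h4 ENNReal.ofReal_ne_top h hV

/-- The profile on `[V₀, 1 - V₀]` from a certificate near `V₀`. -/
theorem profile_eq_of_slab_near {V₀ : ℝ} (h0 : 1 / π ≤ V₀) (h2 : V₀ ≤ 1 / 2)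
    (h : ∀ᶠ W in 𝓝 V₀, ReducedBoundAt W) {V : ℝ} (hV : V ∈ Icc V₀ (1 - V₀)) :
    profile V = ENNReal.ofReal (candidate V) := by
  refine profile_eq_two_of_endpoint h0 ?_ hV
  have := candidate_le_profile_of_eventually h
  rwa [candidate_eq_two (le_min h0 (by linarith))] at this

/-- The profile on `(V₀, 1 - V₀)` from a certificate on a right-open interval at `V₀`. -/
theorem profile_eq_of_slab_right {V₀ V₁ : ℝ} (h0 : 1 / π ≤ V₀) (h01 : V₀ < V₁)
    (h : ∀ W ∈ Ioo V₀ V₁, ReducedBoundAt W) {V : ℝ} (hV : V ∈ Ioo V₀ (1 - V₀)) :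
    profile V = ENNReal.ofReal (candidate V) := by
  have h12 : V₀ < min V (1 - V) := lt_min hV.1 (by linarith [hV.2])
  obtain ⟨W, hW0, hW1⟩ := exists_between (lt_min h01 h12)
  rw [lt_min_iff] at hW1
  obtain ⟨hWV₁, hWV⟩ := hW1
  rw [lt_min_iff] at hWV
  refine profile_eq_of_slab_near (h0.trans hW0.le) (by linarith [hWV.1, hWV.2])
    (eventually_of_mem (isOpen_Ioo.mem_nhds ⟨hW0, hWV₁⟩) h) ⟨hWV.1.le, by linarith [hWV.2]⟩

/-- The whole profile from the certificates below `1/π`. -/
theorem profile_eq_of_below_inv_pi (h : ∀ W ∈ Ioo (0 : ℝ) (1 / π), ReducedBoundAt W) {V : ℝ}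
    (hV : V ∈ Ioo (0 : ℝ) 1) : profile V = ENNReal.ofReal (candidate V) := by
  refine le_antisymm (profile_le_candidate hV) ?_
  have hπ4 : (1 : ℝ) / 4 < 1 / π := one_div_lt_one_div_of_lt Real.pi_pos Real.pi_lt_four
  have low : ∀ W ∈ Ioo (0 : ℝ) (1 / π), ENNReal.ofReal (candidate W) ≤ profile W := fun W hW =>
    candidate_le_profile_of_eventually (eventually_of_mem (isOpen_Ioo.mem_nhds hW) h)
  rcases lt_or_ge (min V (1 - V)) (1 / π) with hlt | hge
  · rcases le_total V (1 - V) with hc | hc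
    · rw [min_eq_left hc] at hlt
      exact low V ⟨hV.1, hlt⟩
    · rw [min_eq_right hc] at hlt
      have hsym : candidate (1 - V) = candidate V := by
        simp only [candidate, sub_sub_cancel, min_comm (1 - V) V]
      rw [← hsym]
      refine (low (1 - V) ⟨by linarith [hV.2], hlt⟩).trans ?_
      refine le_iInf fun E => le_iInf fun hE => le_iInf fun hEV => ?_
      exact iInf_le_of_le Eᶜ (iInf_le_of_le hE.compl
        (iInf_le_of_le (hE.torusVolume_compl.trans (by rw [hEV])) hE.perimeter_compl_le))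
  · rw [candidate_eq_two hge]
    refine profile_slab_of_tube (a := 1 / 4) hπ4 (fun W hW => ?_)
      ⟨hge.trans (min_le_left _ _), by linarith [hge.trans (min_le_right V (1 - V))]⟩
    refine le_trans (ENNReal.ofReal_le_ofReal ?_) (low W ⟨by linarith [hW.1], hW.2⟩)
    have hW2 : W ≤ 1 / 2 := by
      have : (1 : ℝ) / π ≤ 1 / 2 := one_div_le_one_div_of_le two_pos Real.two_le_pi
      linarith [hW.2]
    have hm : min W (1 - W) = W := min_eq_left (by linarith)
    have hWπ : π * W ≤ 1 := by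
      have := hW.2
      rw [lt_div_iff₀ Real.pi_pos] at this
      linarith
    have hball : 2 * Real.sqrt (π * W) ≤ (36 * π) ^ ((1 : ℝ) / 3) * W ^ ((2 : ℝ) / 3) := by
      refine le_of_pow_le_pow_left₀ (n := 6) (by norm_num) (by have := hW.1; positivity) ?_
      have hW0 : 0 < W := by linarith [hW.1]
      have e1 : (2 * Real.sqrt (π * W)) ^ 6 = 64 * (π * W) ^ 3 := by
        have := Real.sq_sqrt (show 0 ≤ π * W by positivity)
        calc (2 * Real.sqrt (π * W)) ^ 6 = 64 * (Real.sqrt (π * W) ^ 2) ^ 3 := by ring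
          _ = _ := by rw [this]
      have e2 : ((36 * π) ^ ((1 : ℝ) / 3) * W ^ ((2 : ℝ) / 3)) ^ 6 = (36 * π) ^ 2 * W ^ 4 := by
        rw [mul_pow, ← Real.rpow_natCast, ← Real.rpow_mul (by positivity),
          ← Real.rpow_natCast (W ^ _), ← Real.rpow_mul hW0.le]
        norm_num
      rw [e1, e2]
      have : 64 * π ≤ 1296 * W := by linarith [hW.1, Real.pi_lt_d2]
      calc 64 * (π * W) ^ 3 = 64 * π * (π ^ 2 * W ^ 3) := by ring
        _ ≤ 1296 * W * (π ^ 2 * W ^ 3) := mul_le_mul_of_nonneg_right this (by positivity)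
        _ = _ := by ring
    rw [candidate, hm]
    exact le_min (le_min hball le_rfl) (by linarith [Real.sqrt_le_one.2 hWπ])

end Vale.Agent.P232
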