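import Vale.Agent.P232.Cases
import Vale.Agent.P232.Planar

/-!
# P232: slices of a down set and the band-free length bound
-/

open MeasureTheory Set Filter
open scoped ENNReal Real Topology

noncomputable section

namespace Vale.Agent.P232

/-- The point with coordinate `i` equal to `a`, `j` to `b`, and the remaining one to `c`. -/
def mkPoint (i j : Fin 3) (a b c : ℝ) : R3 :=
  fun l => if l = i then a else if l = j then b else c

/-- Height of `D` over `(a, c)` in the direction `j`. -/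
def height (D : Set R3) (i j : Fin 3) (c a : ℝ) : ℝ :=
  sSup (insert 0 {b | b ∈ Icc (0 : ℝ) 1 ∧ mkPoint i j a b c ∈ D})

variable {D : Set R3} {i j : Fin 3} {a b c : ℝ}

theorem mkPoint_mem_openBox (ha : a ∈ Ioo (0 : ℝ) 1) (hb : b ∈ Ioo (0 : ℝ) 1)
    (hc : c ∈ Ioo (0 : ℝ) 1) : mkPoint i j a b c ∈ openBox :=
  mem_openBox.2 fun l => by unfold mkPoint; split_ifs <;> assumption

theorem mkPoint_mem_box (ha : a ∈ Icc (0 : ℝ) 1) (hb : b ∈ Icc (0 : ℝ) 1)
    (hc : c ∈ Icc (0 : ℝ) 1) : mkPoint i j a b c ∈ box := by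
  refine ⟨fun l => ?_, fun l => ?_⟩ <;> unfold mkPoint <;>
    simp only [Pi.zero_apply, Pi.one_apply] <;> split_ifs <;>
    first
    | exact ha.1 | exact ha.2 | exact hb.1 | exact hb.2 | exact hc.1 | exact hc.2

theorem mkPoint_mono {a' b' : ℝ} (ha : a ≤ a') (hb : b ≤ b') :
    mkPoint i j a b c ≤ mkPoint i j a' b' c :=
  fun l => by unfold mkPoint; split_ifs <;> first | exact ha | exact hb | exact le_rfl

theorem bddAbove_height :
    BddAbove (insert 0 {b | b ∈ Icc (0 : ℝ) 1 ∧ mkPoint i j a b c ∈ D}) :=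
  (bddAbove_Icc.mono fun _ h => h.1).insert 0

theorem height_mem (D : Set R3) (i j : Fin 3) (c a : ℝ) : height D i j c a ∈ Icc (0 : ℝ) 1 := by
  refine ⟨le_csSup bddAbove_height (mem_insert _ _), csSup_le (insert_nonempty _ _) ?_⟩
  rintro x (rfl | hx)
  exacts [zero_le_one, hx.1.2]

theorem le_height (hb : b ∈ Icc (0 : ℝ) 1) (h : mkPoint i j a b c ∈ D) :
    b ≤ height D i j c a :=
  le_csSup bddAbove_height (mem_insert_of_mem _ ⟨hb, h⟩)

theorem mem_of_lt_height (hdown : ∀ x ∈ D, ∀ y ∈ box, y ≤ x → y ∈ D) (ha : a ∈ Icc (0 : ℝ) 1)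
    (hb : 0 ≤ b) (hc : c ∈ Icc (0 : ℝ) 1) (h : b < height D i j c a) :
    mkPoint i j a b c ∈ D := by
  obtain ⟨b', hb', hlt⟩ := exists_lt_of_lt_csSup (insert_nonempty _ _) h
  rcases hb' with rfl | hb'
  · exact absurd hlt hb.not_gt
  · exact hdown _ hb'.2 _ (mkPoint_mem_box ha ⟨hb, hlt.le.trans hb'.1.2⟩ hc)
      (mkPoint_mono le_rfl hlt.le)

theorem height_le (hdown : ∀ x ∈ D, ∀ y ∈ box, y ≤ x → y ∈ D) (ha : a ∈ Icc (0 : ℝ) 1)
    (hb : b ∈ Icc (0 : ℝ) 1) (hc : c ∈ Icc (0 : ℝ) 1) (h : mkPoint i j a b c ∉ D) :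
    height D i j c a ≤ b :=
  le_of_not_gt fun hlt => h (mem_of_lt_height hdown ha hb.1 hc hlt)

theorem isHeight_height (hdown : ∀ x ∈ D, ∀ y ∈ box, y ≤ x → y ∈ D)
    (hc : c ∈ Icc (0 : ℝ) 1) : IsHeight (height D i j c) := by
  refine ⟨fun x hx y _ hxy => csSup_le (insert_nonempty _ _) ?_, fun x _ => height_mem D i j c x⟩
  rintro b (rfl | hb)
  · exact (height_mem D i j c x).1
  · exact le_height hb.1 (hdown _ hb.2 _ (mkPoint_mem_box (Ioo_subset_Icc_self hx) hb.1 hc)
      (mkPoint_mono hxy le_rfl))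

theorem update_fst (s : ℝ) :
    Function.update (mkPoint i j a b c) i s = mkPoint i j s b c := by
  funext l
  by_cases h : l = i
  · subst h; simp [mkPoint]
  · simp [mkPoint, h]

theorem update_snd (hij : i ≠ j) (s : ℝ) :
    Function.update (mkPoint i j a b c) j s = mkPoint i j a s c := by
  funext l
  by_cases h : l = j
  · subst h; simp [mkPoint, hij.symm]
  · simp [mkPoint, h]

variable (hdown : ∀ x ∈ D, ∀ y ∈ box, y ≤ x → y ∈ D)
include hdown

/-- No wrap along `i`: the height tends to `0` at the far end. -/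
theorem rightHeight_eq_zero_of_not_inAxis (h : ¬ InAxis D i) (hc : c ∈ Ioo (0 : ℝ) 1) :
    rightHeight (height D i j c) = 0 := by
  have hf := isHeight_height (i := i) (j := j) hdown (Ioo_subset_Icc_self hc)
  refine le_antisymm (le_of_not_gt fun hpos => ?_)
    (le_csInf ((nonempty_Ioo.2 zero_lt_one).image _)
      (by rintro _ ⟨x, hx, rfl⟩; exact (hf.mem x hx).1))
  set v := min (rightHeight (height D i j c) / 2) (1 / 2)
  have hv : v ∈ Ioo (0 : ℝ) 1 :=
    ⟨lt_min (half_pos hpos) (by norm_num), (min_le_right _ _).trans_lt (by norm_num)⟩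
  obtain ⟨s, hs, hsn⟩ := exists_notMem_of_not_inAxis hdown h
    (mkPoint_mem_openBox (i := i) (j := j) (a := 1 / 2) ⟨by norm_num, by norm_num⟩ hv hc)
  rw [update_fst] at hsn
  have h1 := height_le hdown (Ioo_subset_Icc_self hs) (Ioo_subset_Icc_self hv)
    (Ioo_subset_Icc_self hc) hsn
  have h2 : v < rightHeight (height D i j c) :=
    (min_le_left _ _).trans_lt (half_lt_self hpos)
  linarith [hf.rightHeight_le hs]

/-- No wrap along `j`: no top width. -/
theorem topWidth_eq_zero_of_not_inAxis (hij : i ≠ j) (h : ¬ InAxis D j)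
    (hc : c ∈ Ioo (0 : ℝ) 1) : topWidth (height D i j c) = 0 := by
  refine le_antisymm (csSup_le (insert_nonempty _ _) ?_) IsHeight.topWidth_nonneg
  rintro x (rfl | ⟨hx, h1⟩)
  · exact le_rfl
  exfalso
  obtain ⟨s, hs, hsn⟩ := exists_notMem_of_not_inAxis hdown h
    (mkPoint_mem_openBox (i := i) (j := j) (b := 1 / 2) hx ⟨by norm_num, by norm_num⟩ hc)
  rw [update_snd hij] at hsn
  linarith [height_le hdown (Ioo_subset_Icc_self hx) (Ioo_subset_Icc_self hs)
    (Ioo_subset_Icc_self hc) hsn, hs.2]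

/-- The complement does not wrap along `j`: the height is positive everywhere. -/
theorem botWidth_eq_one_of_not_outAxis (hij : i ≠ j) (h : ¬ OutAxis D j)
    (hc : c ∈ Ioo (0 : ℝ) 1) : botWidth (height D i j c) = 1 := by
  refine le_antisymm IsHeight.botWidth_le_one (le_of_forall_lt_imp_le_of_dense fun x hx => ?_)
  set y := max x (1 / 2)
  have hy : y ∈ Ioo (0 : ℝ) 1 :=
    ⟨lt_max_of_lt_right (by norm_num), max_lt hx (by norm_num)⟩
  obtain ⟨s, hs, hsm⟩ := exists_mem_of_not_outAxis hdown h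
    (mkPoint_mem_openBox (i := i) (j := j) (b := 1 / 2) hy ⟨by norm_num, by norm_num⟩ hc)
  rw [update_snd hij] at hsm
  exact (le_max_left x _).trans (le_csSup (IsHeight.bdd _) (mem_insert_of_mem _
    ⟨hy, hs.1.trans_le (le_height (Ioo_subset_Icc_self hs) hsm)⟩))

/-- The complement does not wrap along `i`: the height tends to `1` at the near end. -/
theorem leftHeight_eq_one_of_not_outAxis (h : ¬ OutAxis D i) (hc : c ∈ Ioo (0 : ℝ) 1) :
    leftHeight (height D i j c) = 1 := by
  have hf := isHeight_height (i := i) (j := j) hdown (Ioo_subset_Icc_self hc)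
  refine le_antisymm (csSup_le ((nonempty_Ioo.2 zero_lt_one).image _)
    (by rintro _ ⟨x, hx, rfl⟩; exact (hf.mem x hx).2))
    (le_of_forall_lt_imp_le_of_dense fun v hv => ?_)
  set y := max v (1 / 2)
  have hy : y ∈ Ioo (0 : ℝ) 1 :=
    ⟨lt_max_of_lt_right (by norm_num), max_lt hv (by norm_num)⟩
  obtain ⟨s, hs, hsm⟩ := exists_mem_of_not_outAxis hdown h
    (mkPoint_mem_openBox (i := i) (j := j) (a := 1 / 2) ⟨by norm_num, by norm_num⟩ hy hc)
  rw [update_fst] at hsm
  exact (le_max_left v _).trans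
    ((le_height (Ioo_subset_Icc_self hy) hsm).trans (hf.le_leftHeight hs))

/-- In a band-free direction every slice has `l ≥ √(π min (A, 1 - A))`. -/
theorem sqrt_le_of_bandFreeAxes (hij : BandFreeAxes D i j) (hc : c ∈ Ioo (0 : ℝ) 1) {l : ℝ}
    (hl : LenGe (height D i j c) l) :
    Real.sqrt (π * min (∫ x in (0 : ℝ)..1, height D i j c x)
      (1 - ∫ x in (0 : ℝ)..1, height D i j c x)) ≤ l := by
  set f := height D i j c with hfdef
  have hf : IsHeight f := isHeight_height hdown (Ioo_subset_Icc_self hc)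
  have hM := hf.master hl
  set A := ∫ x in (0 : ℝ)..1, f x
  have island : topWidth f = 0 → rightHeight f = 0 → Real.sqrt (π * min A (1 - A)) ≤ l :=
    fun hw hu => (Real.sqrt_le_sqrt
      (mul_le_mul_of_nonneg_left (min_le_left _ _) Real.pi_pos.le)).trans
        (Slice.island_le hM hw hu)
  have cross : leftHeight f = 1 → botWidth f = 1 → Real.sqrt (π * min A (1 - A)) ≤ l :=
    fun hY hX => (Real.sqrt_le_sqrt
      (mul_le_mul_of_nonneg_left (min_le_right _ _) Real.pi_pos.le)).trans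
        (Slice.cross_le hM hY hX)
  obtain ⟨hne, h | h⟩ := hij
  · obtain ⟨hi, hj | hj⟩ := h
    · exact island (topWidth_eq_zero_of_not_inAxis hdown hne hj hc)
        (rightHeight_eq_zero_of_not_inAxis hdown hi hc)
    · rcases (IsHeight.topWidth_nonneg (f := f)).eq_or_lt with hw | hw
      · exact island hw.symm (rightHeight_eq_zero_of_not_inAxis hdown hi hc)
      · exact cross (hf.leftHeight_eq_one hw) (botWidth_eq_one_of_not_outAxis hdown hne hj hc)
  · exact cross (leftHeight_eq_one_of_not_outAxis hdown h.1 hc)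
      (botWidth_eq_one_of_not_outAxis hdown hne h.2 hc)

end Vale.Agent.P232
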