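import Vale.Agent.P232.SlicingGlue
import Vale.Agent.P232.Budgets

/-!
# P232: the master inequality of one slicing direction (PROOF.md, T1)

If `lam A + E ≤ c(A) √(π min (A, 1 - A))` and, for middle areas,
`lam A + E - mu (A - 1/π) ≤ c(A)`, then `lam V + E - mu G + ∫_a^b √(1 - c²) ≤ M`, where `G`
bounds the integral of the band widths.
-/

open MeasureTheory Set Filter
open scoped Real Topology

noncomputable section

namespace Vale.Agent.P232.T1

variable {lam E mu cA A l g : ℝ}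

/-- A slice outside the middle, or not a band. -/
theorem pointwise_nonband (hc : 0 ≤ cA) (hmu : 0 ≤ mu) (hg : 0 ≤ g)
    (h1 : lam * A + E ≤ cA * Real.sqrt (π * min A (1 - A)))
    (hl : Real.sqrt (π * min A (1 - A)) ≤ l) : lam * A + E - mu * g ≤ cA * l := by
  have := mul_le_mul_of_nonneg_left hl hc
  nlinarith [mul_nonneg hmu hg]

/-- The concavity of `√(π (A - g))` in `g`. -/
theorem sqrt_interp {R θ x : ℝ} (hθ0 : 0 ≤ θ) (hθ1 : θ ≤ 1)
    (hx : x = (1 - θ) * R ^ 2 + θ) : (1 - θ) * R + θ ≤ Real.sqrt x := by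
  refine Real.le_sqrt_of_sq_le ?_
  subst hx
  nlinarith [mul_nonneg (mul_nonneg (sub_nonneg.2 hθ1) hθ0) (sq_nonneg (R - 1))]

/-- Every slice: `lam A + E - mu g ≤ c l`. -/
theorem pointwise (hc : 0 ≤ cA) (hmu : 0 ≤ mu) (hg : 0 ≤ g) (hA0 : 0 ≤ A)
    (h1 : lam * A + E ≤ cA * Real.sqrt (π * min A (1 - A)))
    (h2 : 1 / π ≤ A → A ≤ 1 - 1 / π → lam * A + E - mu * (A - 1 / π) ≤ cA)
    (hl : Real.sqrt (π * min A (1 - A)) ≤ l ∨ (1 ≤ l ∧ Real.sqrt (π * (A - g)) ≤ l)) :
    lam * A + E - mu * g ≤ cA * l := by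
  rcases hl with hl | ⟨hl1, hlg⟩
  · exact pointwise_nonband hc hmu hg h1 hl
  have hπ := Real.pi_pos
  by_cases hmid : 1 / π < A ∧ A < 1 - 1 / π
  swap
  · refine pointwise_nonband hc hmu hg h1 (le_trans (Real.sqrt_le_one.2 ?_) hl1)
    rw [not_and_or, not_lt, not_lt] at hmid
    have e : π * (1 / π) = 1 := by field_simp
    rcases hmid with h | h
    · exact (mul_le_mul_of_nonneg_left ((min_le_left _ _).trans h) hπ.le).trans e.le
    · exact (mul_le_mul_of_nonneg_left ((min_le_right _ _).trans (by linarith)) hπ.le).trans e.le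
  obtain ⟨hm1, hm2⟩ := hmid
  have hii := h2 hm1.le hm2.le
  set d := A - 1 / π with hd
  have hd0 : 0 < d := sub_pos.2 hm1
  rcases le_or_gt d g with hgd | hgd
  · nlinarith [mul_le_mul_of_nonneg_left hgd hmu, mul_le_mul_of_nonneg_left hl1 hc]
  set θ := g / d with hθ
  have hθ0 : 0 ≤ θ := div_nonneg hg hd0.le
  have hθ1 : θ ≤ 1 := (div_le_one hd0).2 hgd.le
  have hgθ : θ * d = g := div_mul_cancel₀ g hd0.ne'
  set R := Real.sqrt (π * A) with hR
  have hiR : lam * A + E ≤ cA * R := h1.trans (mul_le_mul_of_nonneg_left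
    (Real.sqrt_le_sqrt (mul_le_mul_of_nonneg_left (min_le_left _ _) hπ.le)) hc)
  have hsq : π * (A - g) = (1 - θ) * R ^ 2 + θ := by
    rw [hR, Real.sq_sqrt (mul_nonneg hπ.le hA0), ← hgθ, hd]
    field_simp
    ring
  have hi := sqrt_interp hθ0 hθ1 hsq
  calc lam * A + E - mu * g
      = (1 - θ) * (lam * A + E) + θ * (lam * A + E - mu * d) := by rw [← hgθ]; ring
    _ ≤ (1 - θ) * (cA * R) + θ * cA :=
        add_le_add (mul_le_mul_of_nonneg_left hiR (sub_nonneg.2 hθ1))
          (mul_le_mul_of_nonneg_left hii hθ0)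
    _ = cA * ((1 - θ) * R + θ) := by ring
    _ ≤ cA * l := mul_le_mul_of_nonneg_left (hi.trans hlg) hc

/-- **T1, abstract form.** -/
theorem core {A l g : ℝ → ℝ} {a b p G lam E mu : ℝ} {c : ℝ → ℝ} (hab : a ≤ b)
    (hAI : IntervalIntegrable A volume 0 1) (hlI : IntervalIntegrable l volume 0 1)
    (hgI : IntervalIntegrable g volume 0 1)
    (hS : ∀ c s : ℝ → ℝ, Continuous c → Continuous s → (∀ t, 0 ≤ c t) → (∀ t, 0 ≤ s t) →
      (∀ t, c t ^ 2 + s t ^ 2 ≤ 1) →
        (∫ z in (0 : ℝ)..1, c (A z) * l z) + ∫ t in a..b, s t ≤ p)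
    (hAab : ∀ z ∈ Ioo (0 : ℝ) 1, A z ∈ Icc a b) (hA01 : ∀ z ∈ Ioo (0 : ℝ) 1, A z ∈ Icc (0 : ℝ) 1)
    (hg0 : ∀ z ∈ Ioo (0 : ℝ) 1, 0 ≤ g z) (hG : ∫ z in (0 : ℝ)..1, g z ≤ G)
    (hl : ∀ z ∈ Ioo (0 : ℝ) 1, Real.sqrt (π * min (A z) (1 - A z)) ≤ l z ∨
      (1 ≤ l z ∧ Real.sqrt (π * (A z - g z)) ≤ l z))
    (hmu : 0 ≤ mu) (hc : ContinuousOn c (Icc a b)) (hc0 : ∀ t ∈ Icc a b, 0 ≤ c t)
    (hc1 : ∀ t ∈ Icc a b, c t ≤ 1)
    (h1 : ∀ t ∈ Icc a b, lam * t + E ≤ c t * Real.sqrt (π * min t (1 - t)))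
    (h2 : ∀ t ∈ Icc a b, 1 / π ≤ t → t ≤ 1 - 1 / π → lam * t + E - mu * (t - 1 / π) ≤ c t) :
    lam * (∫ z in (0 : ℝ)..1, A z) + E - mu * G + ∫ t in a..b, Real.sqrt (1 - c t ^ 2) ≤ p := by
  set c' : ℝ → ℝ := IccExtend hab (fun t => c t) with hc'
  have hc'c : Continuous c' := continuous_IccExtend_iff.2 (continuousOn_iff_continuous_domRestrict.1 hc)
  have hc'0 : ∀ t, 0 ≤ c' t := fun t => hc0 _ (projIcc a b hab t).2
  have hc'1 : ∀ t, c' t ≤ 1 := fun t => hc1 _ (projIcc a b hab t).2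
  have hc'eq : ∀ t ∈ Icc a b, c' t = c t := fun t ht => IccExtend_of_mem hab _ ht
  have hS' := hS c' (fun t => Real.sqrt (1 - c' t ^ 2)) hc'c (by fun_prop) hc'0
    (fun t => Real.sqrt_nonneg _) fun t => by
      rw [Real.sq_sqrt (by nlinarith [hc'0 t, hc'1 t])]; linarith
  have e : ∫ t in a..b, Real.sqrt (1 - c' t ^ 2) = ∫ t in a..b, Real.sqrt (1 - c t ^ 2) := by
    refine intervalIntegral.integral_congr fun t ht => ?_
    rw [uIcc_of_le hab] at ht
    simp only [hc'eq t ht]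
  have hcl : IntervalIntegrable (fun z => c' (A z) * l z) volume 0 1 := by
    rw [intervalIntegrable_iff] at hlI ⊢
    exact Integrable.bdd_mul hlI (hc'c.comp_aestronglyMeasurable (intervalIntegrable_iff.1 hAI).1)
      (Eventually.of_forall fun z => by
        rw [Real.norm_eq_abs, abs_of_nonneg (hc'0 _)]; exact hc'1 _)
  have hlin : IntervalIntegrable (fun z => lam * A z + E) volume 0 1 :=
    (hAI.const_mul lam).add intervalIntegrable_const
  have hint : ∫ z in (0 : ℝ)..1, (lam * A z + E - mu * g z) ≤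
      ∫ z in (0 : ℝ)..1, c' (A z) * l z := by
    refine intervalIntegral.integral_mono_on_of_le_Ioo zero_le_one (hlin.sub (hgI.const_mul mu))
      hcl fun z hz => ?_
    rw [hc'eq _ (hAab z hz)]
    exact pointwise (hc0 _ (hAab z hz)) hmu (hg0 z hz) (hA01 z hz).1
      (h1 _ (hAab z hz)) (h2 _ (hAab z hz)) (hl z hz)
  rw [intervalIntegral.integral_sub hlin (hgI.const_mul mu),
    intervalIntegral.integral_add (hAI.const_mul lam) intervalIntegrable_const] at hint
  simp only [intervalIntegral.integral_const_mul, intervalIntegral.integral_const, sub_zero,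
    one_smul] at hint
  nlinarith [mul_le_mul_of_nonneg_left hG hmu]

/-! ## Reduced sets -/

/-- The band width of the slice: `u` or `w` on bands, `0` on islands and crosses. -/
def bandWidth (D : Set R3) (i j : Fin 3) (z : ℝ) : ℝ :=
  if topWidth (heightExt D i j z) = 0 then rightHeight (heightExt D i j z)
  else if rightHeight (heightExt D i j z) = 0 then topWidth (heightExt D i j z) else 0

/-- A band with the other orientation: `l ≥ √(π (A - w))`. -/
theorem band_top_le {s : Slice} {l : ℝ} (h : s.Master l) (hu : s.u = 0) :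
    Real.sqrt (π * (s.A - s.w)) ≤ l := by
  rcases s.w_le.eq_or_lt with hw | hw
  · rw [show s.A - s.w = 0 by linarith [s.w_le_A, s.A_le_X], mul_zero, Real.sqrt_zero]
    exact h.nonneg
  have h0 : 0 < s.X - s.w := sub_pos.2 hw
  have hbw : 1 / (s.X - s.w) * s.w + -(s.w / (s.X - s.w)) = 0 := by ring
  have hbX : 1 / (s.X - s.w) * s.X + -(s.w / (s.X - s.w)) = 1 := by
    field_simp; ring
  have h1 := h (1 / (s.X - s.w)) (-(s.w / (s.X - s.w))) (by rw [hbw]; norm_num) (by rw [hbX]; norm_num)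
  simp only [Slice.flux, hbw, hbX, hu, zero_mul, mul_zero, add_zero, sub_zero] at h1
  have e : ∀ x : ℝ, 1 / (s.X - s.w) * x + -(s.w / (s.X - s.w)) = (x - s.w) / (s.X - s.w) :=
    fun x => by ring
  simp only [e, (Slice.integral_arc hw).1] at h1
  refine (Slice.amgm (sub_nonneg.2 s.w_le_A) h0).trans (le_of_eq_of_le ?_ h1)
  ring

/-- The four planar facts in the form used by `core`. -/
theorem slice_alternative {s : Slice} {l : ℝ} (h : s.Master l) :
    Real.sqrt (π * min s.A (1 - s.A)) ≤ l ∨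
      (1 ≤ l ∧ Real.sqrt (π * (s.A -
        if s.w = 0 then s.u else if s.u = 0 then s.w else 0)) ≤ l) := by
  by_cases hw : s.w = 0
  · by_cases hu : s.u = 0
    · exact Or.inl (s.nonband_le h (Or.inl ⟨hw, hu⟩))
    · have hX : s.X = 1 := by
        by_contra hne
        exact hu (s.u_eq (lt_of_le_of_ne s.X_le hne))
      refine Or.inr ⟨?_, by rw [if_pos hw]; exact Slice.band_low_le h hw hX⟩
      refine le_trans (Real.le_sqrt_of_sq_le ?_) (Slice.chord_le h)
      rw [hX, hw]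
      nlinarith [sq_nonneg (s.Y - s.u)]
  · have hw' : 0 < s.w := s.w_nonneg.lt_of_ne (Ne.symm hw)
    by_cases hu : s.u = 0
    · refine Or.inr ⟨?_, by rw [if_neg hw, if_pos hu]; exact band_top_le h hu⟩
      refine le_trans (Real.le_sqrt_of_sq_le ?_) (Slice.chord_le h)
      rw [s.Y_eq hw', hu]
      nlinarith [sq_nonneg (s.X - s.w)]
    · exact Or.inl (s.nonband_le h (Or.inr ⟨hw', s.u_nonneg.lt_of_ne (Ne.symm hu)⟩))

variable {D : Set R3} {M : ℝ} {i j : Fin 3}

theorem isHeight_ext (hdown : ∀ x ∈ D, ∀ y ∈ box, y ≤ x → y ∈ D) (z : ℝ) :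
    IsHeight (heightExt D i j z) :=
  isHeight_of_antitone (antitone_heightExt hdown z) (heightExt_mem D i j z)

theorem bandWidth_mem (hdown : ∀ x ∈ D, ∀ y ∈ box, y ≤ x → y ∈ D) (z : ℝ) :
    bandWidth D i j z ∈ Icc (0 : ℝ) 1 := by
  set s := (isHeight_ext (i := i) (j := j) hdown z).slice
  unfold bandWidth
  split_ifs
  exacts [⟨s.u_nonneg, s.u_le.trans s.Y_le⟩, ⟨s.w_nonneg, s.w_le.trans s.X_le⟩,
    ⟨le_rfl, zero_le_one⟩]

theorem intervalIntegrable_bandWidth (hdown : ∀ x ∈ D, ∀ y ∈ box, y ≤ x → y ∈ D) (hij : i ≠ j) :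
    IntervalIntegrable (bandWidth D i j) volume 0 1 := by
  have key : ∀ i j : Fin 3, Antitone fun z => rightHeight (heightExt D i j z) := fun i j a b h => by
    refine le_csInf ((nonempty_Ioo.2 zero_lt_one).image _) ?_
    rintro _ ⟨x, hx, rfl⟩
    exact ((isHeight_ext hdown b).rightHeight_le hx).trans (antitone_heightExt_fst hdown x h)
  have hu : Measurable fun z => rightHeight (heightExt D i j z) := (key i j).measurable
  have hw : Measurable fun z => topWidth (heightExt D i j z) := by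
    simp only [(topWidth_eq_rightHeight hdown hij _).1]
    exact (key j i).measurable
  have hm : Measurable (bandWidth D i j) :=
    Measurable.ite (hw (measurableSet_singleton 0)) hu
      (Measurable.ite (hu (measurableSet_singleton 0)) hw measurable_const)
  rw [intervalIntegrable_iff_integrableOn_Ioc_of_le zero_le_one]
  exact IntegrableOn.of_bound measure_Ioc_lt_top hm.aestronglyMeasurable 1
    (Eventually.of_forall fun z => by
      rw [Real.norm_eq_abs, abs_of_nonneg (bandWidth_mem hdown z).1]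
      exact (bandWidth_mem hdown z).2)

/-- The end areas bracket all the slice areas. -/
theorem sliceArea_between (h : IsReduced D M) {a b : ℝ}
    (ha : Tendsto (sliceArea D i j) (𝓝[<] 1) (𝓝 a))
    (hb : Tendsto (sliceArea D i j) (𝓝[>] 0) (𝓝 b)) {z : ℝ} (hz : z ∈ Ioo (0 : ℝ) 1) :
    sliceArea D i j z ∈ Icc a b :=
  ⟨le_of_tendsto ha (Eventually.mono (Ioo_mem_nhdsLT hz.2) fun _ hy =>
      antitone_sliceArea h.down hy.1.le),
    ge_of_tendsto hb (Eventually.mono (Ioo_mem_nhdsGT hz.1) fun _ hy =>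
      antitone_sliceArea h.down hy.2.le)⟩

/-- The slicing inequality with the one-sided end areas. -/
theorem slice_limits (h : IsReduced D M) (hij : i ≠ j) {a b : ℝ}
    (ha : Tendsto (sliceArea D i j) (𝓝[<] 1) (𝓝 a))
    (hb : Tendsto (sliceArea D i j) (𝓝[>] 0) (𝓝 b)) {c s : ℝ → ℝ} (hc : Continuous c)
    (hs : Continuous s) (hc0 : ∀ t, 0 ≤ c t) (hs0 : ∀ t, 0 ≤ s t)
    (hcs : ∀ t, c t ^ 2 + s t ^ 2 ≤ 1) :
    (∫ z in (0 : ℝ)..1, c (sliceArea D i j z) * Slicing.len (heightExt D i j z)) +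
      ∫ t in a..b, s t ≤ M := by
  set P : ℝ → ℝ := fun x => ∫ t in (0 : ℝ)..x, s t with hP
  have hPc : Continuous P := intervalIntegral.continuous_primitive hs.intervalIntegrable 0
  set T := ∫ z in (0 : ℝ)..1, c (sliceArea D i j z) * Slicing.len (heightExt D i j z) with hT
  have e : ∀ x y : ℝ, ∫ t in x..y, s t = P y - P x := fun x y =>
    (intervalIntegral.integral_interval_sub_left (hs.intervalIntegrable 0 y)
      (hs.intervalIntegrable 0 x)).symm
  have step : ∀ z₁ ∈ Ioo (0 : ℝ) 1, T + (P b - P (sliceArea D i j z₁)) ≤ M := by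
    intro z₁ hz₁
    refine le_of_tendsto
      (tendsto_const_nhds.add (((hPc.tendsto b).comp hb).sub tendsto_const_nhds)) ?_
    filter_upwards [Ioo_mem_nhdsGT hz₁.1] with z₀ hz₀
    have := (slicing D M h i j hij c s hc hs hc0 hs0 hcs z₀ ⟨hz₀.1, hz₀.2.trans hz₁.2⟩ z₁ hz₁
      hz₀.2.le).2
    rwa [e] at this
  rw [e]
  exact le_of_tendsto (tendsto_const_nhds.add (tendsto_const_nhds.sub ((hPc.tendsto a).comp ha)))
    (Eventually.mono (Ioo_mem_nhdsLT zero_lt_one) step)

/-- **T1, the master inequality for a reduced set.** -/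
theorem master (h : IsReduced D M) (hij : i ≠ j) {a b G lam E mu : ℝ} {c : ℝ → ℝ}
    (ha : Tendsto (sliceArea D i j) (𝓝[<] 1) (𝓝 a))
    (hb : Tendsto (sliceArea D i j) (𝓝[>] 0) (𝓝 b))
    (hG : ∫ z in (0 : ℝ)..1, bandWidth D i j z ≤ G) (hmu : 0 ≤ mu)
    (hc : ContinuousOn c (Icc a b)) (hc0 : ∀ t ∈ Icc a b, 0 ≤ c t) (hc1 : ∀ t ∈ Icc a b, c t ≤ 1)
    (h1 : ∀ t ∈ Icc a b, lam * t + E ≤ c t * Real.sqrt (π * min t (1 - t)))
    (h2 : ∀ t ∈ Icc a b, 1 / π ≤ t → t ≤ 1 - 1 / π → lam * t + E - mu * (t - 1 / π) ≤ c t) :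
    lam * boxVolume D + E - mu * G + ∫ t in a..b, Real.sqrt (1 - c t ^ 2) ≤ M := by
  rw [boxVolume_eq h.down h.subset h.measurable hij]
  have hmid := sliceArea_between h ha hb (z := 1 / 2) ⟨by norm_num, by norm_num⟩
  have hlI : IntervalIntegrable (fun z => Slicing.len (heightExt D i j z)) volume 0 1 := by
    simpa using (slicing D M h i j hij (fun _ => 1) (fun _ => 0) continuous_const continuous_const
      (fun _ => zero_le_one) (fun _ => le_rfl) (fun _ => by norm_num) (1 / 2)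
      ⟨by norm_num, by norm_num⟩ (1 / 2) ⟨by norm_num, by norm_num⟩ le_rfl).1
  refine core (hmid.1.trans hmid.2) (antitone_sliceArea h.down).intervalIntegrable hlI
    (intervalIntegrable_bandWidth h.down hij)
    (fun c s hc hs hc0 hs0 hcs => slice_limits h hij ha hb hc hs hc0 hs0 hcs)
    (fun z hz => sliceArea_between h ha hb hz) (fun z _ => sliceArea_mem h.down z)
    (fun z _ => (bandWidth_mem h.down z).1) hG (fun z _ => ?_) hmu hc hc0 hc1 h1 h2
  exact slice_alternative ((isHeight_ext h.down z).master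
    (lenGe_len (antitone_heightExt h.down z) (heightExt_mem D i j z)))

end Vale.Agent.P232.T1
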