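import Vale.Agent.P232.Defs

/-!
# P232: periodic functions on the cell: invariance of the integral and integration by parts
-/

open MeasureTheory Set Filter Topology
open scoped ENNReal NNReal Real

noncomputable section

namespace Vale.Agent.P232

/-! ## The cell and periodicity -/

theorem unit_apply (i j : Fin 3) : unit i j = if j = i then 1 else 0 := by
  simp [unit, Pi.single_apply]

@[simp]
theorem norm_unit (i : Fin 3) : ‖unit i‖ = 1 := by simp [unit, Pi.norm_single]

theorem measurableSet_cell : MeasurableSet cell :=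
  MeasurableSet.univ_pi fun _ => measurableSet_Ico

theorem volume_cell : volume cell = 1 := by
  rw [cell, volume_pi_pi]
  simp

theorem volume_cell_ne_top : volume cell ≠ ⊤ := by simp [volume_cell]

theorem cell_subset_box : cell ⊆ box := fun _ hx =>
  ⟨fun i => ((mem_univ_pi.1 hx) i).1, fun i => ((mem_univ_pi.1 hx) i).2.le⟩

theorem integrableOn_cell {f : R3 → ℝ} (hf : Measurable f) (C : ℝ)
    (hC : ∀ x ∈ cell, |f x| ≤ C) : IntegrableOn f cell :=
  IntegrableOn.of_bound volume_cell_ne_top.lt_top hf.aestronglyMeasurable C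
    (ae_restrict_of_forall_mem measurableSet_cell hC)

theorem integrableOn_cell_of_continuous {f : R3 → ℝ} (hf : Continuous f) : IntegrableOn f cell :=
  (hf.continuousOn.integrableOn_compact isCompact_Icc).mono_set cell_subset_box

variable {α : Type*} {f : R3 → α}

theorem IsPeriodicFun.periodic_unit (hf : IsPeriodicFun f) (i : Fin 3) :
    Function.Periodic f (unit i) := fun x => hf x i

theorem IsPeriodicFun.add_int (hf : IsPeriodicFun f) (x : R3) (k : Fin 3 → ℤ) :
    f (x + fun i => (k i : ℝ)) = f x := by
  have hk : (fun i => (k i : ℝ)) = k 0 • unit 0 + k 1 • unit 1 + k 2 • unit 2 := by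
    funext j
    fin_cases j <;> simp [unit_apply]
  rw [hk]
  exact ((((hf.periodic_unit 0).zsmul (k 0)).add_period ((hf.periodic_unit 1).zsmul (k 1))).add_period
    ((hf.periodic_unit 2).zsmul (k 2))) x

theorem IsPeriodicFun.exists_cell (hf : IsPeriodicFun f) (x : R3) :
    ∃ y ∈ cell, f x = f y := by
  refine ⟨fun i => Int.fract (x i), mem_univ_pi.2 fun i => ⟨Int.fract_nonneg _, Int.fract_lt_one _⟩,
    ?_⟩
  have hx : x = (fun i => Int.fract (x i)) + fun i => (⌊x i⌋ : ℝ) := by
    funext i
    simp [Int.fract_add_floor]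
  conv_lhs => rw [hx, hf.add_int]

theorem IsPeriodicFun.comp {β : Type*} (hf : IsPeriodicFun f) (g : α → β) :
    IsPeriodicFun (fun x => g (f x)) := fun x i => congrArg g (hf x i)

theorem IsPeriodicFun.shift (hf : IsPeriodicFun f) (y : R3) :
    IsPeriodicFun (fun x => f (x + y)) := fun x i => by
  show f (x + unit i + y) = f (x + y)
  rw [add_right_comm, hf]

theorem IsPeriodicFun.mul {f g : R3 → ℝ} (hf : IsPeriodicFun f) (hg : IsPeriodicFun g) :
    IsPeriodicFun (fun x => f x * g x) := fun x i => by
  show f (x + unit i) * g (x + unit i) = f x * g x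
  rw [hf, hg]

theorem IsPeriodicFun.exists_bound {f : R3 → ℝ} (hf : IsPeriodicFun f) (hc : Continuous f) :
    ∃ C, ∀ x, |f x| ≤ C := by
  obtain ⟨C, hC⟩ := (isCompact_Icc (a := (0 : R3)) (b := 1)).exists_bound_of_continuousOn
    hc.continuousOn
  refine ⟨C, fun x => ?_⟩
  obtain ⟨y, hy, hxy⟩ := hf.exists_cell x
  rw [hxy]
  exact hC y (cell_subset_box hy)

theorem IsPeriodicFun.pd {f : R3 → ℝ} (hf : IsPeriodicFun f) (i : Fin 3) :
    IsPeriodicFun (pd i f) := fun x j => by
  have h : (fun z => f (z + unit j)) = f := funext fun z => hf z j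
  have h2 := fderiv_comp_add_right (𝕜 := ℝ) (f := f) (x := x) (unit j)
  rw [h] at h2
  simp only [P232.pd, ← h2]

theorem isAddFundamentalDomain_cell :
    IsAddFundamentalDomain (Submodule.span ℤ (range (Pi.basisFun ℝ (Fin 3)))).toAddSubgroup cell volume := by
  have h := ZSpan.isAddFundamentalDomain' (Pi.basisFun ℝ (Fin 3)) volume
  rwa [ZSpan.fundamentalDomain_pi_basisFun] at h

theorem IsPeriodicFun.vadd_lattice (hf : IsPeriodicFun f)
    (g : (Submodule.span ℤ (range (Pi.basisFun ℝ (Fin 3)))).toAddSubgroup) (x : R3) : f (g +ᵥ x) = f x := by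
  have hg := ((Pi.basisFun ℝ (Fin 3)).mem_span_iff_repr_mem ℤ (g : R3)).1 g.2
  choose k hk using hg
  have he : (g : R3) = fun i => (k i : ℝ) := by
    funext i
    simpa using (hk i).symm
  rw [AddSubgroup.vadd_def, vadd_eq_add, add_comm, he, hf.add_int]

/-- The integral of a periodic function over the cell is invariant under translations. -/
theorem setIntegral_cell_add {f : R3 → ℝ} (hf : IsPeriodicFun f) (y : R3) :
    ∫ x in cell, f (x + y) = ∫ x in cell, f x := by
  rw [← (measurePreserving_add_right volume y).setIntegral_image_emb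
    (MeasurableEquiv.addRight y).measurableEmbedding f cell]
  have : Countable (Submodule.span ℤ (range (Pi.basisFun ℝ (Fin 3)))).toAddSubgroup :=
    inferInstanceAs (Countable (Submodule.span ℤ (range (Pi.basisFun ℝ (Fin 3)))))
  refine IsAddFundamentalDomain.setIntegral_eq ?_ isAddFundamentalDomain_cell hf.vadd_lattice
  refine isAddFundamentalDomain_cell.image_of_equiv (Equiv.addRight y) ?_ (Equiv.refl _) ?_
  · exact (measurePreserving_add_right volume (-y)).quasiMeasurePreserving
  · intro g x
    simp [AddSubgroup.vadd_def, add_assoc]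

/-! ## Reflections in coordinate planes -/

/-- Reflection in the plane `x i = a`. -/
def refl (i : Fin 3) (a : ℝ) (x : R3) : R3 := x + (2 * a - 2 * x i) • unit i

theorem refl_apply (i : Fin 3) (a : ℝ) (x : R3) (j : Fin 3) :
    refl i a x j = if j = i then 2 * a - x i else x j := by
  by_cases h : j = i
  · subst h; simp [refl, unit_apply]; ring
  · simp [refl, unit_apply, h]

@[simp]
theorem refl_refl (i : Fin 3) (a : ℝ) (x : R3) : refl i a (refl i a x) = x := by
  funext j
  by_cases h : j = i
  · subst h; simp [refl_apply]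
  · simp [refl_apply, h]

theorem continuous_refl (i : Fin 3) (a : ℝ) : Continuous (refl i a) := by
  unfold refl; fun_prop

theorem lipschitzWith_refl (i : Fin 3) (a : ℝ) : LipschitzWith 1 (refl i a) := by
  refine LipschitzWith.mk_one fun x y => (dist_pi_le_iff dist_nonneg).2 fun j => ?_
  by_cases h : j = i
  · subst h
    simp only [refl_apply, if_true, dist_sub_left]
    exact dist_le_pi_dist x y j
  · simp only [refl_apply, if_neg h]
    exact dist_le_pi_dist x y j

theorem IsPeriodicFun.refl (hf : IsPeriodicFun f) (i : Fin 3) (a : ℝ) :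
    IsPeriodicFun (fun x => f (refl i a x)) := fun x j => by
  show f (P232.refl i a (x + unit j)) = f (P232.refl i a x)
  by_cases h : j = i
  · subst h
    have : P232.refl j a (x + unit j) + unit j = P232.refl j a x := by
      funext l
      by_cases hl : l = j
      · subst hl; simp [refl_apply, unit_apply]; ring
      · simp [refl_apply, unit_apply, hl]
    rw [← this, hf]
  · have : P232.refl i a (x + unit j) = P232.refl i a x + unit j := by
      funext l
      by_cases hl : l = i
      · subst hl; simp [refl_apply, unit_apply, Ne.symm h]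
      · simp [refl_apply, unit_apply, hl]
    rw [this, hf]

theorem measurePreserving_refl (i : Fin 3) (a : ℝ) : MeasurePreserving (refl i a) := by
  have h : refl i a = fun x j => (fun t : ℝ => if j = i then 2 * a - t else t) (x j) := by
    funext x j
    by_cases hj : j = i
    · subst hj; simp [refl_apply]
    · simp [refl_apply, hj]
  rw [h]
  refine volume_preserving_pi (f := fun j => fun t : ℝ => if j = i then 2 * a - t else t) fun j => ?_
  by_cases hj : j = i
  · simp only [hj, if_true]; exact Measure.measurePreserving_sub_left volume (2 * a)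
  · simp only [hj, if_false]; exact MeasurePreserving.id _

/-- The integral of a periodic function over the cell is invariant under reflections. -/
theorem setIntegral_cell_refl {f : R3 → ℝ} (hf : IsPeriodicFun f) (i : Fin 3) (a : ℝ) :
    ∫ x in cell, f (refl i a x) = ∫ x in cell, f x := by
  have hemb : MeasurableEmbedding (refl i a) :=
    (MeasurableEquiv.mk ⟨refl i a, refl i a, refl_refl i a, refl_refl i a⟩
      (continuous_refl i a).measurable (continuous_refl i a).measurable).measurableEmbedding
  have hpre : refl i a ⁻¹' (refl i a ⁻¹' cell) = cell := by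
    ext x; simp
  set b : R3 := fun j => if j = i then 2 * a - 1 else 0 with hb
  rw [← setIntegral_cell_add hf b,
    ← (measurePreserving_add_right volume b).setIntegral_image_emb
      (MeasurableEquiv.addRight b).measurableEmbedding f cell]
  conv_lhs => rw [← hpre, (measurePreserving_refl i a).setIntegral_preimage_emb hemb f]
  refine setIntegral_congr_set ?_
  have h1 : refl i a ⁻¹' cell =
      univ.pi fun j => if j = i then Ioc (2 * a - 1) (2 * a) else Ico (0 : ℝ) 1 := by
    ext x
    simp only [cell, mem_preimage, mem_univ_pi]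
    refine forall_congr' fun j => ?_
    by_cases hj : j = i
    · subst hj
      simp only [refl_apply, if_true, mem_Ico, mem_Ioc]
      constructor <;> rintro ⟨h₁, h₂⟩ <;> constructor <;> linarith
    · simp [refl_apply, hj]
  have h2 : (fun x : R3 => x + fun j => if j = i then 2 * a - 1 else 0) '' cell =
      univ.pi fun j => if j = i then Ico (2 * a - 1) (2 * a) else Ico (0 : ℝ) 1 := by
    rw [image_add_right]
    ext x
    simp only [cell, mem_preimage, mem_univ_pi]
    refine forall_congr' fun j => ?_
    by_cases hj : j = i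
    · subst hj
      simp only [Pi.add_apply, Pi.neg_apply, if_true, mem_Ico]
      constructor <;> rintro ⟨h₁, h₂⟩ <;> constructor <;> linarith
    · simp [hj]
  rw [h1, h2]
  refine Measure.ae_eq_set_pi fun j _ => ?_
  by_cases hj : j = i
  · simp only [hj, if_true]
    exact Ioc_ae_eq_Icc.trans Ico_ae_eq_Icc.symm
  · simp only [hj, if_false]
    exact EventuallyEq.rfl

/-! ## Gradient -/

/-- Euclidean length of the gradient. -/
def gradNorm (f : R3 → ℝ) (x : R3) : ℝ := Real.sqrt (∑ i, pd i f x ^ 2)

theorem measurable_pd (i : Fin 3) (f : R3 → ℝ) : Measurable (pd i f) :=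
  measurable_fderiv_apply_const ℝ f (unit i)

theorem measurable_gradNorm (f : R3 → ℝ) : Measurable (gradNorm f) :=
  (Finset.measurable_sum _ fun i _ => (measurable_pd i f).pow_const 2).sqrt

theorem gradNorm_nonneg (f : R3 → ℝ) (x : R3) : 0 ≤ gradNorm f x := Real.sqrt_nonneg _

theorem sum_mul_le_gradNorm (f : R3 → ℝ) (x : R3) (c : Fin 3 → ℝ) (hc : ∑ i, c i ^ 2 ≤ 1) :
    |∑ i, pd i f x * c i| ≤ gradNorm f x := by
  refine Real.abs_le_sqrt ?_
  refine (Finset.sum_mul_sq_le_sq_mul_sq _ _ _).trans ?_
  exact mul_le_of_le_one_right (Finset.sum_nonneg fun i _ => sq_nonneg _) hc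

theorem gradNorm_le_sum (f : R3 → ℝ) (x : R3) : gradNorm f x ≤ ∑ i, |pd i f x| := by
  refine Real.sqrt_le_iff.2 ⟨Finset.sum_nonneg fun i _ => abs_nonneg _, ?_⟩
  have h := Finset.sum_sq_le_sq_sum_of_nonneg (s := Finset.univ)
    (f := fun i => |pd i f x|) fun i _ => abs_nonneg _
  simpa only [sq_abs] using h

theorem abs_pd_le {f : R3 → ℝ} {L : ℝ≥0} (hf : LipschitzWith L f) (i : Fin 3) (x : R3) :
    |pd i f x| ≤ L := by
  have h := (fderiv ℝ f x).le_opNorm (unit i)
  rw [norm_unit, mul_one] at h
  exact h.trans (norm_fderiv_le_of_lipschitz ℝ hf)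

theorem gradNorm_le {f : R3 → ℝ} {L : ℝ≥0} (hf : LipschitzWith L f) (x : R3) :
    gradNorm f x ≤ 3 * L :=
  (gradNorm_le_sum f x).trans ((Finset.sum_le_sum fun i _ => abs_pd_le hf i x).trans_eq (by simp))

theorem integrableOn_gradNorm {f : R3 → ℝ} {L : ℝ≥0} (hf : LipschitzWith L f) :
    IntegrableOn (gradNorm f) cell :=
  integrableOn_cell (measurable_gradNorm f) (3 * L) fun x _ => by
    rw [abs_of_nonneg (gradNorm_nonneg f x)]; exact gradNorm_le hf x

theorem contDiff_pd {f : R3 → ℝ} {n : WithTop ℕ∞} (hf : ContDiff ℝ (n + 1) f) (i : Fin 3) :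
    ContDiff ℝ n (pd i f) :=
  (hf.fderiv_right le_rfl).clm_apply contDiff_const

theorem continuous_pd {f : R3 → ℝ} (hf : ContDiff ℝ 1 f) (i : Fin 3) : Continuous (pd i f) :=
  (hf.continuous_fderiv one_ne_zero).clm_apply continuous_const

theorem continuous_divergence {X : Fin 3 → R3 → ℝ} (hX : ∀ i, ContDiff ℝ 1 (X i)) :
    Continuous (divergence X) :=
  continuous_finsetSum _ fun i _ => continuous_pd (hX i) i

theorem exists_lipschitzWith {f : R3 → ℝ} (hf : ContDiff ℝ 1 f) (hp : IsPeriodicFun f) :
    ∃ L, LipschitzWith L f := by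
  have hper : IsPeriodicFun (fderiv ℝ f) := fun x j => by
    have h : (fun z => f (z + unit j)) = f := funext fun z => hp z j
    have h2 := fderiv_comp_add_right (𝕜 := ℝ) (f := f) (x := x) (unit j)
    rw [h] at h2
    exact h2.symm
  obtain ⟨C, hC⟩ := (isCompact_Icc (a := (0 : R3)) (b := 1)).exists_bound_of_continuousOn
    (hf.continuous_fderiv one_ne_zero).continuousOn
  refine ⟨C.toNNReal, lipschitzWith_of_nnnorm_fderiv_le (𝕜 := ℝ) (hf.differentiable one_ne_zero)
    fun x => ?_⟩
  obtain ⟨y, hy, hxy⟩ := hper.exists_cell x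
  rw [hxy, ← Real.toNNReal_coe (r := ‖fderiv ℝ f y‖₊)]
  exact Real.toNNReal_le_toNNReal (hC y (cell_subset_box hy))

/-! ## Integration by parts on the torus -/

theorem integral_pd_eq_zero {h : R3 → ℝ} (hp : IsPeriodicFun h) (hl : LocallyLipschitz h)
    (hd : ∀ᵐ x, DifferentiableAt ℝ h x) (i : Fin 3) : ∫ x in cell, pd i h x = 0 := by
  obtain ⟨C, hC⟩ := hl.locallyLipschitzOn.exists_lipschitzOnWith_of_compact
    (s := Icc (0 : R3) 2) isCompact_Icc
  set t : ℕ → ℝ := fun n => 1 / ((n : ℝ) + 1) with ht
  set q : ℕ → R3 → ℝ := fun n x => (t n)⁻¹ * (h (x + t n • unit i) - h x) with hq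
  have htpos : ∀ n, 0 < t n ∧ t n ≤ 1 := fun n => ⟨by positivity, by
    rw [ht, div_le_one (by positivity)]; linarith [Nat.cast_nonneg (α := ℝ) n]⟩
  have hzero : ∀ n, ∫ x in cell, q n x = 0 := fun n => by
    rw [integral_const_mul, integral_sub (f := fun x => h (x + t n • unit i)) (g := h)
      (integrableOn_cell_of_continuous (hl.continuous.comp (continuous_add_const _)))
      (integrableOn_cell_of_continuous hl.continuous), setIntegral_cell_add hp, sub_self, mul_zero]
  have hlim : Tendsto (fun n => ∫ x in cell, q n x) atTop (𝓝 (∫ x in cell, pd i h x)) := by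
    refine tendsto_integral_of_dominated_convergence (fun _ => (C : ℝ)) (fun n => ?_)
      (integrableOn_const volume_cell_ne_top) (fun n => ?_) ?_
    · exact ((hl.continuous.comp (continuous_add_const _)).sub hl.continuous).const_mul _
        |>.aestronglyMeasurable
    · refine ae_restrict_of_forall_mem measurableSet_cell fun x hx => ?_
      have hx' := mem_univ_pi.1 hx
      have hy : x + t n • unit i ∈ Icc (0 : R3) 2 := by
        constructor <;> intro j <;>
        · have := hx' j
          have h1 := (htpos n).1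
          have h2 := (htpos n).2
          simp only [Pi.ofNat_apply, Pi.add_apply, Pi.smul_apply, unit_apply,
            smul_eq_mul, mem_Ico] at this ⊢
          split_ifs <;> linarith
      have hxI : x ∈ Icc (0 : R3) 2 :=
        ⟨fun j => (hx' j).1, fun j => (hx' j).2.le.trans (by norm_num)⟩
      have hle := hC.dist_le_mul _ hy _ hxI
      rw [Real.dist_eq, dist_eq_norm, add_sub_cancel_left, norm_smul, norm_unit, mul_one,
        Real.norm_eq_abs, abs_of_pos (htpos n).1] at hle
      rw [hq, Real.norm_eq_abs, abs_mul, abs_inv, abs_of_pos (htpos n).1,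
        inv_mul_le_iff₀ (htpos n).1]
      linarith
    · refine ae_restrict_of_ae ?_
      filter_upwards [hd] with x hx
      have hline : HasDerivAt (fun s : ℝ => h (x + s • unit i)) (pd i h x) 0 :=
        hx.hasFDerivAt.hasLineDerivAt (unit i)
      have hto : Tendsto t atTop (𝓝[≠] 0) := tendsto_nhdsWithin_iff.2
        ⟨tendsto_one_div_add_atTop_nhds_zero_nat, Eventually.of_forall fun n => (htpos n).1.ne'⟩
      have hs := hline.tendsto_slope_zero.comp hto
      simpa [Function.comp_def, hq] using hs
  exact tendsto_nhds_unique hlim (by simp only [hzero]; exact tendsto_const_nhds)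

/-- Integration by parts on the torus. -/
theorem integral_mul_divergence {v : R3 → ℝ} {L : ℝ≥0} (hv : LipschitzWith L v)
    (hp : IsPeriodicFun v) {X : Fin 3 → R3 → ℝ} (hX : ∀ i, ContDiff ℝ 1 (X i))
    (hXp : ∀ i, IsPeriodicFun (X i)) :
    ∫ x in cell, v x * divergence X x = -∫ x in cell, ∑ i, pd i v x * X i x := by
  have hint1 : ∀ i, IntegrableOn (fun x => pd i v x * X i x) cell := fun i => by
    obtain ⟨B, hB⟩ := (hXp i).exists_bound (hX i).continuous
    exact integrableOn_cell ((measurable_pd i v).mul (hX i).continuous.measurable) (L * B)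
      fun x _ => by rw [abs_mul]; exact mul_le_mul (abs_pd_le hv i x) (hB x) (abs_nonneg _) L.2
  have hint2 : ∀ i, IntegrableOn (fun x => v x * pd i (X i) x) cell := fun i =>
    integrableOn_cell_of_continuous (hv.continuous.mul (continuous_pd (hX i) i))
  have hzero : ∀ i, ∫ x in cell, (v x * pd i (X i) x + pd i v x * X i x) = 0 := fun i => by
    have hd : ∀ᵐ x, DifferentiableAt ℝ v x := hv.ae_differentiableAt
    rw [← integral_pd_eq_zero (hp.mul (hXp i))
      ((show LocallyLipschitz (fun p : ℝ × ℝ => p.1 * p.2) from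
        (contDiff_fst.mul contDiff_snd : ContDiff ℝ 1 _).locallyLipschitz).comp
        (hv.locallyLipschitz.prodMk (hX i).locallyLipschitz))
      (hd.mono fun x hx => hx.mul ((hX i).differentiable one_ne_zero x)) i]
    refine integral_congr_ae (ae_restrict_of_ae ?_)
    filter_upwards [hd] with x hx
    simp only [pd, fderiv_fun_mul hx ((hX i).differentiable one_ne_zero x), add_apply,
      FunLike.coe_smul, Pi.smul_apply, smul_eq_mul]
    ring
  have hsum : ∀ i, (∫ x in cell, v x * pd i (X i) x) = -∫ x in cell, pd i v x * X i x := fun i => by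
    have := hzero i
    rw [integral_add (hint2 i) (hint1 i)] at this
    linarith
  simp only [divergence, Finset.mul_sum]
  rw [integral_finsetSum _ fun i _ => hint2 i, integral_finsetSum _ fun i _ => hint1 i,
    ← Finset.sum_neg_distrib]
  exact Finset.sum_congr rfl fun i _ => hsum i

/-- The dual form of the total variation is at most the integral of the gradient. -/
theorem integral_mul_divergence_le {v : R3 → ℝ} {L : ℝ≥0} (hv : LipschitzWith L v)
    (hp : IsPeriodicFun v) {X : Fin 3 → R3 → ℝ} (hX : IsTestField X) :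
    ∫ x in cell, v x * divergence X x ≤ ∫ x in cell, gradNorm v x := by
  rw [integral_mul_divergence hv hp hX.smooth hX.periodic, ← integral_neg]
  refine integral_mono ?_ (integrableOn_gradNorm hv) fun x => ?_
  · refine (integrableOn_cell ?_ (3 * L) fun x _ => ?_).neg
    · exact Finset.measurable_sum _ fun i _ =>
        (measurable_pd i v).mul (hX.smooth i).continuous.measurable
    · exact (sum_mul_le_gradNorm v x _ (hX.bound x)).trans (gradNorm_le hv x)
  · have := (abs_le.1 (sum_mul_le_gradNorm v x _ (hX.bound x))).1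
    linarith

end Vale.Agent.P232
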